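import Vale.Agent.P353.AN.H.WLim

/-! # P353, all `N`, block H: core of S7 for weak profile systems (helper973) -/

open MeasureTheory Filter Topology
open scoped ContDiff ComplexConjugate

namespace Vale.Agent.P353.Z.AJ

open AH

variable {d : ℕ} {F : Type*} [NormedAddCommGroup F] [InnerProductSpace ℂ F]
variable {S : Setup d F} {ι : Type} (P : PW S ι)

lemma ipr_self (f : Cfg d → F) : ipr f f = ((nsq f : ℝ) : ℂ) := by
  unfold ipr nsq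
  rw [← integral_complex_ofReal]
  refine integral_congr_ae (Eventually.of_forall fun x => ?_)
  simp only [inner_self_eq_norm_sq_to_K]
  norm_cast

/-- one term of the pairing of `f` with `R² HH w` -/
lemma one_term {R ε C K M : ℝ} {f : Cfg d → F} {z z' : Cfg d → F} {β : Fin 16} {v : Cfg d → F}
    (hR : 0 ≤ R) (hε : 0 ≤ ε)
    (hrep : ∀ u : Cfg d → F, S.GInv u → ‖ipr f u - ipr z u‖ ≤ ε * Real.sqrt (nsq u))
    (hlim : ‖(R : ℂ) * ipr z (S.Qm (R⁻¹ ^ 2) β v) - ipr z' v‖ ≤ ε)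
    (hub : ‖ipr z' v‖ ≤ (C * ε + ε) * Real.sqrt (nsq v))
    (hC : 0 ≤ C) (hv : S.GInv v) (hn : nsq v ≤ M) (he : R ^ 2 * S.en (R⁻¹ ^ 2) v ≤ M)
    (hK : (C + 2) * Real.sqrt M + 1 ≤ K) :
    ‖(R : ℂ) * ipr f (S.Qm (R⁻¹ ^ 2) β v)‖ ≤ ε * K := by
  have hQ := GInv_Qm (R⁻¹ ^ 2) β hv
  have h1 := hrep _ (GInv_csmul (R : ℂ) hQ)
  have h2 : nsq (fun x => (R : ℂ) • S.Qm (R⁻¹ ^ 2) β v x) ≤ M := by
    rw [nsq_csmul, Complex.norm_real, Real.norm_eq_abs, sq_abs]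
    refine le_trans ?_ he
    have : nsq (S.Qm (R⁻¹ ^ 2) β v) ≤ S.en (R⁻¹ ^ 2) v :=
      Finset.single_le_sum (f := fun β => nsq (S.Qm (R⁻¹ ^ 2) β v))
        (fun β _ => nsq_nonneg _) (Finset.mem_univ β)
    gcongr
  rw [ipr_csmul, ipr_csmul] at h1
  have h3 : Real.sqrt (nsq (fun x => (R : ℂ) • S.Qm (R⁻¹ ^ 2) β v x)) ≤ Real.sqrt M := Real.sqrt_le_sqrt h2
  have h4 : Real.sqrt (nsq v) ≤ Real.sqrt M := Real.sqrt_le_sqrt hn
  have e : (R : ℂ) * ipr f (S.Qm (R⁻¹ ^ 2) β v) =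
      ((R : ℂ) * ipr f (S.Qm (R⁻¹ ^ 2) β v) - (R : ℂ) * ipr z (S.Qm (R⁻¹ ^ 2) β v)) +
      ((R : ℂ) * ipr z (S.Qm (R⁻¹ ^ 2) β v) - ipr z' v) + ipr z' v := by ring
  rw [e]
  calc _ ≤ ε * Real.sqrt M + ε + (C * ε + ε) * Real.sqrt M := by
        refine (norm_add₃_le).trans (add_le_add_three ?_ hlim ?_)
        · exact h1.trans (mul_le_mul_of_nonneg_left h3 hε)
        · exact hub.trans (mul_le_mul_of_nonneg_left h4 (by positivity))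
    _ = ε * ((C + 2) * Real.sqrt M + 1) := by ring
    _ ≤ _ := by gcongr

/-- upper bound for the representatives -/
lemma f_bound {f z : Cfg d → F} (hf : S.GInv f) {A ε M : ℝ} (hpos : 0 < nsq f)
    (h1 : ‖ipr f f - ipr z f‖ ≤ ε * Real.sqrt (nsq f)) (h2 : ‖ipr z f‖ ≤ A * Real.sqrt (nsq f))
    (hM : A + ε ≤ M) : Real.sqrt (nsq f) ≤ M := by
  have h3 : nsq f ≤ (A + ε) * Real.sqrt (nsq f) := by
    have h4 : ‖ipr f f‖ = nsq f := by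
      rw [ipr_self, Complex.norm_real, Real.norm_eq_abs, abs_of_nonneg (nsq_nonneg f)]
    calc nsq f = ‖ipr f f‖ := h4.symm
      _ = ‖(ipr f f - ipr z f) + ipr z f‖ := by rw [sub_add_cancel]
      _ ≤ ε * Real.sqrt (nsq f) + A * Real.sqrt (nsq f) := (norm_add_le _ _).trans (add_le_add h1 h2)
      _ = _ := by ring
  have h4 : Real.sqrt (nsq f) ^ 2 = nsq f := Real.sq_sqrt (nsq_nonneg f)
  have h5 : 0 < Real.sqrt (nsq f) := Real.sqrt_pos.mpr hpos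
  have h6 : Real.sqrt (nsq f) ≤ A + ε := by
    refine le_of_mul_le_mul_right (a := Real.sqrt (nsq f)) ?_ h5
    rw [← sq, h4]
    exact h3
  exact h6.trans hM

/-- final estimate -/
lemma one_endW {R ε η K : ℝ} (hε0 : 0 < ε) (hε1 : ε ≤ 1) (hK : 0 ≤ K) (hε4 : 256 * (ε * K) + 2 * ε ≤ η)
    {f w : Cfg d → F} (hf : S.GInv f) (hw : S.GInv w) {h e : Lp F 2 (volume : Measure (Cfg d))}
    (hwh : U.HB.toL hw.1 + h = U.HB.toL hf.1 + e) (he2 : ‖e‖ ≤ ε)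
    (hsum : R ^ 2 / 16 * S.en (R⁻¹ ^ 2) w + ‖h‖ ^ 2 ≤ ε * K)
    (hH : R ^ 4 * nsq (U.HB.HH S (R⁻¹ ^ 2) w) = 256 * ‖h‖ ^ 2) :
    nsq (fun x => w x - f x) ≤ η ∧ R ^ 2 * S.en (R⁻¹ ^ 2) w ≤ η ∧
      R ^ 4 * nsq (U.HB.HH S (R⁻¹ ^ 2) w) ≤ η := by
  have hen := en_nonneg (S := S) (R⁻¹ ^ 2) w
  have hp1 : 0 ≤ R ^ 2 / 16 * S.en (R⁻¹ ^ 2) w := by positivity
  have hh2 : ‖h‖ ^ 2 ≤ ε * K := by linarith
  have hKε : 0 ≤ ε * K := by positivity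
  refine ⟨?_, ?_, ?_⟩
  · have h1 : U.HB.toL hw.1 - U.HB.toL hf.1 =ᵐ[volume] fun x => w x - f x := by
      filter_upwards [Lp.coeFn_sub (U.HB.toL hw.1) (U.HB.toL hf.1), U.HB.coe_toL hw.1,
        U.HB.coe_toL hf.1] with x h1 h2 h3
      rw [h1, Pi.sub_apply, h2, h3]
    rw [← U.HB.norm_Lp h1]
    have h2 : U.HB.toL hw.1 - U.HB.toL hf.1 = e - h := by
      have h3 : U.HB.toL hw.1 = U.HB.toL hf.1 + e - h := by rw [← hwh]; abel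
      rw [h3]
      abel
    rw [h2]
    have h3 : ‖e - h‖ ^ 2 ≤ 2 * ‖e‖ ^ 2 + 2 * ‖h‖ ^ 2 := by
      have h4 := norm_sub_le e h
      nlinarith [sq_nonneg (‖e‖ - ‖h‖), norm_nonneg (e - h), norm_nonneg e, norm_nonneg h]
    have h5 : ‖e‖ ^ 2 ≤ ε := by
      nlinarith [norm_nonneg e]
    linarith
  · have := sq_nonneg ‖h‖
    linarith
  · rw [hH]
    linarith

/-- **core of S7**: close to the ground state profile, `J_R a` is close to a low vector with small `‖Hw‖` -/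
theorem coreW (hE : P.LimEq) (hQQ : QQStmt S) (hD : DenseStmt S) {J : ∀ i, P.D i → ℝ → ℝ → Cfg d → F}
    (hJ : P.Rep J) (i : ι) : ∃ c₀ M₀ : ℝ, 0 < c₀ ∧ 0 ≤ M₀ ∧ ∀ η : ℝ, 0 < η → ∃ (a : P.D i) (ε : ℝ), 0 < ε ∧
      ∀ᶠ R : ℝ in atTop, S.GInv (J i a ε R) ∧ c₀ ≤ nsq (J i a ε R) ∧ nsq (J i a ε R) ≤ M₀ ∧
      ∃ w : Cfg d → F, S.GInv w ∧
      nsq (fun x => w x - J i a ε R x) ≤ η ∧ R ^ 2 * S.en (R⁻¹ ^ 2) w ≤ η ∧
      R ^ 4 * nsq (U.HB.HH S (R⁻¹ ^ 2) w) ≤ η := by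
  classical
  obtain ⟨C0, hC0, hQQ⟩ := hQQ
  obtain ⟨c₀, ε₀, hc₀, hε₀, hlow⟩ := hJ.low i
  obtain ⟨C, hC, hub⟩ := ub' P i
  set M1 : ℝ := 2 * C + 2 with hM1
  have hM1p : 0 < M1 := by positivity
  set M : ℝ := M1 + 1 with hM
  have hMp : 0 < M := by positivity
  set C1 : ℝ := (256 + 8 * C0) * M ^ 2 + 8 * M ^ 2 with hC1
  have hC1p : 0 ≤ C1 := by positivity
  set K1 : ℝ := (C + 2) * Real.sqrt C1 + 1 with hK1
  have hK1p : 0 < K1 := by positivity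
  set K : ℝ := K1 + M with hK
  have hKp : 0 < K := by positivity
  refine ⟨c₀, M1 ^ 2, hc₀, by positivity, fun η hη => ?_⟩
  set ε : ℝ := min (min 1 ε₀) (η / (256 * K + 2)) with hε
  have hε0 : 0 < ε := lt_min (lt_min one_pos hε₀) (by positivity)
  have hε1 : ε ≤ 1 := (min_le_left _ _).trans (min_le_left _ _)
  have hε2 : ε ≤ ε₀ := (min_le_left _ _).trans (min_le_right _ _)
  have hε3 : ε * (256 * K + 2) ≤ η := by
    have : ε ≤ η / (256 * K + 2) := min_le_right _ _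
    rwa [le_div_iff₀ (by positivity)] at this
  obtain ⟨a, hag, hDa⟩ := P.app i ε hε0
  have han : ‖(a : P.H i)‖ ≤ 2 := by
    have h1 : (a : P.H i) = ((a : P.H i) - P.g i) + P.g i := by abel
    rw [h1]
    refine (norm_add_le _ _).trans ?_
    rw [P.g_norm i]
    linarith
  refine ⟨a, ε, hε0, ?_⟩
  have hub1 := hub a 1 one_pos
  have hub2 : ∀ᶠ R : ℝ in atTop, ∀ β, ∀ u : Cfg d → F, S.GInv u →
      ‖ipr (P.Z i R (P.Ds i β a)) u‖ ≤ (C * ‖(P.Ds i β a : P.H i)‖ + ε) * Real.sqrt (nsq u) := by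
    rw [eventually_all]
    exact fun β => hub (P.Ds i β a) ε hε0
  have hlim2 : ∀ᶠ R : ℝ in atTop, ∀ β, ∀ u : Cfg d → F, (S.GInv u ∧ nsq u ≤ C1 ∧ R ^ 2 * S.en (R⁻¹ ^ 2) u ≤ C1) →
      ‖(R : ℂ) * ipr (P.Z i R a) (S.Qm (R⁻¹ ^ 2) β u) - ipr (P.Z i R (P.Ds i β a)) u‖ ≤ ε := by
    rw [eventually_all]
    exact fun β => lim' P hE i β a C1 hε0
  filter_upwards [hub1, hub2, hlim2, rep' P hJ i a hε0, hJ.inv i a ε hε0, hlow a (hag.trans hε2) ε hε0 hε2,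
    eventually_ge_atTop (1 : ℝ)] with R r1 r2 r3 r4 r5 r6 hR
  set f : Cfg d → F := J i a ε R with hf
  have hR0 : 0 < R := by linarith
  -- upper bound for `f`
  have hfn : Real.sqrt (nsq f) ≤ M1 := by
    refine f_bound r5 (hc₀.trans_le r6) (r4 f r5) (r1 f r5) ?_
    have h7 : C * ‖(a : P.H i)‖ ≤ C * 2 := by gcongr
    rw [hM1]
    linarith
  have hfM : nsq f ≤ M1 ^ 2 := by
    rw [← Real.sq_sqrt (nsq_nonneg f)]
    gcongr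
  refine ⟨r5, r6, hfM, ?_⟩
  obtain ⟨w, hw, h, e, hwh, he, hh, hi⟩ := one_step hD hR r5 hε0
  have hfL : ‖U.HB.toL r5.1‖ ≤ M1 := by
    have := toL_norm r5.1
    rw [← Real.sqrt_sq (norm_nonneg (U.HB.toL r5.1)), this]
    exact hfn
  have hg : ‖U.HB.toL r5.1 + e‖ ≤ M := (norm_add_le _ _).trans (by rw [hM]; linarith)
  obtain ⟨b1, b2, b3, b4, b5⟩ := one_bounds hR hC0 hQQ hw hg hwh hh hi
  -- the pairing `⟨f, h⟩`
  have hterm : ∀ β, ‖(R : ℂ) * ipr f (S.Qm (R⁻¹ ^ 2) β (fun x => ((R : ℝ) : ℂ) • S.Qm (R⁻¹ ^ 2) β w x))‖ ≤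
      ε * K1 := by
    intro β
    have hvi : S.GInv (fun x => ((R : ℝ) : ℂ) • S.Qm (R⁻¹ ^ 2) β w x) := GInv_csmul _ (GInv_Qm _ β hw)
    have hn : nsq (fun x => ((R : ℝ) : ℂ) • S.Qm (R⁻¹ ^ 2) β w x) ≤ C1 := by
      rw [nsq_csmul, Complex.norm_real, Real.norm_eq_abs, sq_abs]
      have h3 : nsq (S.Qm (R⁻¹ ^ 2) β w) ≤ S.en (R⁻¹ ^ 2) w :=
        Finset.single_le_sum (f := fun β => nsq (S.Qm (R⁻¹ ^ 2) β w))
          (fun β _ => nsq_nonneg _) (Finset.mem_univ β)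
      calc R ^ 2 * nsq (S.Qm (R⁻¹ ^ 2) β w) ≤ R ^ 2 * S.en (R⁻¹ ^ 2) w := by gcongr
        _ ≤ C1 := by
          rw [hC1]
          have : 0 ≤ (256 + 8 * C0) * M ^ 2 := by positivity
          linarith
    have hen : R ^ 2 * S.en (R⁻¹ ^ 2) (fun x => ((R : ℝ) : ℂ) • S.Qm (R⁻¹ ^ 2) β w x) ≤ C1 := by
      rw [en_csmul _ _ (GInv_Qm _ β hw).1, Complex.norm_real, Real.norm_eq_abs, sq_abs]
      calc R ^ 2 * (R ^ 2 * S.en (R⁻¹ ^ 2) (S.Qm (R⁻¹ ^ 2) β w))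
          = R ^ 4 * S.en (R⁻¹ ^ 2) (S.Qm (R⁻¹ ^ 2) β w) := by ring
        _ ≤ C1 := by
          rw [hC1]
          have := b5 β
          have : 0 ≤ 8 * M ^ 2 := by positivity
          linarith
    refine one_term (C := C) hR0.le hε0.le r4 (r3 β _ ⟨hvi, hn, hen⟩) ((r2 β _ hvi).trans ?_) hC hvi hn hen le_rfl
    refine mul_le_mul_of_nonneg_right ?_ (Real.sqrt_nonneg _)
    have := hDa β
    gcongr
  have hfh : ‖(inner ℂ (U.HB.toL r5.1) h : ℂ)‖ ≤ ε * K1 := by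
    have h1 : (inner ℂ (U.HB.toL r5.1) h : ℂ) = (16 : ℂ)⁻¹ * ∑ β, (R : ℂ) *
        ipr f (S.Qm (R⁻¹ ^ 2) β (fun x => ((R : ℝ) : ℂ) • S.Qm (R⁻¹ ^ 2) β w x)) := by
      rw [ipr_HH r5 hw, hh, inner_smul_right, toL_inner]
      push_cast
      ring
    rw [h1, norm_mul]
    have h2 : ‖∑ β, (R : ℂ) * ipr f (S.Qm (R⁻¹ ^ 2) β (fun x => ((R : ℝ) : ℂ) • S.Qm (R⁻¹ ^ 2) β w x))‖ ≤
        ∑ _β : Fin 16, ε * K1 := norm_sum_le_of_le _ fun β _ => hterm β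
    rw [Finset.sum_const, Finset.card_univ, Fintype.card_fin, nsmul_eq_mul] at h2
    have h3 : ‖(16 : ℂ)⁻¹‖ = 1 / 16 := by
      rw [norm_inv]
      norm_num
    rw [h3]
    push_cast at h2
    linarith
  have hsum : R ^ 2 / 16 * S.en (R⁻¹ ^ 2) w + ‖h‖ ^ 2 ≤ ε * K := by
    have h1 : (inner ℂ (U.HB.toL hw.1 + h) h : ℂ).re = R ^ 2 / 16 * S.en (R⁻¹ ^ 2) w + ‖h‖ ^ 2 := by
      rw [inner_add_left, Complex.add_re, hi, Complex.ofReal_re]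
      congr 1
      exact inner_self_eq_norm_sq (𝕜 := ℂ) h
    rw [← h1, hwh, inner_add_left, Complex.add_re]
    have h2 := (Complex.re_le_norm _).trans hfh
    have h3 : (inner ℂ e h : ℂ).re ≤ ε * M :=
      (Complex.re_le_norm _).trans ((norm_inner_le_norm _ _).trans (mul_le_mul he b2 (norm_nonneg _) hε0.le))
    calc _ ≤ ε * K1 + ε * M := add_le_add h2 h3
      _ = _ := by rw [hK]; ring
  have hε4 : 256 * (ε * K) + 2 * ε ≤ η := by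
    calc 256 * (ε * K) + 2 * ε = ε * (256 * K + 2) := by ring
      _ ≤ η := hε3
  exact ⟨w, hw, one_endW hε0 hε1 hKp.le hε4 r5 hw hwh he hsum b3⟩

end Vale.Agent.P353.Z.AJ
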