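import Vale.Agent.P353.AN.H.Lim
import Vale.Agent.P353.Z.U.A2
import Vale.Agent.P353.Z.U.All

/-! # P353, all `N`, block H: the approximate resolvent of a trial function (helper973) -/

open MeasureTheory Filter Topology
open scoped ContDiff ComplexConjugate

namespace Vale.Agent.P353.Z.AH

section abs

variable {L : Type*} [NormedAddCommGroup L] [InnerProductSpace ℂ L]

lemma est_a {f w h e : L} (hf : w + h = f + e) (hE : 0 ≤ (inner ℂ w h : ℂ).re) :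
    ‖w‖ ≤ ‖f + e‖ ∧ ‖h‖ ≤ ‖f + e‖ ∧ 2 * (inner ℂ w h : ℂ).re ≤ ‖f + e‖ ^ 2 := by
  have h1 : ‖f + e‖ ^ 2 = ‖w‖ ^ 2 + 2 * (inner ℂ w h : ℂ).re + ‖h‖ ^ 2 := by
    rw [← hf]
    exact norm_add_sq (𝕜 := ℂ) w h
  have h2 := norm_nonneg w
  have h3 := norm_nonneg h
  have h4 := norm_nonneg (f + e)
  refine ⟨?_, ?_, ?_⟩
  · exact abs_le_of_sq_le_sq' (by nlinarith) h4 |>.2
  · exact abs_le_of_sq_le_sq' (by nlinarith) h4 |>.2
  · nlinarith

lemma est_b {f w h e : L} (hf : w + h = f + e) :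
    (inner ℂ w h : ℂ).re + ‖h‖ ^ 2 ≤
      ‖f‖ ^ 2 - (inner ℂ f w : ℂ).re + (‖w‖ + 2 * ‖h‖) * ‖e‖ := by
  have e1 : f = w + h - e := by rw [hf]; abel
  have e2 : f - w = h - e := by rw [e1]; abel
  have h1 : ‖f‖ ^ 2 - (inner ℂ f w : ℂ).re = (inner ℂ f (f - w) : ℂ).re := by
    rw [inner_sub_right, Complex.sub_re]
    congr 1
    exact (inner_self_eq_norm_sq (𝕜 := ℂ) f).symm
  have h2 : (inner ℂ f (f - w) : ℂ).re = (inner ℂ w h : ℂ).re + ‖h‖ ^ 2 + ‖e‖ ^ 2 -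
      (inner ℂ w e : ℂ).re - (inner ℂ h e : ℂ).re - (inner ℂ e h : ℂ).re := by
    rw [e2, e1]
    simp only [inner_sub_left, inner_sub_right, inner_add_left, Complex.sub_re, Complex.add_re]
    have h3 : (inner ℂ h h : ℂ).re = ‖h‖ ^ 2 := inner_self_eq_norm_sq (𝕜 := ℂ) h
    have h4 : (inner ℂ e e : ℂ).re = ‖e‖ ^ 2 := inner_self_eq_norm_sq (𝕜 := ℂ) e
    rw [h3, h4]
    ring
  have h5 : (inner ℂ w e : ℂ).re ≤ ‖w‖ * ‖e‖ := (Complex.re_le_norm _).trans (norm_inner_le_norm _ _)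
  have h6 : (inner ℂ h e : ℂ).re ≤ ‖h‖ * ‖e‖ := (Complex.re_le_norm _).trans (norm_inner_le_norm _ _)
  have h7 : (inner ℂ e h : ℂ).re ≤ ‖e‖ * ‖h‖ := (Complex.re_le_norm _).trans (norm_inner_le_norm _ _)
  rw [h1, h2]
  nlinarith [sq_nonneg ‖e‖]

end abs

variable {d : ℕ} {F : Type*} [NormedAddCommGroup F] [InnerProductSpace ℂ F]
variable {S : Setup d F} {ι : Type} (P : Prof S ι)

open Classical in
/-- the trial function as an `L²` vector -/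
noncomputable def Jv (i : ι) (R : ℝ) (a : P.D i) : Lp F 2 (volume : Measure (Cfg d)) :=
  if h : S.GInv (P.J i R a) then U.HB.toL h.1 else 0

lemma Jv_of {i : ι} {R : ℝ} {a : P.D i} (h : S.GInv (P.J i R a)) : Jv P i R a = U.HB.toL h.1 := by
  unfold Jv
  rw [dif_pos h]

lemma toL_inner {u v : Cfg d → F} (hu : Setup.Tst u) (hv : Setup.Tst v) :
    inner ℂ (U.HB.toL hu) (U.HB.toL hv) = ipr u v :=
  U.HB.inner_Lp (U.HB.coe_toL hu) (U.HB.coe_toL hv)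

lemma toL_norm {u : Cfg d → F} (hu : Setup.Tst u) : ‖U.HB.toL hu‖ ^ 2 = nsq u :=
  U.HB.norm_Lp (U.HB.coe_toL hu)

lemma Jv_inner {i : ι} (a : P.D i) : ∀ᶠ R in atTop, ∀ (u : Cfg d → F) (hu : Setup.Tst u),
    inner ℂ (Jv P i R a) (U.HB.toL hu) = ipr (P.J i R a) u := by
  filter_upwards [P.J_inv i a] with R h u hu
  rw [Jv_of P h, toL_inner]

lemma Jv_gram {i : ι} (a b : P.D i) : Tendsto (fun R => inner ℂ (Jv P i R a) (Jv P i R b)) atTop
    (𝓝 (inner ℂ (a : P.H i) (b : P.H i))) := by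
  refine (P.gram i a b).congr' ?_
  filter_upwards [P.J_inv i a, P.J_inv i b] with R h h'
  rw [Jv_of P h, Jv_of P h', toL_inner]

lemma Jv_norm {i : ι} (a : P.D i) : Tendsto (fun R => ‖Jv P i R a‖) atTop (𝓝 ‖(a : P.H i)‖) := by
  have h1 : Tendsto (fun R => ‖Jv P i R a‖ ^ 2) atTop (𝓝 (‖(a : P.H i)‖ ^ 2)) := by
    have h := (Complex.continuous_re.tendsto _).comp (Jv_gram P a a)
    have e1 : ∀ R, (inner ℂ (Jv P i R a) (Jv P i R a) : ℂ).re = ‖Jv P i R a‖ ^ 2 := fun R =>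
      inner_self_eq_norm_sq (𝕜 := ℂ) _
    have e2 : (inner ℂ (a : P.H i) (a : P.H i) : ℂ).re = ‖(a : P.H i)‖ ^ 2 :=
      inner_self_eq_norm_sq (𝕜 := ℂ) _
    rw [← e2]
    refine h.congr fun R => ?_
    exact e1 R
  have h2 := (Real.continuous_sqrt.tendsto _).comp h1
  simpa [Function.comp_def, Real.sqrt_sq (norm_nonneg _)] using h2

lemma GInv_csmul (c : ℂ) {u : Cfg d → F} (hu : S.GInv u) : S.GInv (fun y => c • u y) := by
  refine ⟨U.HB.Tst_csmul c hu.1, fun C x => ?_⟩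
  rw [U.HB.G_csmul S C c hu.1.1, hu.2, smul_zero]

lemma GInv_Qm (m : ℝ) (β : Fin 16) {u : Cfg d → F} (hu : S.GInv u) : S.GInv (S.Qm m β u) := by
  refine ⟨U.HB.Tst_Qm S m β hu.1, fun C x => ?_⟩
  have h0 : S.G C u = fun _ => 0 := funext fun y => hu.2 C y
  rw [U.All.A3 S m C β u hu.1.1 x, h0, U.HB.Qm_zero]

lemma nsq_csmul (c : ℂ) (u : Cfg d → F) : nsq (fun x => c • u x) = ‖c‖ ^ 2 * nsq u := by
  unfold nsq
  rw [← integral_const_mul]
  refine integral_congr_ae (Eventually.of_forall fun x => ?_)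
  simp only [norm_smul, mul_pow]

lemma en_csmul (m : ℝ) (c : ℂ) {u : Cfg d → F} (hu : Setup.Tst u) :
    S.en m (fun x => c • u x) = ‖c‖ ^ 2 * S.en m u := by
  unfold Setup.en
  rw [Finset.mul_sum]
  refine Finset.sum_congr rfl fun β _ => ?_
  rw [← nsq_csmul]
  congr 1
  funext x
  exact U.HB.Qm_csmul S m β c hu.1 x

lemma en_nonneg (m : ℝ) (u : Cfg d → F) : 0 ≤ S.en m u :=
  Finset.sum_nonneg fun β _ => nsq_nonneg _

end Vale.Agent.P353.Z.AH
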