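import Vale.Agent.P353.AN.H.Stmt
import Vale.Agent.P353.Z.RotD

/-! # P353, block H: the rotation by `4π` is a scalar (helper973) -/

open MeasureTheory Filter Topology
open scoped ContDiff ComplexConjugate

namespace Vale.Agent.P353.Z.AH.Cir

variable {d : ℕ} {F : Type*} [NormedAddCommGroup F] [InnerProductSpace ℂ F]
variable (S : Setup d F) [CompleteSpace F]

lemma gt_period (k l : Fin 9) : S.gt k l (4 * Real.pi) = 1 := by
  have e : 4 * Real.pi / 2 = 2 * Real.pi := by ring
  rw [Setup.gt, e, Real.cos_two_pi, Real.sin_two_pi]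
  simp

theorem st_scalar [FiniteDimensional ℂ F] (hI : S.Irr) (hne : ∃ v : F, v ≠ 0) {k l : Fin 9} (h : k ≠ l) :
    ∃ c : ℂ, ∀ v, S.st k l (4 * Real.pi) v = c • v := by
  obtain ⟨v₀, hv₀⟩ := hne
  have hnt : Nontrivial F := ⟨⟨v₀, 0, hv₀⟩⟩
  set T : F →L[ℂ] F := S.st k l (4 * Real.pi) with hT
  have hcomm : ∀ α A (v : F), T (S.th α A v) = S.th α A (T v) := by
    intro α A v
    have h1 := S.vec_mul_st h 1 A α (4 * Real.pi)
    rw [gt_period, mul_one, S.vec_one] at h1
    have h2 := congrArg (fun X : F →L[ℂ] F => X v) h1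
    simp only [mul_apply_eq_comp] at h2
    exact h2.symm
  obtain ⟨μ, hμ⟩ := Module.End.exists_eigenvalue (T : F →ₗ[ℂ] F)
  rcases hI (Module.End.eigenspace (T : F →ₗ[ℂ] F) μ) (fun α A v hv => by
    rw [Module.End.mem_eigenspace_iff] at hv ⊢
    change T (S.th α A v) = μ • S.th α A v
    have hv' : T v = μ • v := hv
    rw [hcomm, hv', map_smul]) with h1 | h1
  · exact absurd h1 hμ
  · refine ⟨μ, fun v => ?_⟩
    have hv : v ∈ Module.End.eigenspace (T : F →ₗ[ℂ] F) μ := by
      rw [h1]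
      exact Submodule.mem_top
    exact Module.End.mem_eigenspace_iff.mp hv

end Vale.Agent.P353.Z.AH.Cir
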