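import Vale.Agent.P353.AN.H.Stmt
import Vale.Agent.P353.Z.U.All

/-! # P353, all `N`, block H8: torus invariant low spaces give invariant low spaces (helper221)

`k_zm` for `InvP plT` with the core gap H5; H6 with `lam = 0` gives weak zero modes; the anticommutator `A1` gives weak rotation
invariance in all planes; radial mollification and cutoff give `Inv` approximants; `ws` and `low_of_lim`. -/

open MeasureTheory Filter Topology
open scoped ContDiff Matrix

namespace Vale.Agent.P353.Z.AH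

variable {d : ℕ} {F : Type*} [NormedAddCommGroup F] [InnerProductSpace ℂ F]

namespace Br

open U.HB U.WS Moll

variable (S : Setup d F) {P : Fin 9 → Fin 9 → Prop}

lemma InvP_add {u v : Cfg d → F} (hu : S.InvP P u) (hv : S.InvP P v) :
    S.InvP P (fun y => u y + v y) := by
  refine ⟨hu.1.add hv.1, fun C x => ?_, fun k l h x => ?_⟩
  · rw [G_add S C hu.1.1 hv.1.1, hu.2.1, hv.2.1, add_zero]
  · rw [J_add S k l hu.1.1 hv.1.1, hu.2.2 k l h, hv.2.2 k l h, add_zero]

lemma InvP_csmul (c : ℂ) {u : Cfg d → F} (hu : S.InvP P u) : S.InvP P (fun y => c • u y) := by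
  refine ⟨Tst_csmul c hu.1, fun C x => ?_, fun k l h x => ?_⟩
  · rw [G_csmul S C c hu.1.1, hu.2.1, smul_zero]
  · rw [J_csmul S k l c hu.1.1, hu.2.2 k l h, smul_zero]

lemma InvP_zero : S.InvP P (fun _ : Cfg d => (0 : F)) := by
  refine ⟨Tst_zero, fun C x => ?_, fun k l h x => ?_⟩
  · have h := G_csmul S C 0 (u := fun _ => (0 : F)) contDiff_const x
    simpa using h
  · have h := J_csmul S k l 0 (u := fun _ => (0 : F)) contDiff_const x
    simpa using h

lemma InvP_sum {ι : Type*} (s : Finset ι) (a : ι → ℂ) {u : ι → Cfg d → F} (hu : ∀ k, S.InvP P (u k)) :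
    S.InvP P (fun y => ∑ k ∈ s, a k • u k y) := by
  classical
  induction s using Finset.induction_on with
  | empty => simpa using InvP_zero S
  | insert b s hb ih =>
    simp only [Finset.sum_insert hb]
    exact InvP_add S (InvP_csmul S (a b) (hu b)) ih

lemma J_zero (k l : Fin 9) (x : Cfg d) : S.J k l (fun _ => (0 : F)) x = 0 := by
  have h := J_csmul S k l 0 (u := fun _ => (0 : F)) contDiff_const x
  simpa using h

/-- the Hamiltonian preserves `InvP P` -/
lemma InvP_HH (hP : ∀ a b, P a b → Same a b) (hA2 : U.A2Stmt S) (hA3 : U.A3Stmt S) (m : ℝ)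
    {u : Cfg d → F} (hu : S.InvP P u) : S.InvP P (HH S m u) := by
  refine ⟨Tst_HH S m hu.1, fun C x => ?_, fun k l h x => ?_⟩
  · have h0 : S.G C u = fun _ => 0 := funext fun y => hu.2.1 C y
    have h1 : ∀ β, S.G C (S.Qm m β u) = fun _ => 0 := by
      intro β
      funext y
      rw [hA3 m C β u hu.1.1 y, h0, Qm_zero]
    have h2 : ∀ β, S.G C (S.Qm m β (S.Qm m β u)) x = 0 := by
      intro β
      rw [hA3 m C β _ (contDiff_Qm S m β hu.1.1) x, h1, Qm_zero]
    have h3 : ∀ s : Finset (Fin 16), S.G C (fun y => ∑ β ∈ s, S.Qm m β (S.Qm m β u) y) x = 0 := by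
      intro s
      classical
      induction s using Finset.induction_on with
      | empty =>
        have := (Inv_zero S).2.1 C x
        simpa using this
      | insert b s hb ih =>
        simp only [Finset.sum_insert hb]
        rw [G_add S C (contDiff_Qm S m b (contDiff_Qm S m b hu.1.1))
          (ContDiff.sum fun β _ => contDiff_Qm S m β (contDiff_Qm S m β hu.1.1)), h2, ih, add_zero]
    exact h3 Finset.univ
  · have h0 : S.J k l u = fun _ => 0 := funext fun y => hu.2.2 k l h y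
    have h1 : ∀ β, S.J k l (S.Qm m β u) = fun y => ∑ γ, (Complex.I / 2 * S.g2 k l β γ) •
        S.Qm m γ u y := by
      intro β
      funext y
      have h2 := hA2 m k l (hP k l h) β u hu.1.1 y
      rw [h0, Qm_zero, sub_zero, Finset.smul_sum] at h2
      simpa only [smul_smul] using h2
    have h2 : ∀ β, S.J k l (S.Qm m β (S.Qm m β u)) x =
        ∑ γ, (Complex.I / 2 * S.g2 k l β γ) • S.Qm m β (S.Qm m γ u) x +
        ∑ γ, (Complex.I / 2 * S.g2 k l β γ) • S.Qm m γ (S.Qm m β u) x := by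
      intro β
      have h3 := hA2 m k l (hP k l h) β _ (contDiff_Qm S m β hu.1.1) x
      rw [h1, Qm_sum S m β _ _ (fun γ => contDiff_Qm S m γ hu.1.1), sub_eq_iff_eq_add] at h3
      rw [h3, Finset.smul_sum, add_comm]
      simp only [smul_smul]
    have h3 : ∀ s : Finset (Fin 16), S.J k l (fun y => ∑ β ∈ s, S.Qm m β (S.Qm m β u) y) x =
        ∑ β ∈ s, S.J k l (S.Qm m β (S.Qm m β u)) x := by
      intro s
      classical
      induction s using Finset.induction_on with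
      | empty =>
        simpa using J_zero S k l x
      | insert b s hb ih =>
        simp only [Finset.sum_insert hb]
        rw [J_add S k l (contDiff_Qm S m b (contDiff_Qm S m b hu.1.1))
          (ContDiff.sum fun β _ => contDiff_Qm S m β (contDiff_Qm S m β hu.1.1)), ih]
    have h4 : ∀ β γ, S.g2 k l β γ = - S.g2 k l γ β := by
      intro β γ
      have := congrFun (congrFun (Setup.g2_transpose S k l) γ) β
      simpa [Matrix.transpose_apply] using this
    refine (h3 Finset.univ).trans ?_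
    simp only [h2, Finset.sum_add_distrib]
    rw [Finset.sum_comm (f := fun β γ => (Complex.I / 2 * S.g2 k l β γ) • S.Qm m γ (S.Qm m β u) x),
      ← Finset.sum_add_distrib]
    refine Finset.sum_eq_zero fun β _ => ?_
    rw [← Finset.sum_add_distrib]
    refine Finset.sum_eq_zero fun γ _ => ?_
    rw [h4 γ β, ← add_smul]
    simp

/-- `InvP P` test functions in `L²` -/
def InvSubP (P : Fin 9 → Fin 9 → Prop) : Submodule ℂ (Lp F 2 (volume : Measure (Cfg d))) where
  carrier := {f | ∃ φ, S.InvP P φ ∧ f =ᵐ[volume] φ}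
  zero_mem' := ⟨fun _ => 0, InvP_zero S, Lp.coeFn_zero _ _ _⟩
  add_mem' := by
    rintro f g ⟨φ, hφ, hf⟩ ⟨ψ, hψ, hg⟩
    exact ⟨fun y => φ y + ψ y, InvP_add S hφ hψ, (Lp.coeFn_add f g).trans (hf.add hg)⟩
  smul_mem' := by
    rintro c f ⟨φ, hφ, hf⟩
    exact ⟨fun y => c • φ y, InvP_csmul S c hφ, (Lp.coeFn_smul c f).trans (hf.const_smul c)⟩

/-- range of the Hamiltonian on `InvP P` test functions -/
def RngSubP (P : Fin 9 → Fin 9 → Prop) (m : ℝ) : Submodule ℂ (Lp F 2 (volume : Measure (Cfg d))) where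
  carrier := {f | ∃ φ, S.InvP P φ ∧ f =ᵐ[volume] HH S m φ}
  zero_mem' := by
    refine ⟨fun _ => 0, InvP_zero S, ?_⟩
    have h : HH S m (fun _ : Cfg d => (0 : F)) = fun _ => 0 := by
      funext x
      have := HH_csmul S m 0 (u := fun _ => (0 : F)) contDiff_const x
      simpa using this
    rw [h]
    exact Lp.coeFn_zero _ _ _
  add_mem' := by
    rintro f g ⟨φ, hφ, hf⟩ ⟨ψ, hψ, hg⟩
    refine ⟨fun y => φ y + ψ y, InvP_add S hφ hψ, (Lp.coeFn_add f g).trans ?_⟩
    filter_upwards [hf, hg] with x hx hy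
    rw [Pi.add_apply, hx, hy, HH_add S m hφ.1.1 hψ.1.1]
  smul_mem' := by
    rintro c f ⟨φ, hφ, hf⟩
    refine ⟨fun y => c • φ y, InvP_csmul S c hφ, (Lp.coeFn_smul c f).trans ?_⟩
    filter_upwards [hf] with x hx
    rw [Pi.smul_apply, hx, HH_csmul S m c hφ.1.1]

lemma Rng_le_InvP (hP : ∀ a b, P a b → Same a b) (hA2 : U.A2Stmt S) (hA3 : U.A3Stmt S) (m : ℝ) :
    RngSubP S P m ≤ InvSubP S P := by
  rintro f ⟨φ, hφ, hf⟩
  exact ⟨HH S m φ, InvP_HH S hP hA2 hA3 m hφ, hf⟩

lemma clInvP_of_mem {f : Lp F 2 (volume : Measure (Cfg d))} (hf : f ∈ closure (InvSubP S P : Set _)) :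
    ∃ w : ℕ → Cfg d → F, (∀ n, S.InvP P (w n)) ∧ L2t w f := by
  obtain ⟨g, hg, hl⟩ := mem_closure_iff_seq_limit.mp hf
  choose w hw hw2 using hg
  refine ⟨w, hw, fun n => (hw n).1.memLp, Lp.memLp f, ?_⟩
  have h1 : ∀ n, nsq (fun x => w n x - f x) = ‖g n - f‖ ^ 2 := by
    intro n
    rw [norm_Lp (u := fun x => w n x - f x)]
    refine (Lp.coeFn_sub (g n) f).trans ?_
    filter_upwards [hw2 n] with x hx
    rw [Pi.sub_apply, hx]
  simp only [h1]
  have h2 := (tendsto_iff_norm_sub_tendsto_zero.mp hl).pow 2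
  simpa using h2

/-- the range argument -/
lemma range_gapP {m : ℝ} (hG : ∀ φ, S.InvP P φ → 8 * m * S.en m φ ≤ nsq (HH S m φ))
    (hm : 0 < m) {u : Cfg d → F} (hu : S.InvP P u)
    (hr : toL hu.1 ∈ closure (RngSubP S P m : Set (Lp F 2 (volume : Measure (Cfg d))))) :
    8 * m * nsq u ≤ ∑ β, nsq (S.Qm m β u) := by
  obtain ⟨g, hg, hl⟩ := mem_closure_iff_seq_limit.mp hr
  choose φ hφ hg2 using hg
  set q : ℝ := ∑ β, nsq (S.Qm m β u) with hq
  have hq0 : 0 ≤ q := Finset.sum_nonneg fun β _ => nsq_nonneg _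
  have h1 : ∀ n, ‖inner ℂ (g n) (toL hu.1)‖ ≤ Real.sqrt (‖g n‖ ^ 2 / (8 * m)) * Real.sqrt q := by
    intro n
    rw [inner_Lp (hg2 n) (coe_toL hu.1), inner_HH S m (hφ n).1 hu.1]
    refine (form_cs S m (hφ n).1 hu.1).trans ?_
    refine mul_le_mul_of_nonneg_right (Real.sqrt_le_sqrt ?_) (Real.sqrt_nonneg _)
    rw [le_div_iff₀ (by positivity), norm_Lp (hg2 n), mul_comm]
    exact hG (φ n) (hφ n)
  have h2 : Tendsto (fun n => ‖inner ℂ (g n) (toL hu.1)‖) atTop (𝓝 (nsq u)) := by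
    have h3 : Tendsto (fun n => ‖inner ℂ (g n) (toL hu.1)‖) atTop
        (𝓝 ‖(inner ℂ (toL hu.1) (toL hu.1) : ℂ)‖) :=
      (hl.inner tendsto_const_nhds).norm
    rw [inner_self_eq_norm_sq_to_K] at h3
    have h4 : ‖((‖toL hu.1‖ : ℂ)) ^ 2‖ = nsq u := by
      rw [norm_pow, Complex.norm_real, norm_norm, norm_Lp (coe_toL hu.1)]
    rw [← h4]
    exact h3
  have h5 : Tendsto (fun n => Real.sqrt (‖g n‖ ^ 2 / (8 * m)) * Real.sqrt q) atTop
      (𝓝 (Real.sqrt (nsq u / (8 * m)) * Real.sqrt q)) := by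
    refine Tendsto.mul_const _ ?_
    refine (Real.continuous_sqrt.tendsto _).comp ?_
    refine Tendsto.div_const ?_ _
    have h6 := (hl.norm).pow 2
    rwa [norm_Lp (coe_toL hu.1)] at h6
  have h6 := le_of_tendsto_of_tendsto' h2 h5 h1
  rw [← Real.sqrt_mul' _ hq0] at h6
  have hn := nsq_nonneg u
  have h7 : nsq u ^ 2 ≤ nsq u / (8 * m) * q := by
    have h8 : 0 ≤ nsq u / (8 * m) * q := by positivity
    calc nsq u ^ 2 ≤ Real.sqrt (nsq u / (8 * m) * q) ^ 2 := by gcongr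
      _ = _ := Real.sq_sqrt h8
  rcases hn.eq_or_lt with h0 | h0
  · rw [← h0, mul_zero]; exact hq0
  · have h9 : nsq u * (8 * m * nsq u) ≤ nsq u * q := by
      have h10 : nsq u / (8 * m) * q = nsq u * q / (8 * m) := by ring
      rw [h10, le_div_iff₀ (by positivity)] at h7
      nlinarith
    exact le_of_mul_le_mul_left h9 h0

/-- `k` independent weak zero modes in the closure of `InvP P` -/
lemma k_zmP [CompleteSpace F] (hP : ∀ a b, P a b → Same a b) (hA2 : U.A2Stmt S) (hA3 : U.A3Stmt S)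
    {k : ℕ} {m : ℝ} (hG : ∀ φ, S.InvP P φ → 8 * m * S.en m φ ≤ nsq (HH S m φ))
    (hm : 0 < m) (hL : S.LowP P k m (8 * m)) : ∃ Ψ : Fin k → Cfg d → F,
      (∀ j, ∃ w : ℕ → Cfg d → F, (∀ n, S.InvP P (w n)) ∧ L2t w (Ψ j)) ∧
      (∀ j φ, S.InvP P φ → ∫ x, inner ℂ (HH S m φ x) (Ψ j x) = 0) ∧
      ∀ a : Fin k → ℂ, a ≠ 0 → 0 < nsq (fun x => ∑ j, a j • Ψ j x) := by
  obtain ⟨u, hu, hlow⟩ := hL
  set R := (RngSubP S P m).topologicalClosure with hR
  have hRI : R ≤ (InvSubP S P).topologicalClosure :=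
    Submodule.topologicalClosure_mono (Rng_le_InvP S hP hA2 hA3 m)
  have : CompleteSpace R := (Submodule.isClosed_topologicalClosure _).completeSpace_coe
  have hdec : ∀ j, ∃ w ∈ R, ∃ Ψ ∈ Rᗮ, toL (hu j).1 = w + Ψ := fun j =>
    Submodule.exists_add_mem_mem_orthogonal (K := R) (toL (hu j).1)
  choose w hw Ψ hΨ hsum using hdec
  have hΨe : ∀ j, Ψ j = toL (hu j).1 - w j := fun j => by rw [hsum j]; abel
  refine ⟨fun j => Ψ j, fun j => ?_, fun j φ hφ => ?_, fun a ha => ?_⟩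
  · refine clInvP_of_mem S ?_
    have h1 : toL (hu j).1 ∈ (InvSubP S P).topologicalClosure :=
      Submodule.le_topologicalClosure _ ⟨u j, hu j, coe_toL (hu j).1⟩
    have h2 : Ψ j ∈ (InvSubP S P).topologicalClosure := by
      rw [hΨe j]
      exact Submodule.sub_mem _ h1 (hRI (hw j))
    exact h2
  · have h1 : toL (Tst_HH S m hφ.1) ∈ R :=
      Submodule.le_topologicalClosure _ ⟨φ, hφ, coe_toL _⟩
    have h2 := (Submodule.mem_orthogonal R (Ψ j)).mp (hΨ j) _ h1
    rw [inner_Lp (coe_toL _) (EventuallyEq.rfl (f := (Ψ j : (Cfg d) → F)))] at h2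
    exact h2
  · by_contra hneg
    have h0 : nsq (fun x => ∑ j, a j • (Ψ j : (Cfg d) → F) x) = 0 :=
      le_antisymm (not_lt.mp hneg) (nsq_nonneg _)
    have hae : ((∑ j, a j • Ψ j : Lp F 2 (volume : Measure (Cfg d))) : (Cfg d) → F) =ᵐ[volume]
        fun x => ∑ j, a j • (Ψ j : (Cfg d) → F) x := by
      have h1 := Lp.coeFn_finsetSum (Finset.univ) (fun j => a j • Ψ j)
      refine h1.trans ?_
      have h2 : ∀ j, ((a j • Ψ j : Lp F 2 (volume : Measure (Cfg d))) : (Cfg d) → F) =ᵐ[volume]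
          fun x => a j • (Ψ j : (Cfg d) → F) x := fun j => Lp.coeFn_smul (a j) (Ψ j)
      filter_upwards [ae_all_iff.mpr h2] with x hx
      simp only [Finset.sum_apply, hx]
    have hz : (∑ j, a j • Ψ j : Lp F 2 (volume : Measure (Cfg d))) = 0 := by
      have h1 := norm_Lp hae
      rw [h0] at h1
      exact norm_eq_zero.mp (by nlinarith [norm_nonneg (∑ j, a j • Ψ j)])
    have hui := InvP_sum S Finset.univ a hu
    have htl : toL hui.1 = ∑ j, a j • toL (hu j).1 := by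
      refine Lp.ext ?_
      refine (coe_toL hui.1).trans (EventuallyEq.symm ?_)
      refine (Lp.coeFn_finsetSum (Finset.univ) (fun j => a j • toL (hu j).1)).trans ?_
      have h2 : ∀ j, ((a j • toL (hu j).1 : Lp F 2 (volume : Measure (Cfg d))) : (Cfg d) → F) =ᵐ[volume]
          fun x => a j • u j x := fun j =>
        (Lp.coeFn_smul (a j) (toL (hu j).1)).trans ((coe_toL (hu j).1).const_smul (a j))
      filter_upwards [ae_all_iff.mpr h2] with x hx
      simp only [Finset.sum_apply, hx]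
    have hmem : toL hui.1 ∈ R := by
      have h1 : toL hui.1 = ∑ j, a j • w j := by
        rw [htl]
        have : ∀ j, toL (hu j).1 = w j + Ψ j := hsum
        simp only [this, smul_add, Finset.sum_add_distrib, hz, add_zero]
      rw [h1]
      exact Submodule.sum_mem _ fun j _ => Submodule.smul_mem _ _ (hw j)
    have h1 := range_gapP S hG hm hui hmem
    have h2 := hlow a ha
    linarith

/-! ## weak rotation invariance from the weak supercharge equation -/

/-- `tr ((Γγ^{kl})(Γγ^{ij})ᵀ)` -/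
lemma trace_GG (k l i j : Fin 9) :
    ((S.Gam * S.g2 k l) * (S.Gam * S.g2 i j)ᵀ).trace =
      16 * ((if k = i then 1 else 0) * (if l = j then 1 else 0) -
        (if k = j then 1 else 0) * (if l = i then 1 else 0)) := by
  have h1 : (S.Gam * S.g2 i j)ᵀ = S.g2 i j * S.Gam := by
    rw [Matrix.transpose_mul, S.Gam_transpose, S.g2_transpose, neg_mul, mul_neg, neg_neg]
  have h2 : ((S.Gam * S.g2 k l) * (S.g2 i j * S.Gam)).trace = -(S.g2 k l * S.g2 i j).trace := by
    calc ((S.Gam * S.g2 k l) * (S.g2 i j * S.Gam)).trace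
        = (S.Gam * (S.g2 k l * S.g2 i j * S.Gam)).trace := by simp only [mul_assoc]
      _ = (S.g2 k l * S.g2 i j * S.Gam * S.Gam).trace := by rw [Matrix.trace_mul_comm]
      _ = -(S.g2 k l * S.g2 i j).trace := by
          rw [mul_assoc, S.Gam_sq, mul_neg, mul_one, Matrix.trace_neg]
  rw [h1, h2, S.trace_g2_g2]
  ring

lemma J_swap (k l : Fin 9) (u : Cfg d → F) (x : Cfg d) : S.J l k u x = - S.J k l u x := by
  have h : S.Skl l k = - S.Skl k l := by
    unfold Setup.Skl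
    have h2 : S.g2 l k = -S.g2 k l := by
      unfold CS.g2
      rw [← smul_neg, neg_sub]
    rw [h2, S.tot_neg, smul_neg]
  have h3 : ∑ A, ((x (l, A) : ℂ) • pd k A u x - (x (k, A) : ℂ) • pd l A u x) =
      - ∑ A, ((x (k, A) : ℂ) • pd l A u x - (x (l, A) : ℂ) • pd k A u x) := by
    rw [← Finset.sum_neg_distrib]
    exact Finset.sum_congr rfl fun A _ => (neg_sub _ _).symm
  unfold Setup.J
  rw [h, h3, smul_neg, neg_add, _root_.neg_apply]

lemma rc_symm (k l : Fin 9) : rc k l = rc l k := by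
  unfold rc
  simp only [and_comm]

lemma rc_ne {k l : Fin 9} (h : Same k l) : rc k l ≠ 0 := by
  unfold rc
  by_cases hk : k.val < 3
  · rw [if_pos ⟨hk, h.2.mp hk⟩]
    norm_num
  · have hl : ¬ l.val < 3 := fun h2 => hk (h.2.mpr h2)
    rw [if_neg (fun h2 => hk h2.1), if_pos ⟨not_lt.mp hk, not_lt.mp hl⟩]
    norm_num

/-- the contracted anticommutator -/
lemma contr (hA1 : U.A1Stmt S) (m : ℝ) (k l : Fin 9) {u : Cfg d → F}
    (hu : ContDiff ℝ ∞ u) (x : Cfg d) :
    ∑ α, ∑ β, (S.Gam * S.g2 k l) α β • (S.Qm m α (S.Qm m β u) x + S.Qm m β (S.Qm m α u) x) =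
      (32 * (rc k l : ℂ) * (m : ℂ)) • S.J k l u x +
      (2 * S.κ : ℂ) • ∑ j, ∑ C, ((∑ α, ∑ β, (S.Gam * S.g2 k l) α β * S.g j α β) *
        (x (j, C) : ℂ)) • S.G C u x := by
  set M := S.Gam * S.g2 k l with hM
  have e : ∀ α β, M α β • (S.Qm m α (S.Qm m β u) x + S.Qm m β (S.Qm m α u) x) =
      M α β • (if α = β then (2 : ℂ) • S.Hm m u x else 0) +
      M α β • ((m : ℂ) • (∑ i, ∑ j, ((rc i j : ℂ) * (S.Gam * S.g2 i j) α β) • S.J i j u x)) +
      M α β • ((2 * S.κ : ℂ) • ∑ j, ∑ C, (S.g j α β * (x (j, C) : ℂ)) • S.G C u x) := by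
    intro α β
    rw [hA1 m α β u hu x, smul_add, smul_add]
  have t1 : ∑ α, ∑ β, M α β • (if α = β then (2 : ℂ) • S.Hm m u x else 0) = 0 := by
    have h1 : ∀ α, ∑ β, M α β • (if α = β then (2 : ℂ) • S.Hm m u x else 0) =
        M α α • ((2 : ℂ) • S.Hm m u x) := by
      intro α
      rw [Finset.sum_eq_single α]
      · rw [if_pos rfl]
      · intro β _ hβ
        rw [if_neg (Ne.symm hβ), smul_zero]
      · intro h
        exact absurd (Finset.mem_univ α) h
    rw [Finset.sum_congr rfl fun α _ => h1 α, ← Finset.sum_smul]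
    have h2 : ∑ α, M α α = M.trace := rfl
    rw [h2, hM, S.trace_Gam_g2_a1, zero_smul]
  have t2 : ∑ α, ∑ β, M α β • ((m : ℂ) • (∑ i, ∑ j,
      ((rc i j : ℂ) * (S.Gam * S.g2 i j) α β) • S.J i j u x)) =
      (32 * (rc k l : ℂ) * (m : ℂ)) • S.J k l u x := by
    have h1 : ∀ i j, ∑ α, ∑ β, M α β * (S.Gam * S.g2 i j) α β =
        16 * ((if k = i then 1 else 0) * (if l = j then 1 else 0) -
        (if k = j then 1 else 0) * (if l = i then 1 else 0)) := by
      intro i j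
      rw [← trace_GG S k l i j, Matrix.trace]
      refine Finset.sum_congr rfl fun α _ => ?_
      rw [Matrix.diag_apply, Matrix.mul_apply]
      rfl
    have h2 : ∑ α, ∑ β, M α β • ((m : ℂ) • (∑ i, ∑ j,
        ((rc i j : ℂ) * (S.Gam * S.g2 i j) α β) • S.J i j u x)) =
        ∑ i, ∑ j, ((m : ℂ) * (rc i j : ℂ) * ∑ α, ∑ β, M α β * (S.Gam * S.g2 i j) α β) •
          S.J i j u x := by
      simp only [Finset.smul_sum, smul_smul, Finset.mul_sum, Finset.sum_smul]
      rw [Finset.sum_congr rfl fun α _ => Finset.sum_comm]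
      rw [Finset.sum_comm]
      refine Finset.sum_congr rfl fun i _ => ?_
      rw [Finset.sum_congr rfl fun α _ => Finset.sum_comm]
      rw [Finset.sum_comm]
      refine Finset.sum_congr rfl fun j _ => Finset.sum_congr rfl fun α _ =>
        Finset.sum_congr rfl fun β _ => ?_
      congr 1
      ring
    rw [h2]
    simp only [h1]
    have h3 : ∀ i j, ((m : ℂ) * (rc i j : ℂ) * (16 * ((if k = i then 1 else 0) *
        (if l = j then 1 else 0) - (if k = j then 1 else 0) * (if l = i then 1 else 0)))) •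
          S.J i j u x =
        (if k = i then (if l = j then ((m : ℂ) * (rc i j : ℂ) * 16) • S.J i j u x else 0) else 0) -
        (if l = i then (if k = j then ((m : ℂ) * (rc i j : ℂ) * 16) • S.J i j u x else 0) else 0) := by
      intro i j
      split_ifs <;> simp
    simp only [h3, Finset.sum_sub_distrib, Finset.sum_ite_eq, Finset.mem_univ, if_true,
      Finset.sum_ite_irrel, Finset.sum_const_zero]
    rw [J_swap S k l, rc_symm l k, smul_neg, sub_neg_eq_add, ← add_smul]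
    congr 1
    ring
  have t3 : ∑ α, ∑ β, M α β • ((2 * S.κ : ℂ) • ∑ j, ∑ C,
      (S.g j α β * (x (j, C) : ℂ)) • S.G C u x) =
      (2 * S.κ : ℂ) • ∑ j, ∑ C, ((∑ α, ∑ β, M α β * S.g j α β) *
        (x (j, C) : ℂ)) • S.G C u x := by
    simp only [Finset.smul_sum, smul_smul, Finset.sum_mul, Finset.sum_smul]
    rw [Finset.sum_congr rfl fun α _ => Finset.sum_comm]
    rw [Finset.sum_comm]
    refine Finset.sum_congr rfl fun i _ => ?_
    rw [Finset.sum_congr rfl fun α _ => Finset.sum_comm]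
    rw [Finset.sum_comm]
    refine Finset.sum_congr rfl fun j _ => Finset.sum_congr rfl fun α _ =>
      Finset.sum_congr rfl fun β _ => ?_
    congr 1
    ring
  simp only [e, Finset.sum_add_distrib, t1, t2, t3, zero_add]

lemma fderiv_coord (p : Fin 9 × Fin d) (i : Fin 9) (A : Fin d) (x : Cfg d) :
    fderiv ℝ (fun y : Cfg d => (y p : ℂ)) x (EuclideanSpace.single (i, A) 1) =
      if p = (i, A) then 1 else 0 := by
  have h1 : HasFDerivAt (fun y : Cfg d => (y p : ℂ))
      (Complex.ofRealCLM.comp (EuclideanSpace.proj p : Cfg d →L[ℝ] ℝ)) x :=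
    (Complex.ofRealCLM.comp (EuclideanSpace.proj p : Cfg d →L[ℝ] ℝ)).hasFDerivAt
  rw [h1.fderiv, ContinuousLinearMap.comp_apply]
  have h2 : (EuclideanSpace.proj p : Cfg d →L[ℝ] ℝ) (EuclideanSpace.single (i, A) 1) =
      if p = (i, A) then 1 else 0 := PiLp.single_apply 2 ℝ (i, A) 1 p
  rw [h2]
  split_ifs <;> simp

/-- `G_C` commutes with `x_j^C` -/
lemma G_coord (j : Fin 9) (C : Fin d) {u : Cfg d → F} (hu : ContDiff ℝ ∞ u) (x : Cfg d) :
    S.G C (fun y => (y (j, C) : ℂ) • u y) x = (x (j, C) : ℂ) • S.G C u x := by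
  have h1 : ∀ i A, pd i A (fun y => (y (j, C) : ℂ) • u y) x =
      (if (j, C) = (i, A) then (1 : ℂ) else 0) • u x + (x (j, C) : ℂ) • pd i A u x := by
    intro i A
    rw [pd_csmul ((Setup.contDiff_ofReal (Setup.contDiff_coord (j, C))).differentiable (by simp) x)
      ((hu.differentiable (by simp)) x), fderiv_coord]
  have hf : ∀ A, S.f C A C = 0 := by
    intro A
    have h2 := S.f_cyc C A C
    have h3 := S.f_swap A C C
    have h4 := S.f_cyc A C C
    have h5 := S.f_swap C C A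
    linarith
  have h2 : ∑ i, ∑ A, ∑ B, ((S.f C A B : ℂ) * (x (i, A) : ℂ)) • ((if (j, C) = (i, B) then (1 : ℂ) else 0) •
      u x) = 0 := by
    refine Finset.sum_eq_zero fun i _ => Finset.sum_eq_zero fun A _ => Finset.sum_eq_zero fun B _ => ?_
    by_cases h : (j, C) = (i, B)
    · have hB : B = C := (congrArg Prod.snd h).symm
      rw [hB, hf A]
      simp
    · rw [if_neg h, zero_smul, smul_zero]
  simp only [Setup.G, h1, smul_add, Finset.sum_add_distrib, h2, zero_add, map_smul]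
  congr 1
  simp only [Finset.smul_sum, smul_smul]
  refine Finset.sum_congr rfl fun i _ => Finset.sum_congr rfl fun A _ =>
    Finset.sum_congr rfl fun B _ => ?_
  congr 1
  ring

/-- weak zero modes of the supercharges are weakly rotation invariant -/
lemma wJ_of_wQ (hA1 : U.A1Stmt S) {m : ℝ} (hm : 0 < m) {Ψ : Cfg d → F}
    (hΨ : MemLp Ψ 2 (volume : Measure (Cfg d))) (hG : S.wG Ψ)
    (hQ : ∀ β ζ, Setup.Tst ζ → ∫ x, inner ℂ (S.Qm m β ζ x) (Ψ x) = 0) : S.wJ Ψ := by
  intro k l hkl ζ hζ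
  have hI : ∀ {a : Cfg d → F}, Setup.Tst a → Integrable (fun x => inner ℂ (a x) (Ψ x)) := fun ha =>
    integrable_inner_memLp ha.memLp hΨ
  have h0 : ∀ α β, ∫ x, inner ℂ ((S.Gam * S.g2 k l) α β •
      (S.Qm m α (S.Qm m β ζ) x + S.Qm m β (S.Qm m α ζ) x)) (Ψ x) = 0 := by
    intro α β
    have h1 := hQ α _ (Tst_Qm S m β hζ)
    have h2 := hQ β _ (Tst_Qm S m α hζ)
    simp only [inner_smul_left, inner_add_left]
    rw [integral_const_mul, integral_add (hI (Tst_Qm S m α (Tst_Qm S m β hζ)))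
      (hI (Tst_Qm S m β (Tst_Qm S m α hζ))), h1, h2, add_zero, mul_zero]
  have hT : ∀ α β, Setup.Tst (fun x => (S.Gam * S.g2 k l) α β •
      (S.Qm m α (S.Qm m β ζ) x + S.Qm m β (S.Qm m α ζ) x)) := fun α β =>
    Tst_csmul _ ((Tst_Qm S m α (Tst_Qm S m β hζ)).add (Tst_Qm S m β (Tst_Qm S m α hζ)))
  have h1 : ∫ x, inner ℂ (∑ α, ∑ β, (S.Gam * S.g2 k l) α β •
      (S.Qm m α (S.Qm m β ζ) x + S.Qm m β (S.Qm m α ζ) x)) (Ψ x) = 0 := by
    simp only [sum_inner]
    rw [integral_finsetSum _ fun α _ => integrable_finsetSum _ fun β _ => hI (hT α β)]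
    refine Finset.sum_eq_zero fun α _ => ?_
    rw [integral_finsetSum _ fun β _ => hI (hT α β)]
    exact Finset.sum_eq_zero fun β _ => h0 α β
  have hx : ∀ j C, Setup.Tst (fun y => (y (j, C) : ℂ) • ζ y) := fun j C =>
    hζ.rsmul (Setup.contDiff_coord (j, C))
  have h2 : ∀ j C (c : ℂ), ∫ x, inner ℂ ((c * (x (j, C) : ℂ)) • S.G C ζ x) (Ψ x) = 0 := by
    intro j C c
    have h3 := hG C _ (hx j C)
    simp only [G_coord S j C hζ.1] at h3
    simp only [mul_smul, inner_smul_left _ _ c]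
    rw [integral_const_mul, h3, mul_zero]
  have hTG : ∀ j C (c : ℂ), Setup.Tst (fun x => (c * (x (j, C) : ℂ)) • S.G C ζ x) := by
    intro j C c
    have := Tst_csmul c ((hζ.G S C).rsmul (Setup.contDiff_coord (j, C)))
    simpa only [smul_smul] using this
  have h3 : ∫ x, inner ℂ ((2 * S.κ : ℂ) • ∑ j, ∑ C,
      ((∑ α, ∑ β, (S.Gam * S.g2 k l) α β * S.g j α β) * (x (j, C) : ℂ)) • S.G C ζ x) (Ψ x) = 0 := by
    simp only [inner_smul_left _ _ (2 * S.κ : ℂ), sum_inner]
    rw [integral_const_mul, integral_finsetSum _ fun j _ => integrable_finsetSum _ fun C _ =>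
      hI (hTG j C _)]
    rw [Finset.sum_eq_zero, mul_zero]
    intro j _
    rw [integral_finsetSum _ fun C _ => hI (hTG j C _)]
    exact Finset.sum_eq_zero fun C _ => h2 j C _
  have hTG' : Setup.Tst (fun x => (2 * S.κ : ℂ) • ∑ j, ∑ C,
      ((∑ α, ∑ β, (S.Gam * S.g2 k l) α β * S.g j α β) * (x (j, C) : ℂ)) • S.G C ζ x) :=
    Tst_csmul _ (Tst_sum _ fun j _ => Tst_sum _ fun C _ => hTG j C _)
  have hTJ : Setup.Tst (fun x => (32 * (rc k l : ℂ) * (m : ℂ)) • S.J k l ζ x) :=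
    Tst_csmul _ (hζ.J S k l)
  simp only [contr S hA1 m k l hζ.1, inner_add_left] at h1
  rw [integral_add (hI hTJ) (hI hTG'), h3, add_zero] at h1
  simp only [inner_smul_left] at h1
  rw [integral_const_mul] at h1
  have hne : (starRingEnd ℂ) (32 * (rc k l : ℂ) * (m : ℂ)) ≠ 0 := by
    rw [Ne, map_eq_zero]
    have h4 : (rc k l : ℂ) ≠ 0 := by exact_mod_cast rc_ne hkl
    have h5 : (m : ℂ) ≠ 0 := by exact_mod_cast hm.ne'
    exact mul_ne_zero (mul_ne_zero (by norm_num) h4) h5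
  exact (mul_eq_zero.mp h1).resolve_left hne

/-- weak limits of almost zero modes -/
lemma wQ_of_lim {m : ℝ} {Ψ : Cfg d → F} {u : ℕ → Cfg d → F} (hu : ∀ n, Setup.Tst (u n))
    (hl : L2t u Ψ) (he : Tendsto (fun n => S.en m (u n)) atTop (𝓝 0)) (β : Fin 16)
    {ζ : Cfg d → F} (hζ : Setup.Tst ζ) : ∫ x, inner ℂ (S.Qm m β ζ x) (Ψ x) = 0 := by
  have h1 := (L2t_const (Tst_Qm S m β hζ).memLp).lim_inner hl
  refine tendsto_nhds_unique h1 ?_
  have h2 : ∀ n, ∫ x, inner ℂ (S.Qm m β ζ x) (u n x) = ∫ x, inner ℂ (ζ x) (S.Qm m β (u n) x) :=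
    fun n => U.HB.Qm_symm S m β hζ (hu n).1
  have h3 : ∀ n, ‖∫ x, inner ℂ (S.Qm m β ζ x) (u n x)‖ ≤ Real.sqrt (nsq ζ) *
      Real.sqrt (S.en m (u n)) := by
    intro n
    rw [h2]
    refine (cs_inner hζ.memLp (Tst_Qm S m β (hu n)).memLp).trans ?_
    refine mul_le_mul_of_nonneg_left (Real.sqrt_le_sqrt ?_) (Real.sqrt_nonneg _)
    exact Finset.single_le_sum (f := fun β => nsq (S.Qm m β (u n))) (fun β _ => nsq_nonneg _)
      (Finset.mem_univ β)
  have h4 : Tendsto (fun n => Real.sqrt (nsq ζ) * Real.sqrt (S.en m (u n))) atTop (𝓝 0) := by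
    have := ((Real.continuous_sqrt.tendsto 0).comp he).const_mul (Real.sqrt (nsq ζ))
    simpa using this
  exact squeeze_zero_norm h3 h4

lemma wG_of_limP {Ψ : Cfg d → F} {w : ℕ → Cfg d → F} (hw : ∀ n, S.InvP P (w n)) (hl : L2t w Ψ) :
    S.wG Ψ := by
  intro C ζ hζ
  have h1 := (L2t_const (hζ.G S C).memLp).lim_inner hl
  refine tendsto_nhds_unique h1 (tendsto_const_nhds.congr fun n => ?_)
  rw [G_symm S C ζ (w n) hζ (hw n).1.1]
  simp [(hw n).2.1]

/-- weakly invariant functions are limits of invariant test functions -/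
lemma clInv_of_w [CompleteSpace F] {Ψ : Cfg d → F} (hΨ : MemLp Ψ 2 (volume : Measure (Cfg d)))
    (hwG : S.wG Ψ) (hwJ : S.wJ Ψ) : ∃ w : ℕ → Cfg d → F, (∀ n, S.Inv (w n)) ∧ L2t w Ψ := by
  obtain ⟨K, hK, hcut⟩ := exists_rc
  have hcut' : ∀ n : ℕ, ∃ h : ℝ → ℝ, IsRC K ((n : ℝ) + 1) h := fun n => hcut _ (by positivity)
  choose h hh using hcut'
  have key : ∀ η : ℝ, 0 < η → ∃ u, S.Inv u ∧ nsq (fun x => u x - Ψ x) ≤ η := by
    intro η hη
    have hη8 : 0 < η / 8 := by positivity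
    obtain ⟨n, hn2⟩ := ((cut_tendsto hΨ hh).eventually (gt_mem_nhds hη8)).exists
    set R : ℝ := (n : ℝ) + 1 with hR
    have hR0 : 0 < R := by positivity
    set χ : (Cfg d) → ℝ := rad (h n) with hχ
    have hc := hh n
    have hχs : ContDiff ℝ ∞ χ := contDiff_rad hc.contDiff
    have hχc : HasCompactSupport χ := by
      refine HasCompactSupport.intro (isCompact_closedBall (0 : (Cfg d)) R) fun x hx => ?_
      rw [Metric.mem_closedBall, dist_zero_right, not_le] at hx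
      exact hc.zero x hx.le
    obtain ⟨ε₀, hε₀, happ⟩ := mo_approx hΨ hη8
    obtain ⟨g, hg, hmol⟩ := exists_mol hε₀
    set ρ : (Cfg d) → ℝ := rad g with hρ
    set v : (Cfg d) → F := mo ρ Ψ with hv
    have hvs : ContDiff ℝ ∞ v := contDiff_mo hmol.contDiff hmol.hcs (locInt hΨ)
    obtain ⟨hvm, hvN⟩ := nsq_mo_le hmol hΨ
    have hvG : ∀ C x, S.G C v x = 0 := fun C x => G_mo_zero S hΨ hwG hg hmol.hcs C x
    have hvJ : ∀ k l, Same k l → ∀ x, S.J k l v x = 0 := fun k l hkl x =>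
      J_mo_zero S hΨ hwJ hg hmol.hcs hkl x
    set u : (Cfg d) → F := fun x => ((χ x : ℝ) : ℂ) • v x with hu
    have hui : S.Inv u := Inv_rad S hc.contDiff hχc hvs hvG hvJ
    have hle : ∀ {a : (Cfg d) → F}, MemLp a 2 (volume : Measure (Cfg d)) →
        nsq (fun x => ((χ x : ℝ) : ℂ) • a x) ≤ nsq a := by
      intro a ha
      refine integral_mono_of_nonneg (Eventually.of_forall fun x => by positivity)
        (memLp_norm_sq_int ha) (Eventually.of_forall fun x => ?_)
      simp only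
      rw [norm_smul, Complex.norm_real, Real.norm_of_nonneg (hc.nonneg x), mul_pow]
      have h2 : χ x ^ 2 ≤ 1 := pow_le_one₀ (hc.nonneg x) (hc.le_one x)
      calc χ x ^ 2 * ‖a x‖ ^ 2 ≤ 1 * ‖a x‖ ^ 2 := by gcongr
        _ = _ := one_mul _
    refine ⟨u, hui, ?_⟩
    have m1 : MemLp (fun x => v x - Ψ x) 2 (volume : Measure (Cfg d)) := hvm.sub hΨ
    have m3 : MemLp (fun x => ((χ x : ℝ) : ℂ) • Ψ x) 2 (volume : Measure (Cfg d)) := by
      refine hΨ.of_le ((Complex.continuous_ofReal.comp hχs.continuous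
        ).aestronglyMeasurable.smul hΨ.1) (Eventually.of_forall fun x => ?_)
      rw [norm_smul, Complex.norm_real, Real.norm_of_nonneg (hc.nonneg x)]
      exact mul_le_of_le_one_left (norm_nonneg _) (hc.le_one x)
    have m4 : MemLp (fun x => ((χ x : ℝ) : ℂ) • v x) 2 (volume : Measure (Cfg d)) := hui.1.memLp
    have m2 : MemLp (fun x => ((χ x : ℝ) : ℂ) • (v x - Ψ x)) 2 (volume : Measure (Cfg d)) := by
      have := m4.sub m3
      refine this.ae_eq (Eventually.of_forall fun x => ?_)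
      simp only [Pi.sub_apply, smul_sub]
    have e : (fun x => u x - Ψ x) = fun x => ((χ x : ℝ) : ℂ) • (v x - Ψ x) +
        (((χ x : ℝ) : ℂ) • Ψ x - Ψ x) := by
      funext x
      rw [smul_sub]
      abel
    have h2 := nsq_add_le m2 (m3.sub hΨ)
    have h3 := hle m1
    have h4 := happ ε₀ le_rfl ρ hmol
    rw [e]
    have h5 : nsq (fun x => ((χ x : ℝ) : ℂ) • (v x - Ψ x) + (((χ x : ℝ) : ℂ) • Ψ x - Ψ x)) ≤
        2 * nsq (fun x => ((χ x : ℝ) : ℂ) • (v x - Ψ x)) +
        2 * nsq (fun x => ((χ x : ℝ) : ℂ) • Ψ x - Ψ x) := h2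
    linarith
  have hpos : ∀ n : ℕ, (0 : ℝ) < 1 / ((n : ℝ) + 1) := fun n => by positivity
  choose u hu1 hu2 using fun n : ℕ => key _ (hpos n)
  have ht := tendsto_one_div_add_atTop_nhds_zero_nat (𝕜 := ℝ)
  exact ⟨u, hu1, ⟨fun n => (hu1 n).1.memLp, hΨ, squeeze_zero (fun n => nsq_nonneg _) hu2 ht⟩⟩

end Br

open Br in
/-- **H8** torus invariant low spaces give invariant low spaces -/
theorem bridge [FiniteDimensional ℂ F] (S : Setup d F) (h5 : CGapTStmt S) (h6 : WSPStmt S) :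
    BridgeStmt S := by
  have : CompleteSpace F := FiniteDimensional.complete ℂ F
  intro k m hm hL c hc
  have hP : ∀ a b, plT a b → Same a b := by
    intro a b hab
    obtain ⟨h1, h2⟩ := hab
    rw [h2]
    revert h1
    unfold Same
    fin_cases a <;> simp [U.pt]
  obtain ⟨Ψ, h1, h2, h3⟩ := k_zmP S hP (U.All.A2 S) (U.All.A3 S) (h5 m hm) hm hL
  have h4 : ∀ j, ∃ u : ℕ → (Cfg d) → F, (∀ n, S.Inv (u n)) ∧ L2t u (Ψ j) ∧
      Tendsto (fun n => ∑ β, nsq (S.Qm m β (u n))) atTop (𝓝 0) := by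
    intro j
    obtain ⟨v, hv, hvl, hve⟩ := h6 plT hP m 0 le_rfl (Ψ j) (h1 j) fun φ hφ => by
      have := h2 j φ hφ
      simpa using this
    have hΨ : MemLp (Ψ j) 2 (volume : Measure (Cfg d)) := hvl.mem'
    have hwG : S.wG (Ψ j) := wG_of_limP S hv hvl
    have hwQ : ∀ β ζ, Setup.Tst ζ → ∫ x, inner ℂ (S.Qm m β ζ x) (Ψ j x) = 0 := fun β ζ hζ =>
      wQ_of_lim S (fun n => (hv n).1) hvl (by simpa using hve) β hζ
    have hwJ : S.wJ (Ψ j) := wJ_of_wQ S (U.All.A1 S) hm hΨ hwG hwQ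
    obtain ⟨w, hw, hwl⟩ := clInv_of_w S hΨ hwG hwJ
    refine U.ws S (U.All.A7 S) m (Ψ j) ⟨w, hw, hwl⟩ fun φ hφ => ?_
    refine h2 j φ ⟨hφ.1, hφ.2.1, fun k l h x => hφ.2.2 k l (hP k l h) x⟩
  choose u hu hl hq using h4
  exact U.HB.low_of_lim S hu hl hq h3 hc

end Vale.Agent.P353.Z.AH
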