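import Vale.Agent.P353.AN.H.Stmt
import Vale.Agent.P353.Z.U.CGap
import Vale.Agent.P353.Z.U.A1
import Vale.Agent.P353.Z.U.A1a
import Vale.Agent.P353.Z.U.A1b
import Vale.Agent.P353.Z.U.A2
import Vale.Agent.P353.Z.U.A4
import Vale.Agent.P353.Z.U.FBmn
import Vale.Agent.P353.Z.U.FFten

/-! # P353, all `N`, H5: the core gap for torus invariant functions (helper863)

`Z/U/CGap.lean` with `InvP plT` instead of `Inv`: the coefficients `ζ†Γγ^{kl}ζ` vanish for all pairs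
except `(k, pt k)`, `k ≠ 0`. -/

open MeasureTheory Filter Topology Matrix
open scoped ContDiff

namespace Vale.Agent.P353.Z.AH

open Vale.Agent.P353.Z.U Vale.Agent.P353.Z.U.CG

variable {dc : ℕ} {F : Type*} [NormedAddCommGroup F] [InnerProductSpace ℂ F]

namespace CT

variable (S : Setup dc F)

/-- the coefficients vanish outside the four planes -/
lemma coef_zero (ζ : Fin 16 → ℂ) (σ : Fin 9 → ℂ) (hΓ : S.Gam *ᵥ ζ = (-Complex.I) • ζ)
    (hσ : ∀ k, k ≠ 0 → σ k * σ k = 1 ∧ (starRingEnd ℂ) (σ k) = σ k ∧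
      S.g2 k (pt k) *ᵥ ζ = (-Complex.I * σ k) • ζ) (k l : Fin 9) (h : ¬ plT k l) :
    (∑ β, ∑ γ, (starRingEnd ℂ) (ζ β) * (S.Gam * S.g2 k l) β γ * ζ γ) = 0 := by
  have hE0 : ∀ k l : Fin 9, k ≠ 0 → k ≠ l → l ≠ pt k → star ζ ⬝ᵥ (S.g2 k l *ᵥ ζ) = 0 := by
    intro k l hk hkl hl
    obtain ⟨h1, h2, h3⟩ := hσ k hk
    refine a5_zero (S.g2 k (pt k)) (S.g2 k l) (a5_g2_conj S _ _) (a5_anti S hkl ?_ hl) ζ (σ k)
      h1 h2 h3
    revert hk; fin_cases k <;> decide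
  have hE : star ζ ⬝ᵥ (S.g2 k l *ᵥ ζ) = 0 := by
    by_cases hkl : k = l
    · rw [hkl, a5_g2_self, Matrix.zero_mulVec, dotProduct_zero]
    · by_cases hk : k = 0
      · subst hk
        rw [S.g2_swap 0 l, Matrix.neg_mulVec, dotProduct_neg, hE0 l 0 (Ne.symm hkl) (Ne.symm hkl),
          neg_zero]
        have : l ≠ 0 := Ne.symm hkl
        revert this; fin_cases l <;> decide
      · exact hE0 k l hk hkl fun hl => h ⟨hk, hl⟩
  have h1 : (∑ β, ∑ γ, (starRingEnd ℂ) (ζ β) * (S.Gam * S.g2 k l) β γ * ζ γ) =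
      star ζ ⬝ᵥ ((S.Gam * S.g2 k l) *ᵥ ζ) := by
    simp only [dotProduct, Matrix.mulVec, Finset.mul_sum, mul_assoc]
    rfl
  have h3 : star ζ ᵥ* S.Gam = star ((S.Gam)ᴴ *ᵥ ζ) := by
    rw [Matrix.star_mulVec, Matrix.conjTranspose_conjTranspose]
  rw [h1, ← Matrix.mulVec_mulVec, Matrix.dotProduct_mulVec, h3, a5_Gam_conj, Matrix.neg_mulVec,
    hΓ, star_neg, star_smul, neg_dotProduct, smul_dotProduct, hE, smul_zero, neg_zero]

/-- rearranging the sum of the anticommutators -/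
lemma algV (m : ℂ) (ζ : Fin 16 → ℂ) (R : Fin 9 → Fin 9 → ℂ)
    (M : Fin 9 → Fin 9 → Fin 16 → Fin 16 → ℂ) (V : Fin 9 → Fin 9 → F) :
    ∑ α, ∑ β, ((starRingEnd ℂ) (ζ α) * ζ β) • (m • ∑ i, ∑ j, (R i j * M i j α β) • V i j) =
    m • ∑ i, ∑ j, (R i j * (∑ β, ∑ γ, (starRingEnd ℂ) (ζ β) * M i j β γ * ζ γ)) • V i j := by
  have h1 : ∀ α β, ((starRingEnd ℂ) (ζ α) * ζ β) • (m • ∑ i, ∑ j, (R i j * M i j α β) • V i j) =
      ∑ i, ∑ j, ((starRingEnd ℂ) (ζ α) * M i j α β * ζ β) • ((m * R i j) • V i j) := by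
    intro α β
    rw [Finset.smul_sum, Finset.smul_sum]
    refine Finset.sum_congr rfl fun i _ => ?_
    rw [Finset.smul_sum, Finset.smul_sum]
    refine Finset.sum_congr rfl fun j _ => ?_
    simp only [smul_smul]
    congr 1
    ring
  simp only [h1]
  have h2 : ∀ (w : Fin 16 → Fin 16 → Fin 9 → Fin 9 → F),
      ∑ α, ∑ β, ∑ i, ∑ j, w α β i j = ∑ i, ∑ j, ∑ α, ∑ β, w α β i j := by
    intro w
    calc ∑ α, ∑ β, ∑ i, ∑ j, w α β i j = ∑ α, ∑ i, ∑ β, ∑ j, w α β i j :=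
          Finset.sum_congr rfl fun α _ => Finset.sum_comm
      _ = ∑ i, ∑ α, ∑ β, ∑ j, w α β i j := Finset.sum_comm
      _ = ∑ i, ∑ α, ∑ j, ∑ β, w α β i j :=
          Finset.sum_congr rfl fun i _ => Finset.sum_congr rfl fun α _ => Finset.sum_comm
      _ = ∑ i, ∑ j, ∑ α, ∑ β, w α β i j :=
          Finset.sum_congr rfl fun i _ => Finset.sum_comm
  rw [h2, Finset.smul_sum]
  refine Finset.sum_congr rfl fun i _ => ?_
  rw [Finset.smul_sum]
  refine Finset.sum_congr rfl fun j _ => ?_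
  simp only [← Finset.sum_smul]
  rw [smul_smul, smul_smul]
  congr 1
  ring

lemma same_pt {k l : Fin 9} (h : plT k l) : Same k l := by
  obtain ⟨hk, rfl⟩ := h
  revert hk
  fin_cases k <;> (intro hk; first | exact absurd rfl hk | exact ⟨by decide, by decide⟩)

lemma G_QXP (hA3 : A3Stmt S) (m : ℝ) (ξ : Fin 16 → ℂ) {φ : Cfg dc → F} (hφ : S.InvP plT φ)
    (C : Fin dc) (x : Cfg dc) : S.G C (QX S m ξ φ) x = 0 := by
  have h0 : S.G C φ = fun _ => 0 := funext fun y => hφ.2.1 C y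
  have h1 := G_sum S C Finset.univ ξ (u := fun β => S.Qm m β φ)
    (fun β => HB.contDiff_Qm S m β hφ.1.1) x
  have h2 : ∀ β, S.G C (S.Qm m β φ) x = 0 := by
    intro β
    rw [hA3 m C β φ hφ.1.1 x, h0, HB.Qm_zero]
  simp only [h2, smul_zero, Finset.sum_const_zero] at h1
  exact h1

lemma J_QXP (hA2 : A2Stmt S) (m : ℝ) (ξ : Fin 16 → ℂ) {φ : Cfg dc → F} (hφ : S.InvP plT φ)
    {k l : Fin 9} (hp : plT k l) (x : Cfg dc) : S.J k l (QX S m ξ φ) x =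
      (-Complex.I / 2) • ∑ β, (S.g2 k l *ᵥ ξ) β • S.Qm m β φ x := by
  have hkl : Same k l := same_pt hp
  have h0 : S.J k l φ = fun _ => 0 := funext fun y => hφ.2.2 k l hp y
  have h1 : S.J k l (QX S m ξ φ) x = ∑ β, ξ β • S.J k l (S.Qm m β φ) x :=
    J_sum S k l Finset.univ ξ (u := fun β => S.Qm m β φ)
      (fun β => HB.contDiff_Qm S m β hφ.1.1) x hkl
  have h2 : ∀ α, S.J k l (S.Qm m α φ) x =
      (Complex.I / 2) • ∑ β, S.g2 k l α β • S.Qm m β φ x := by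
    intro α
    have h3 := hA2 m k l hkl α φ hφ.1.1 x
    rwa [h0, HB.Qm_zero, sub_zero] at h3
  rw [h1]
  simp only [h2, Finset.smul_sum, smul_smul]
  rw [Finset.sum_comm]
  refine Finset.sum_congr rfl fun β _ => ?_
  rw [← Finset.sum_smul]
  congr 1
  have h4 : ∀ α β, S.g2 k l α β = - S.g2 k l β α := by
    intro α β
    have := congrFun (congrFun (Setup.g2_transpose S k l) β) α
    simpa [Matrix.transpose_apply] using this
  simp only [Matrix.mulVec, dotProduct, Finset.mul_sum]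
  refine Finset.sum_congr rfl fun α _ => ?_
  rw [h4 α β]
  ring

/-- `[16 H, Q^ξ] = 8 m s Q^ξ` for `iΓξ = sξ` -/
lemma HH_QXP (hA4 : A4Stmt S) (hA7 : A7Stmt S) (m : ℝ) {φ : Cfg dc → F} (hφ : S.InvP plT φ)
    (ξ : Fin 16 → ℂ) (s : ℂ) (hξ : S.Gam *ᵥ ξ = (-Complex.I * s) • ξ) (x : Cfg dc) :
    QX S m ξ (HB.HH S m φ) x = HB.HH S m (QX S m ξ φ) x - (8 * m * s) • QX S m ξ φ x := by
  have e1 : HB.HH S m φ = fun y => (16 : ℂ) • S.Hm m φ y := funext fun y => hA7 m φ hφ.1.1 y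
  have e2 : S.Hm m φ = fun y => (1 / 16 : ℂ) • HB.HH S m φ y := by
    funext y
    rw [e1]
    simp only [smul_smul]
    norm_num
  have hH : ContDiff ℝ ∞ (S.Hm m φ) := by
    rw [e2]
    exact contDiff_const.smul (HB.contDiff_HH S m hφ.1.1)
  have key : ∀ α, S.Qm m α (HB.HH S m φ) x = HB.HH S m (S.Qm m α φ) x +
      (8 * Complex.I * m) • ∑ β, S.Gam α β • S.Qm m β φ x := by
    intro α
    have h1 := hA4 m α φ hφ.1.1 x
    simp only [hφ.2.1, map_zero, Finset.sum_const_zero, smul_zero, sub_zero] at h1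
    have h2 : HB.HH S m (S.Qm m α φ) x = (16 : ℂ) • S.Hm m (S.Qm m α φ) x :=
      hA7 m _ (HB.contDiff_Qm S m α hφ.1.1) x
    rw [e1, HB.Qm_csmul S m α 16 hH, h2, sub_eq_iff_eq_add.mp h1, smul_add, smul_smul,
      add_comm ((16 * -(Complex.I * m / 2)) • _), add_assoc, ← add_smul]
    have : 16 * -(Complex.I * (m : ℂ) / 2) + 8 * Complex.I * m = 0 := by ring
    rw [this, zero_smul, add_zero]
  have h3 : HB.HH S m (QX S m ξ φ) x = ∑ α, ξ α • HB.HH S m (S.Qm m α φ) x :=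
    HB.HH_sum S m Finset.univ ξ (u := fun β => S.Qm m β φ)
      (fun β => HB.contDiff_Qm S m β hφ.1.1) x
  rw [h3]
  unfold QX
  simp only [key, smul_add, Finset.sum_add_distrib]
  rw [sub_eq_add_neg, ← neg_smul]
  congr 1
  simp only [Finset.smul_sum, smul_smul]
  rw [Finset.sum_comm]
  refine Finset.sum_congr rfl fun β _ => ?_
  rw [← Finset.sum_smul]
  congr 1
  have h4 : ∀ α, S.Gam α β = -S.Gam β α := fun α => congrFun (congrFun S.Gam_transpose β) α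
  have h5 : ∑ α, S.Gam β α * ξ α = -Complex.I * s * ξ β := congrFun hξ β
  have h6 : ∑ α, ξ α * (8 * Complex.I * m * S.Gam α β) =
      -(8 * Complex.I * m) * ∑ α, S.Gam β α * ξ α := by
    rw [Finset.mul_sum]
    refine Finset.sum_congr rfl fun α _ => ?_
    rw [h4]
    ring
  rw [h6, h5]
  linear_combination (8 * m * s * ξ β) * Complex.I_mul_I

/-- the key pointwise identity -/
lemma key_DP (hA1 : A1Stmt S) (hA2 : A2Stmt S) (hA3 : A3Stmt S) (hA7 : A7Stmt S) (m : ℝ)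
    {φ : Cfg dc → F} (hφ : S.InvP plT φ) (ζ : Fin 16 → ℂ) (σ : Fin 9 → ℂ)
    (hΓ : S.Gam *ᵥ ζ = (-Complex.I) • ζ)
    (hσ : ∀ k, k ≠ 0 → σ k * σ k = 1 ∧ (starRingEnd ℂ) (σ k) = σ k ∧
      S.g2 k (pt k) *ᵥ ζ = (-Complex.I * σ k) • ζ) (x : Cfg dc) :
    QX S m (star ζ) (QX S m ζ (QX S m (S.g2 0 1 *ᵥ ζ) φ)) x +
      QX S m ζ (QX S m (star ζ) (QX S m (S.g2 0 1 *ᵥ ζ) φ)) x =
    (∑ β, (starRingEnd ℂ) (ζ β) * ζ β) •
      ((1 / 8 : ℂ) • HB.HH S m (QX S m (S.g2 0 1 *ᵥ ζ) φ) x -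
        (5 * m : ℂ) • QX S m (S.g2 0 1 *ᵥ ζ) φ x) := by
  set η : Fin 16 → ℂ := S.g2 0 1 *ᵥ ζ with hη
  set X : Cfg dc → F := QX S m η φ with hX
  have hXt : Setup.Tst X := Tst_QX S m η hφ.1
  have hXc : ∀ β, ContDiff ℝ ∞ (S.Qm m β X) := fun β => HB.contDiff_Qm S m β hXt.1
  have e1 : QX S m (star ζ) (QX S m ζ X) x =
      ∑ α, ∑ β, ((starRingEnd ℂ) (ζ α) * ζ β) • S.Qm m α (S.Qm m β X) x := by
    have h1 : ∀ α, S.Qm m α (QX S m ζ X) x = ∑ β, ζ β • S.Qm m α (S.Qm m β X) x := fun α =>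
      HB.Qm_sum S m α Finset.univ ζ (u := fun β => S.Qm m β X) hXc x
    change ∑ α, (star ζ) α • S.Qm m α (QX S m ζ X) x = _
    simp only [h1, Finset.smul_sum, smul_smul]
    rfl
  have e2 : QX S m ζ (QX S m (star ζ) X) x =
      ∑ α, ∑ β, ((starRingEnd ℂ) (ζ α) * ζ β) • S.Qm m β (S.Qm m α X) x := by
    have h1 : ∀ α, S.Qm m α (QX S m (star ζ) X) x =
        ∑ β, (star ζ) β • S.Qm m α (S.Qm m β X) x := fun α =>
      HB.Qm_sum S m α Finset.univ (star ζ) (u := fun β => S.Qm m β X) hXc x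
    change ∑ α, ζ α • S.Qm m α (QX S m (star ζ) X) x = _
    simp only [h1, Finset.smul_sum, smul_smul]
    rw [Finset.sum_comm]
    refine Finset.sum_congr rfl fun α _ => Finset.sum_congr rfl fun β _ => ?_
    rw [mul_comm]
    rfl
  have e3 : ∀ α β, S.Qm m α (S.Qm m β X) x + S.Qm m β (S.Qm m α X) x =
      (if α = β then (2 : ℂ) • S.Hm m X x else 0) +
      (m : ℂ) • (∑ i, ∑ j, ((rc i j : ℂ) * (S.Gam * S.g2 i j) α β) • S.J i j X x) := by
    intro α β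
    rw [hA1 m α β X hXt.1 x]
    have h1 : ∀ C, S.G C X x = 0 := fun C => G_QXP S hA3 m η hφ C x
    simp only [h1, smul_zero, Finset.sum_const_zero, add_zero]
  rw [e1, e2, ← Finset.sum_add_distrib]
  have e4 : ∀ α, (∑ β, ((starRingEnd ℂ) (ζ α) * ζ β) • S.Qm m α (S.Qm m β X) x) +
      (∑ β, ((starRingEnd ℂ) (ζ α) * ζ β) • S.Qm m β (S.Qm m α X) x) =
      ((starRingEnd ℂ) (ζ α) * ζ α) • ((2 : ℂ) • S.Hm m X x) +
      ∑ β, ((starRingEnd ℂ) (ζ α) * ζ β) •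
        ((m : ℂ) • (∑ i, ∑ j, ((rc i j : ℂ) * (S.Gam * S.g2 i j) α β) • S.J i j X x)) := by
    intro α
    rw [← Finset.sum_add_distrib]
    simp only [← smul_add, e3]
    simp only [smul_add, Finset.sum_add_distrib]
    congr 1
    rw [Finset.sum_eq_single α]
    · rw [if_pos rfl]
    · intro β _ hβ
      rw [if_neg (Ne.symm hβ), smul_zero]
    · intro h; exact absurd (Finset.mem_univ _) h
  simp only [e4]
  have e7 : ∑ α, ∑ β, ((starRingEnd ℂ) (ζ α) * ζ β) •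
        ((m : ℂ) • (∑ i, ∑ j, ((rc i j : ℂ) * (S.Gam * S.g2 i j) α β) • S.J i j X x)) =
      ∑ α, ∑ β, ((starRingEnd ℂ) (ζ α) * ζ β) •
        ((m : ℂ) • (∑ i, ∑ j, ((rc i j : ℂ) * (S.Gam * S.g2 i j) α β) •
          ((-Complex.I / 2) • ∑ δ, (S.g2 i j *ᵥ η) δ • S.Qm m δ φ x))) := by
    rw [algV (m : ℂ) ζ (fun i j => (rc i j : ℂ)) (fun i j α β => (S.Gam * S.g2 i j) α β)
      (fun i j => S.J i j X x),
      algV (m : ℂ) ζ (fun i j => (rc i j : ℂ)) (fun i j α β => (S.Gam * S.g2 i j) α β)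
      (fun i j => (-Complex.I / 2) • ∑ δ, (S.g2 i j *ᵥ η) δ • S.Qm m δ φ x)]
    congr 1
    refine Finset.sum_congr rfl fun i _ => Finset.sum_congr rfl fun j _ => ?_
    by_cases hp : plT i j
    · rw [hX, J_QXP S hA2 m η hφ hp x]
    · rw [coef_zero S ζ σ hΓ hσ i j hp, mul_zero, zero_smul, zero_smul]
  rw [Finset.sum_add_distrib, ← Finset.sum_smul, e7,
    alg (m : ℂ) (-Complex.I / 2) ζ (fun i j => (rc i j : ℂ))
      (fun i j α β => (S.Gam * S.g2 i j) α β) (fun i j δ => (S.g2 i j *ᵥ η) δ)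
      (fun δ => S.Qm m δ φ x)]
  have e5 : ∀ δ, ∑ k, ∑ l, (rc k l : ℂ) *
      (∑ β, ∑ γ, (starRingEnd ℂ) (ζ β) * (S.Gam * S.g2 k l) β γ * ζ γ) *
      (-Complex.I / 2) * (S.g2 k l *ᵥ η) δ = -5 * (∑ β, (starRingEnd ℂ) (ζ β) * ζ β) * η δ :=
    fun δ => a5_gen S ζ σ hΓ hσ δ
  simp only [e5]
  have e6 : HB.HH S m X x = (16 : ℂ) • S.Hm m X x := hA7 m X hXt.1 x
  rw [e6, smul_sub, smul_smul, smul_smul, smul_smul, sub_eq_add_neg]
  congr 1
  · congr 1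
    ring
  · rw [hX]
    unfold QX
    rw [smul_smul, Finset.smul_sum, Finset.smul_sum, ← Finset.sum_neg_distrib]
    refine Finset.sum_congr rfl fun δ _ => ?_
    rw [smul_smul, smul_smul, ← neg_smul]
    congr 1
    ring

/-- coercivity on `X = Q^η φ` -/
lemma coerXP (hA1 : A1Stmt S) (hA2 : A2Stmt S) (hA3 : A3Stmt S) (hA7 : A7Stmt S) (m : ℝ)
    {φ : Cfg dc → F} (hφ : S.InvP plT φ) (ζ : Fin 16 → ℂ) (σ : Fin 9 → ℂ)
    (hΓ : S.Gam *ᵥ ζ = (-Complex.I) • ζ)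
    (hσ : ∀ k, k ≠ 0 → σ k * σ k = 1 ∧ (starRingEnd ℂ) (σ k) = σ k ∧
      S.g2 k (pt k) *ᵥ ζ = (-Complex.I * σ k) • ζ) :
    40 * m * nsq (QX S m (S.g2 0 1 *ᵥ ζ) φ) ≤
      ∑ β, nsq (S.Qm m β (QX S m (S.g2 0 1 *ᵥ ζ) φ)) := by
  have hD := key_DP S hA1 hA2 hA3 hA7 m hφ ζ σ hΓ hσ
  set η : Fin 16 → ℂ := S.g2 0 1 *ᵥ ζ with hη
  set X : Cfg dc → F := QX S m η φ with hX
  have hXt : Setup.Tst X := Tst_QX S m η hφ.1
  have hN : ∑ β, (starRingEnd ℂ) (ζ β) * ζ β = ((∑ β, ‖ζ β‖ ^ 2 : ℝ) : ℂ) := by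
    push_cast
    refine Finset.sum_congr rfl fun β _ => ?_
    rw [mul_comm, Complex.mul_conj, Complex.normSq_eq_norm_sq]
    push_cast
    ring
  rw [hN] at hD
  set N : ℝ := ∑ β, ‖ζ β‖ ^ 2 with hNd
  have hN0 : 0 ≤ N := Finset.sum_nonneg fun _ _ => by positivity
  have t1 := Tst_QX S m ζ hXt
  have t2 := Tst_QX S m (star ζ) hXt
  have h1 : ((nsq (QX S m ζ X) + nsq (QX S m (star ζ) X) : ℝ) : ℂ) =
      ((N * (1 / 8 * ∑ β, nsq (S.Qm m β X) - 5 * m * nsq X) : ℝ) : ℂ) := by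
    have a1 : ((nsq (QX S m ζ X) : ℝ) : ℂ) = E X (QX S m (star ζ) (QX S m ζ X)) := by
      rw [← E_self, E_symm S m ζ hXt t1.1]
    have a2 : ((nsq (QX S m (star ζ) X) : ℝ) : ℂ) = E X (QX S m ζ (QX S m (star ζ) X)) := by
      rw [← E_self, E_symm S m (star ζ) hXt t2.1, star_star]
    have a3 : E X (QX S m (star ζ) (QX S m ζ X)) + E X (QX S m ζ (QX S m (star ζ) X)) =
        N * ((1 / 8 : ℂ) * E X (HB.HH S m X) - 5 * m * E X X) := by
      have c1 := (Tst_QX S m (star ζ) t1).1.continuous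
      have c2 := (Tst_QX S m ζ t2).1.continuous
      have c3 := (HB.Tst_HH S m hXt).1.continuous
      unfold E
      rw [← integral_add (hXt.inner_int c1) (hXt.inner_int c2)]
      simp only [← inner_add_right, hD]
      simp only [inner_smul_right, inner_sub_right]
      rw [integral_const_mul, integral_sub ((hXt.inner_int c3).const_mul _)
        ((hXt.inner_int hXt.1.continuous).const_mul _), integral_const_mul, integral_const_mul]
    push_cast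
    rw [a1, a2, a3, E_HH S m hXt, E_self]
    push_cast
    ring
  have h2 : nsq (QX S m ζ X) + nsq (QX S m (star ζ) X) =
      N * (1 / 8 * ∑ β, nsq (S.Qm m β X) - 5 * m * nsq X) := by exact_mod_cast h1
  have h3 := nsq_nonneg (QX S m ζ X)
  have h4 := nsq_nonneg (QX S m (star ζ) X)
  rcases hN0.lt_or_eq with hN1 | hN1
  · have h5 : 0 ≤ 1 / 8 * ∑ β, nsq (S.Qm m β X) - 5 * m * nsq X := by
      by_contra hcon
      push Not at hcon
      nlinarith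
    linarith
  · have hζ : ζ = 0 := by
      funext β
      have h6 : ‖ζ β‖ ^ 2 = 0 := (Finset.sum_eq_zero_iff_of_nonneg fun _ _ => by positivity).mp
        hN1.symm β (Finset.mem_univ _)
      simpa using h6
    have hX0 : X = fun _ => 0 := by
      funext x
      rw [hX, hη, hζ]
      simp [QX]
    have h7 : nsq X = 0 := by rw [hX0]; simp [nsq]
    rw [h7, mul_zero]
    exact Finset.sum_nonneg fun _ _ => nsq_nonneg _

theorem cgapT_of (hA1 : A1Stmt S) (hA2 : A2Stmt S) (hA3 : A3Stmt S)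
    (hA4 : A4Stmt S) (hA7 : A7Stmt S) : CGapTStmt S := by
  intro m hm φ hφ
  obtain ⟨ι, _, v, σ, hv, hσ⟩ := CG.fam S
  have hη := CG.fam_rot S v hv
  have hGη : ∀ a, S.Gam *ᵥ (S.g2 0 1 *ᵥ v a) = (-Complex.I * 1) • (S.g2 0 1 *ᵥ v a) := by
    intro a
    rw [Matrix.mulVec_mulVec, ← S.Gam_comm_g2 ⟨by decide, by decide⟩, ← Matrix.mulVec_mulVec,
      (hσ a).1, Matrix.mulVec_smul, mul_one]
  have hGs : ∀ a, S.Gam *ᵥ star (S.g2 0 1 *ᵥ v a) =
      (-Complex.I * (-1)) • star (S.g2 0 1 *ᵥ v a) := by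
    intro a
    have h1 := congrArg star (hGη a)
    have h2 : star (S.Gam *ᵥ (S.g2 0 1 *ᵥ v a)) = S.Gam *ᵥ star (S.g2 0 1 *ᵥ v a) := by
      rw [Matrix.star_mulVec, a5_Gam_conj, Matrix.vecMul_neg, ← Matrix.mulVec_transpose,
        S.Gam_transpose, Matrix.neg_mulVec, neg_neg]
    rw [← h2, h1, star_smul]
    simp
  set η : ι → Fin 16 → ℂ := fun a => S.g2 0 1 *ᵥ v a with hηd
  have hHt : Setup.Tst (HB.HH S m φ) := HB.Tst_HH S m hφ.1
  -- the sum of squares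
  have h1 : ∑ β, nsq (S.Qm m β φ) =
      ∑ a, (nsq (CG.QX S m (η a) φ) + nsq (CG.QX S m (star (η a)) φ)) := by
    have h := CG.E_fam S m η hη hφ.1 hφ.1
    simp only [CG.E_self] at h
    exact_mod_cast h
  -- the norm of `HH φ`
  have hsplit : ∀ (ξ : Fin 16 → ℂ) (s : ℝ), S.Gam *ᵥ ξ = (-Complex.I * (s : ℂ)) • ξ →
      CG.E (CG.QX S m ξ φ) (CG.QX S m ξ (HB.HH S m φ)) =
      ((∑ β, nsq (S.Qm m β (CG.QX S m ξ φ)) - 8 * m * s * nsq (CG.QX S m ξ φ) : ℝ) : ℂ) := by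
    intro ξ s hξ
    have ht := CG.Tst_QX S m ξ hφ.1
    have e1 : CG.E (CG.QX S m ξ φ) (CG.QX S m ξ (HB.HH S m φ)) =
        CG.E (CG.QX S m ξ φ) (HB.HH S m (CG.QX S m ξ φ)) -
          (8 * m * s) * CG.E (CG.QX S m ξ φ) (CG.QX S m ξ φ) := by
      unfold CG.E
      simp only [HH_QXP S hA4 hA7 m hφ ξ s hξ, inner_sub_right, inner_smul_right]
      rw [integral_sub (ht.inner_int (HB.Tst_HH S m ht).1.continuous)
        ((ht.inner_int ht.1.continuous).const_mul _), integral_const_mul]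
    rw [e1, CG.E_HH S m ht, CG.E_self]
    push_cast
    ring
  have h2 : nsq (HB.HH S m φ) = ∑ a,
      ((∑ β, nsq (S.Qm m β (CG.QX S m (η a) φ)) - 8 * m * 1 * nsq (CG.QX S m (η a) φ)) +
      (∑ β, nsq (S.Qm m β (CG.QX S m (star (η a)) φ)) -
        8 * m * (-1) * nsq (CG.QX S m (star (η a)) φ))) := by
    have h := CG.E_fam S m η hη hφ.1 hHt
    have h3 : CG.E (HB.HH S m φ) (HB.HH S m φ) =
        ∑ β, CG.E (S.Qm m β φ) (S.Qm m β (HB.HH S m φ)) := HB.inner_HH S m hφ.1 hHt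
    rw [← h3, CG.E_self] at h
    have h4 : ∀ a, CG.E (CG.QX S m (η a) φ) (CG.QX S m (η a) (HB.HH S m φ)) +
        CG.E (CG.QX S m (star (η a)) φ) (CG.QX S m (star (η a)) (HB.HH S m φ)) =
        (((∑ β, nsq (S.Qm m β (CG.QX S m (η a) φ)) - 8 * m * 1 * nsq (CG.QX S m (η a) φ)) +
        (∑ β, nsq (S.Qm m β (CG.QX S m (star (η a)) φ)) -
          8 * m * (-1) * nsq (CG.QX S m (star (η a)) φ)) : ℝ) : ℂ) := by
      intro a
      rw [hsplit (η a) 1 (by rw [Complex.ofReal_one]; exact hGη a),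
        hsplit (star (η a)) (-1) (by rw [Complex.ofReal_neg, Complex.ofReal_one]; exact hGs a)]
      push_cast
      ring
    simp only [h4] at h
    exact_mod_cast h
  change 8 * m * ∑ β, nsq (S.Qm m β φ) ≤ nsq (HB.HH S m φ)
  rw [h1, h2, Finset.mul_sum]
  refine Finset.sum_le_sum fun a _ => ?_
  have h5 := coerXP S hA1 hA2 hA3 hA7 m hφ (v a) (σ a) (hσ a).1 (hσ a).2
  have h6 : 0 ≤ ∑ β, nsq (S.Qm m β (CG.QX S m (star (η a)) φ)) :=
    Finset.sum_nonneg fun _ _ => nsq_nonneg _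
  have h7 := nsq_nonneg (CG.QX S m (η a) φ)
  have h8 : 0 ≤ m * nsq (CG.QX S m (η a) φ) := mul_nonneg hm.le h7
  have h9 : 40 * m * nsq (CG.QX S m (η a) φ) ≤ ∑ β, nsq (S.Qm m β (CG.QX S m (η a) φ)) := h5
  nlinarith

end CT

/-- **H5** core gap for torus invariant functions -/
theorem cgapT (S : Setup dc F) : CGapTStmt S := by
  have A1 : A1Stmt S := a1 S (a1a S) (a1b S (fbmn S (f10 S)))
  have A2 : A2Stmt S := a2 (S := S)
  have A3 : A3Stmt S := a3 (S := S)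
  have A7 : A7Stmt S := a7 S A1
  have A4 : A4Stmt S := a4 S A1 A2 A3 A7
  exact CT.cgapT_of S A1 A2 A3 A4 A7

end Vale.Agent.P353.Z.AH
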