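import Vale.Agent.P353.AN.H.Stmt
import Vale.Agent.P353.Z.Loc
import Vale.Agent.P353.Z.U.A1
import Vale.Agent.P353.Z.U.A1a
import Vale.Agent.P353.Z.U.A1b
import Vale.Agent.P353.Z.U.A2
import Vale.Agent.P353.Z.U.A4
import Vale.Agent.P353.Z.U.CGap
import Vale.Agent.P353.Z.U.FBmn
import Vale.Agent.P353.Z.U.FFten

/-! # P353, all `N`, block H: H1 and H2 (helper409) -/

open MeasureTheory Filter Topology Matrix
open scoped ContDiff

namespace Vale.Agent.P353.Z.AH

variable {d : ℕ} {F : Type*} [NormedAddCommGroup F] [InnerProductSpace ℂ F]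

open U U.HB U.CG

/-- Cauchy-Schwarz for the pairing, in the form `‖⟨f,g⟩‖ ≤ (‖f‖² + ‖g‖²)/2` -/
lemma norm_E_le {f g : Cfg d → F} (hf : Setup.Tst f) (hg : Setup.Tst g) :
    ‖E f g‖ ≤ (nsq f + nsq g) / 2 := by
  have h1 : ‖E f g‖ ≤ ∫ x, ‖inner ℂ (f x) (g x)‖ := norm_integral_le_integral_norm _
  refine h1.trans ?_
  have i1 := memLp_norm_sq_int hf.memLp
  have i2 := memLp_norm_sq_int hg.memLp
  have h2 : (nsq f + nsq g) / 2 = ∫ x, (‖f x‖ ^ 2 + ‖g x‖ ^ 2) / 2 := by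
    rw [nsq, nsq, ← integral_add i1 i2, integral_div]
  rw [h2]
  refine integral_mono_of_nonneg (Filter.Eventually.of_forall fun x => norm_nonneg _)
    ((i1.add i2).div_const 2) (Filter.Eventually.of_forall fun x => ?_)
  have h3 := norm_inner_le_norm (𝕜 := ℂ) (f x) (g x)
  have h4 : ‖f x‖ * ‖g x‖ ≤ (‖f x‖ ^ 2 + ‖g x‖ ^ 2) / 2 := by
    nlinarith [sq_nonneg (‖f x‖ - ‖g x‖)]
  exact h3.trans h4

variable (S : Setup d F)

theorem hA1 : A1Stmt S := a1 S (a1a S) (a1b S (fbmn S (f10 S)))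
theorem hA7 : A7Stmt S := a7 S (hA1 S)
theorem hA4 : A4Stmt S := a4 S (hA1 S) (a2 (S := S)) (a3 (S := S)) (hA7 S)

/-- `∑ |Γ_{αβ}|` -/
noncomputable def cGam : ℝ := ∑ α, ∑ β, ‖S.Gam α β‖

lemma cGam_nonneg : 0 ≤ cGam S := Finset.sum_nonneg fun _ _ => Finset.sum_nonneg fun _ _ => norm_nonneg _

/-- `16 H Q_α u = Q_α 16 H u - 8 i m (ΓQ)_α u` for gauge invariant `u` -/
lemma HH_Qm (m : ℝ) {u : Cfg d → F} (hu : S.GInv u) (α : Fin 16) (x : Cfg d) :
    HH S m (S.Qm m α u) x = S.Qm m α (HH S m u) x -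
      (8 * Complex.I * m) • ∑ β, S.Gam α β • S.Qm m β u x := by
  have hA7 := hA7 S
  have e1 : HH S m u = fun y => (16 : ℂ) • S.Hm m u y := funext fun y => hA7 m u hu.1.1 y
  have e2 : S.Hm m u = fun y => (1 / 16 : ℂ) • HH S m u y := by
    funext y
    rw [e1]
    simp only [smul_smul]
    norm_num
  have hH : ContDiff ℝ ∞ (S.Hm m u) := by
    rw [e2]
    exact contDiff_const.smul (contDiff_HH S m hu.1.1)
  have h1 := hA4 S m α u hu.1.1 x
  simp only [hu.2, map_zero, Finset.sum_const_zero, smul_zero, sub_zero] at h1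
  have h2 : HH S m (S.Qm m α u) x = (16 : ℂ) • S.Hm m (S.Qm m α u) x :=
    hA7 m _ (contDiff_Qm S m α hu.1.1) x
  rw [e1, Qm_csmul S m α 16 hH, h2, sub_eq_iff_eq_add.mp h1, smul_add, smul_smul, sub_eq_add_neg,
    ← neg_smul, add_comm]
  congr 2
  ring

/-- **H1** -/
theorem qq : QQStmt S := by
  refine ⟨8 * cGam S, mul_nonneg (by norm_num) (cGam_nonneg S), ?_⟩
  intro m hm u hu
  have hQt : ∀ α, Setup.Tst (S.Qm m α u) := fun α => Tst_Qm S m α hu.1
  have hHt : Setup.Tst (HH S m u) := Tst_HH S m hu.1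
  -- the energy of `Q_α u`
  have h1 : ∀ α, ((∑ β, nsq (S.Qm m β (S.Qm m α u)) : ℝ) : ℂ) =
      E (S.Qm m α u) (S.Qm m α (HH S m u)) -
        (8 * Complex.I * m) * ∑ β, S.Gam α β * E (S.Qm m α u) (S.Qm m β u) := by
    intro α
    rw [← E_HH S m (hQt α)]
    unfold E
    have hc1 : Continuous (S.Qm m α (HH S m u)) := (contDiff_Qm S m α hHt.1).continuous
    have hs : ∀ β, Integrable fun x => inner ℂ (S.Qm m α u x) (S.Gam α β • S.Qm m β u x) := by
      intro β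
      exact (hQt α).inner_int (continuous_const.smul (hQt β).1.continuous)
    simp only [HH_Qm S m hu α, inner_sub_right, inner_smul_right, inner_sum]
    rw [integral_sub ((hQt α).inner_int hc1) ?_, integral_const_mul, integral_finsetSum]
    · simp only [integral_const_mul]
    · intro β _
      simpa only [inner_smul_right] using hs β
    · refine (integrable_finsetSum _ fun β _ => ?_).const_mul _
      simpa only [inner_smul_right] using hs β
  have h2 : ∑ α, E (S.Qm m α u) (S.Qm m α (HH S m u)) = ((nsq (HH S m u) : ℝ) : ℂ) := by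
    rw [← E_self]
    exact (inner_HH S m hu.1 hHt).symm
  have h3 : ((∑ α, ∑ β, nsq (S.Qm m β (S.Qm m α u)) : ℝ) : ℂ) = ((nsq (HH S m u) : ℝ) : ℂ) -
      (8 * Complex.I * m) * ∑ α, ∑ β, S.Gam α β * E (S.Qm m α u) (S.Qm m β u) := by
    rw [Complex.ofReal_sum]
    simp only [h1]
    rw [Finset.sum_sub_distrib, h2, Finset.mul_sum]
  set X : ℂ := ∑ α, ∑ β, S.Gam α β * E (S.Qm m α u) (S.Qm m β u) with hX
  have hen : ∀ α, nsq (S.Qm m α u) ≤ S.en m u := fun α =>
    Finset.single_le_sum (f := fun β => nsq (S.Qm m β u)) (fun β _ => nsq_nonneg _)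
      (Finset.mem_univ α)
  have h4 : ‖X‖ ≤ cGam S * S.en m u := by
    rw [hX, cGam, Finset.sum_mul]
    refine (norm_sum_le _ _).trans (Finset.sum_le_sum fun α _ => ?_)
    rw [Finset.sum_mul]
    refine (norm_sum_le _ _).trans (Finset.sum_le_sum fun β _ => ?_)
    rw [norm_mul]
    refine mul_le_mul_of_nonneg_left ?_ (norm_nonneg _)
    refine (norm_E_le (hQt α) (hQt β)).trans ?_
    linarith [hen α, hen β]
  have h5 : ∑ α, ∑ β, nsq (S.Qm m β (S.Qm m α u)) ≤ nsq (HH S m u) +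
      ‖(8 * Complex.I * m) * X‖ := by
    have h6 := congrArg Complex.re h3
    rw [Complex.ofReal_re, Complex.sub_re, Complex.ofReal_re] at h6
    rw [h6]
    have h7 := Complex.abs_re_le_norm ((8 * Complex.I * m) * X)
    linarith [neg_abs_le ((8 * Complex.I * m) * X).re]
  refine h5.trans ?_
  have h8 : ‖(8 * Complex.I * (m : ℂ)) * X‖ = 8 * m * ‖X‖ := by
    rw [norm_mul, norm_mul, norm_mul, Complex.norm_I, Complex.norm_real, Real.norm_of_nonneg hm]
    norm_num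
  rw [h8]
  have h9 : 8 * m * ‖X‖ ≤ 8 * m * (cGam S * S.en m u) :=
    mul_le_mul_of_nonneg_left h4 (by positivity)
  linarith

/-! ### H2 -/

lemma rc_comm (k l : Fin 9) : rc k l = rc l k := by
  unfold rc
  simp only [and_comm]

lemma rc_abs {k l : Fin 9} (h : Same k l) : 1 ≤ |rc k l| := by
  unfold rc
  by_cases hk : k.val < 3
  · have hl : l.val < 3 := h.2.1 hk
    rw [if_pos ⟨hk, hl⟩]
    norm_num
  · have hl : ¬ l.val < 3 := fun hl => hk (h.2.2 hl)
    rw [if_neg (fun hh => hk hh.1), if_pos ⟨by omega, by omega⟩]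
    norm_num

lemma J_swap' (k l : Fin 9) (u : Cfg d → F) (x : Cfg d) : S.J l k u x = -S.J k l u x := by
  have h1 : S.Skl l k = -S.Skl k l := by
    unfold Setup.Skl
    rw [S.g2_swap l k, CS.tot_neg, smul_neg]
  unfold Setup.J
  rw [h1, neg_add, ← smul_neg, ← Finset.sum_neg_distrib]
  congr 2
  refine Finset.sum_congr rfl fun A _ => ?_
  rw [neg_sub]

/-- orthogonality of the matrices `Γγ^{ij}` -/
lemma ortho (k l i j : Fin 9) :
    ∑ α, ∑ β, (starRingEnd ℂ) ((S.Gam * S.g2 k l) α β) * (S.Gam * S.g2 i j) α β =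
      16 * ((if k = i then 1 else 0) * (if l = j then 1 else 0)
        - (if l = i then 1 else 0) * (if k = j then 1 else 0)) := by
  have h1 : ∑ α, ∑ β, (starRingEnd ℂ) ((S.Gam * S.g2 k l) α β) * (S.Gam * S.g2 i j) α β =
      ((S.Gam * S.g2 k l)ᴴ * (S.Gam * S.g2 i j)).trace := by
    rw [Matrix.trace, Finset.sum_comm]
    refine Finset.sum_congr rfl fun β _ => ?_
    rw [Matrix.diag_apply, Matrix.mul_apply]
    rfl
  have h2 : (S.Gam * S.g2 k l)ᴴ * (S.Gam * S.g2 i j) = -(S.g2 k l * S.g2 i j) := by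
    rw [Matrix.conjTranspose_mul, a5_g2_conj, a5_Gam_conj]
    calc -S.g2 k l * -S.Gam * (S.Gam * S.g2 i j) = S.g2 k l * (S.Gam * S.Gam) * S.g2 i j := by
          simp only [neg_mul_neg, mul_assoc]
      _ = -(S.g2 k l * S.g2 i j) := by rw [S.Gam_sq]; simp
  rw [h1, h2, Matrix.trace_neg, S.trace_g2_g2]
  ring

lemma delta2 (w : Fin 9 → Fin 9 → F) (k l : Fin 9) :
    ∑ i, ∑ j, (((if k = i then (1 : ℂ) else 0) * (if l = j then 1 else 0)) • w i j) = w k l := by
  rw [Finset.sum_eq_single k, Finset.sum_eq_single l]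
  · simp
  · intro j _ hj
    rw [if_neg (Ne.symm hj), mul_zero, zero_smul]
  · intro h; exact absurd (Finset.mem_univ _) h
  · intro i _ hi
    refine Finset.sum_eq_zero fun j _ => ?_
    rw [if_neg (Ne.symm hi), zero_mul, zero_smul]
  · intro h; exact absurd (Finset.mem_univ _) h

/-- the rotation generators from the anticommutators -/
lemma J_eq (m : ℝ) {u : Cfg d → F} (hu : S.GInv u) {k l : Fin 9} (x : Cfg d) :
    (32 * m * rc k l : ℂ) • S.J k l u x = ∑ α, ∑ β,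
      (starRingEnd ℂ) ((S.Gam * S.g2 k l) α β) • (S.Qm m α (S.Qm m β u) x +
        S.Qm m β (S.Qm m α u) x) := by
  have h1 : ∀ α β, S.Qm m α (S.Qm m β u) x + S.Qm m β (S.Qm m α u) x =
      (if α = β then (2 : ℂ) • S.Hm m u x else 0) +
      (m : ℂ) • (∑ i, ∑ j, ((rc i j : ℂ) * (S.Gam * S.g2 i j) α β) • S.J i j u x) := by
    intro α β
    rw [hA1 S m α β u hu.1.1 x]
    simp only [hu.2, smul_zero, Finset.sum_const_zero, add_zero]
  simp only [h1, smul_add, Finset.sum_add_distrib]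
  have h2 : ∑ α, ∑ β, (starRingEnd ℂ) ((S.Gam * S.g2 k l) α β) •
      (if α = β then (2 : ℂ) • S.Hm m u x else 0) = 0 := by
    have h3 : ∀ α, ∑ β, (starRingEnd ℂ) ((S.Gam * S.g2 k l) α β) •
        (if α = β then (2 : ℂ) • S.Hm m u x else 0) =
        (starRingEnd ℂ) ((S.Gam * S.g2 k l) α α) • ((2 : ℂ) • S.Hm m u x) := by
      intro α
      rw [Finset.sum_eq_single α]
      · rw [if_pos rfl]
      · intro β _ hβ
        rw [if_neg (Ne.symm hβ), smul_zero]
      · intro h; exact absurd (Finset.mem_univ _) h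
    simp only [h3]
    rw [← Finset.sum_smul, ← map_sum]
    have h4 : ∑ α, (S.Gam * S.g2 k l) α α = 0 := S.trace_Gam_g2_a1 k l
    rw [h4, map_zero, zero_smul]
  rw [h2, zero_add]
  have h5 : ∑ α, ∑ β, (starRingEnd ℂ) ((S.Gam * S.g2 k l) α β) • (m : ℂ) •
      (∑ i, ∑ j, ((rc i j : ℂ) * (S.Gam * S.g2 i j) α β) • S.J i j u x) =
      ∑ i, ∑ j, ((m : ℂ) * rc i j * ∑ α, ∑ β, (starRingEnd ℂ) ((S.Gam * S.g2 k l) α β) *
        (S.Gam * S.g2 i j) α β) • S.J i j u x := by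
    simp only [Finset.smul_sum, smul_smul, Finset.mul_sum, Finset.sum_smul]
    have h2 : ∀ (w : Fin 16 → Fin 16 → Fin 9 → Fin 9 → F),
        ∑ α, ∑ β, ∑ i, ∑ j, w α β i j = ∑ i, ∑ j, ∑ α, ∑ β, w α β i j := by
      intro w
      calc ∑ α, ∑ β, ∑ i, ∑ j, w α β i j = ∑ α, ∑ i, ∑ β, ∑ j, w α β i j :=
            Finset.sum_congr rfl fun α _ => Finset.sum_comm
        _ = ∑ i, ∑ α, ∑ β, ∑ j, w α β i j := Finset.sum_comm
        _ = ∑ i, ∑ α, ∑ j, ∑ β, w α β i j :=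
            Finset.sum_congr rfl fun i _ => Finset.sum_congr rfl fun α _ => Finset.sum_comm
        _ = ∑ i, ∑ j, ∑ α, ∑ β, w α β i j :=
            Finset.sum_congr rfl fun i _ => Finset.sum_comm
    rw [h2]
    refine Finset.sum_congr rfl fun i _ => Finset.sum_congr rfl fun j _ =>
      Finset.sum_congr rfl fun α _ => Finset.sum_congr rfl fun β _ => ?_
    congr 1
    ring
  rw [h5]
  simp only [ortho S k l]
  have h6 : ∀ i j, ((m : ℂ) * rc i j * (16 * ((if k = i then 1 else 0) * (if l = j then 1 else 0)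
        - (if l = i then 1 else 0) * (if k = j then 1 else 0)))) • S.J i j u x =
      ((if k = i then (1 : ℂ) else 0) * (if l = j then 1 else 0)) •
        ((16 * m * rc i j : ℂ) • S.J i j u x) -
      ((if l = i then (1 : ℂ) else 0) * (if k = j then 1 else 0)) •
        ((16 * m * rc i j : ℂ) • S.J i j u x) := by
    intro i j
    rw [smul_smul, smul_smul, ← sub_smul]
    congr 1
    ring
  simp only [h6, Finset.sum_sub_distrib]
  rw [delta2 (fun i j => (16 * m * rc i j : ℂ) • S.J i j u x) k l,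
    delta2 (fun i j => (16 * m * rc i j : ℂ) • S.J i j u x) l k]
  rw [J_swap' S k l, rc_comm l k, smul_neg, sub_neg_eq_add, ← add_smul]
  congr 1
  ring

/-- `∑ |(Γγ^{kl})_{αβ}|²` -/
noncomputable def cJ : ℝ := ∑ k, ∑ l, ∑ α, ∑ β, ‖(S.Gam * S.g2 k l) α β‖ ^ 2

lemma cJ_nonneg : 0 ≤ cJ S := Finset.sum_nonneg fun _ _ => Finset.sum_nonneg fun _ _ =>
  Finset.sum_nonneg fun _ _ => Finset.sum_nonneg fun _ _ => by positivity

lemma le_cJ (k l : Fin 9) (α β : Fin 16) : ‖(S.Gam * S.g2 k l) α β‖ ^ 2 ≤ cJ S := by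
  have h1 : ‖(S.Gam * S.g2 k l) α β‖ ^ 2 ≤ ∑ β, ‖(S.Gam * S.g2 k l) α β‖ ^ 2 :=
    Finset.single_le_sum (f := fun β => ‖(S.Gam * S.g2 k l) α β‖ ^ 2)
      (fun _ _ => by positivity) (Finset.mem_univ β)
  have h2 : ∑ β, ‖(S.Gam * S.g2 k l) α β‖ ^ 2 ≤ ∑ α, ∑ β, ‖(S.Gam * S.g2 k l) α β‖ ^ 2 :=
    Finset.single_le_sum (f := fun α => ∑ β, ‖(S.Gam * S.g2 k l) α β‖ ^ 2)
      (fun _ _ => Finset.sum_nonneg fun _ _ => by positivity) (Finset.mem_univ α)
  have h3 : ∑ α, ∑ β, ‖(S.Gam * S.g2 k l) α β‖ ^ 2 ≤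
      ∑ l, ∑ α, ∑ β, ‖(S.Gam * S.g2 k l) α β‖ ^ 2 :=
    Finset.single_le_sum (f := fun l => ∑ α, ∑ β, ‖(S.Gam * S.g2 k l) α β‖ ^ 2)
      (fun _ _ => Finset.sum_nonneg fun _ _ => Finset.sum_nonneg fun _ _ => by positivity)
      (Finset.mem_univ l)
  have h4 : ∑ l, ∑ α, ∑ β, ‖(S.Gam * S.g2 k l) α β‖ ^ 2 ≤ cJ S :=
    Finset.single_le_sum (f := fun k => ∑ l, ∑ α, ∑ β, ‖(S.Gam * S.g2 k l) α β‖ ^ 2)
      (fun _ _ => Finset.sum_nonneg fun _ _ => Finset.sum_nonneg fun _ _ =>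
        Finset.sum_nonneg fun _ _ => by positivity) (Finset.mem_univ k)
  linarith

lemma nsq_smul (c : ℂ) (f : Cfg d → F) : nsq (fun x => c • f x) = ‖c‖ ^ 2 * nsq f := by
  rw [nsq, nsq, ← integral_const_mul]
  refine integral_congr_ae (Filter.Eventually.of_forall fun x => ?_)
  simp only [norm_smul, mul_pow]

/-- **H2** -/
theorem jbd : JbdStmt S := by
  obtain ⟨C, hC, hqq⟩ := qq S
  have hcJ := cJ_nonneg S
  refine ⟨1024 * cJ S * (1 + C), by positivity, ?_⟩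
  intro m hm u hu k l hkl
  have hQt : ∀ α, Setup.Tst (S.Qm m α u) := fun α => Tst_Qm S m α hu.1
  have hQQ : ∀ α β, Setup.Tst (S.Qm m α (S.Qm m β u)) := fun α β => Tst_Qm S m α (hQt β)
  set D : Fin 16 × Fin 16 → Cfg d → F := fun p x =>
    (starRingEnd ℂ) ((S.Gam * S.g2 k l) p.1 p.2) • (S.Qm m p.1 (S.Qm m p.2 u) x +
      S.Qm m p.2 (S.Qm m p.1 u) x) with hD
  have h1 : nsq (fun x => (32 * m * rc k l : ℂ) • S.J k l u x) =
      nsq (fun x => ∑ p, D p x) := by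
    congr 1
    funext x
    rw [J_eq S m hu x, Fintype.sum_prod_type]
  have h2 : nsq (fun x => ∑ p, D p x) ≤ 256 * ∑ p, nsq (D p) := by
    have h := nsq_sum_le Finset.univ D (fun p _ =>
      (Tst_csmul _ ((hQQ p.1 p.2).add (hQQ p.2 p.1))).memLp)
    have hc : ((Finset.univ : Finset (Fin 16 × Fin 16)).card : ℝ) = 256 := by
      simp only [Finset.card_univ, Fintype.card_prod, Fintype.card_fin]
      norm_num
    rwa [hc] at h
  have h3 : ∀ p, nsq (D p) ≤ cJ S * (2 * nsq (S.Qm m p.1 (S.Qm m p.2 u)) +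
      2 * nsq (S.Qm m p.2 (S.Qm m p.1 u))) := by
    intro p
    rw [hD]
    simp only
    rw [nsq_smul, RCLike.norm_conj]
    have h4 := nsq_add_le (hQQ p.1 p.2).memLp (hQQ p.2 p.1).memLp
    exact mul_le_mul (le_cJ S k l p.1 p.2) h4 (nsq_nonneg _) hcJ
  set T : ℝ := ∑ α, ∑ β, nsq (S.Qm m β (S.Qm m α u)) with hT
  have h4 : ∑ p, nsq (D p) ≤ cJ S * (4 * T) := by
    refine (Finset.sum_le_sum fun p _ => h3 p).trans ?_
    rw [← Finset.mul_sum]
    refine mul_le_mul_of_nonneg_left ?_ hcJ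
    rw [Fintype.sum_prod_type]
    simp only [Finset.sum_add_distrib, ← Finset.mul_sum]
    have h5 : ∑ α, ∑ β, nsq (S.Qm m α (S.Qm m β u)) = T := by
      rw [hT, Finset.sum_comm]
    rw [h5]
    linarith
  have h6 : (32 * m * rc k l) ^ 2 * nsq (S.J k l u) =
      nsq (fun x => (32 * m * rc k l : ℂ) • S.J k l u x) := by
    rw [nsq_smul]
    congr 1
    have : (32 * m * rc k l : ℂ) = ((32 * m * rc k l : ℝ) : ℂ) := by push_cast; rfl
    rw [this, Complex.norm_real, Real.norm_eq_abs, sq_abs]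
  have h7 : m ^ 2 * nsq (S.J k l u) ≤ (32 * m * rc k l) ^ 2 * nsq (S.J k l u) := by
    refine mul_le_mul_of_nonneg_right ?_ (nsq_nonneg _)
    have h8 : 1 ≤ (rc k l) ^ 2 := by
      rw [← sq_abs]
      nlinarith [rc_abs hkl]
    nlinarith [sq_nonneg m]
  have h9 := hqq m hm.le u hu
  have hen : 0 ≤ S.en m u := Finset.sum_nonneg fun _ _ => nsq_nonneg _
  have hHH := nsq_nonneg (HH S m u)
  calc m ^ 2 * nsq (S.J k l u) ≤ 256 * (cJ S * (4 * T)) := by
        rw [h6, h1] at h7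
        linarith
    _ = 1024 * cJ S * T := by ring
    _ ≤ 1024 * cJ S * (nsq (HH S m u) + C * m * S.en m u) :=
        mul_le_mul_of_nonneg_left h9 (by positivity)
    _ ≤ 1024 * cJ S * ((1 + C) * (nsq (HH S m u) + m * S.en m u)) := by
        refine mul_le_mul_of_nonneg_left ?_ (by positivity)
        have a1 : 0 ≤ C * nsq (HH S m u) := mul_nonneg hC hHH
        have a2 : 0 ≤ m * S.en m u := mul_nonneg hm.le hen
        nlinarith
    _ = _ := by ring

end Vale.Agent.P353.Z.AH
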