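import Vale.Agent.P353.AN.H.S7b

/-! # P353, all `N`, block H: Gram matrices (helper973) -/

open MeasureTheory Filter Topology
open scoped ContDiff ComplexConjugate

namespace Vale.Agent.P353.Z.AH

section abs

variable {L : Type*} [NormedAddCommGroup L] [InnerProductSpace ℂ L] {K : Type*} [Fintype K]

lemma norm_sum_sq (c : K → ℂ) (y : K → L) :
    ‖∑ k, c k • y k‖ ^ 2 = (∑ k, ∑ l, c l * (conj (c k) * inner ℂ (y k) (y l))).re := by
  rw [← inner_self_eq_norm_sq (𝕜 := ℂ), sum_inner]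
  simp only [inner_sum, inner_smul_left, inner_smul_right]
  rfl

lemma sum_norm_sq_le (c : K → ℂ) : (∑ k, ‖c k‖) ^ 2 ≤ Fintype.card K * ∑ k, ‖c k‖ ^ 2 := by
  have h2 := sq_sum_le_card_mul_sum_sq (s := (Finset.univ : Finset K)) (f := fun k => ‖c k‖)
  simpa using h2

/-- lower bound for Gram matrices that converge to a positive one -/
lemma gram_lower {α : Type*} {f : Filter α} (y : α → K → L) (G : K → K → ℂ)
    (hG : ∀ k l, Tendsto (fun n => inner ℂ (y n k) (y n l)) f (𝓝 (G k l))) {κ : ℝ} (hκ : 0 < κ)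
    (hpos : ∀ c : K → ℂ, κ * ∑ k, ‖c k‖ ^ 2 ≤ (∑ k, ∑ l, c l * (conj (c k) * G k l)).re) :
    ∀ᶠ n in f, ∀ c : K → ℂ, κ / 2 * ∑ k, ‖c k‖ ^ 2 ≤ ‖∑ k, c k • y n k‖ ^ 2 := by
  set θ : ℝ := κ / (2 * (Fintype.card K + 1)) with hθ
  have hθ0 : 0 < θ := by positivity
  have hθ1 : θ * Fintype.card K ≤ κ / 2 := by
    rw [hθ]
    have h1 : (0 : ℝ) ≤ Fintype.card K := Nat.cast_nonneg _
    rw [div_mul_eq_mul_div, div_le_div_iff₀ (by positivity) (by norm_num)]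
    nlinarith
  have hev : ∀ᶠ n in f, ∀ k l, ‖inner ℂ (y n k) (y n l) - G k l‖ < θ := by
    rw [eventually_all]
    intro k
    rw [eventually_all]
    intro l
    have := (tendsto_iff_norm_sub_tendsto_zero.mp (hG k l)).eventually_lt_const hθ0
    exact this
  filter_upwards [hev] with n hn c
  rw [norm_sum_sq]
  have h1 : (∑ k, ∑ l, c l * (conj (c k) * inner ℂ (y n k) (y n l))) =
      (∑ k, ∑ l, c l * (conj (c k) * G k l)) +
        ∑ k, ∑ l, c l * (conj (c k) * (inner ℂ (y n k) (y n l) - G k l)) := by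
    rw [← Finset.sum_add_distrib]
    refine Finset.sum_congr rfl fun k _ => ?_
    rw [← Finset.sum_add_distrib]
    refine Finset.sum_congr rfl fun l _ => ?_
    ring
  have h2 : ‖∑ k, ∑ l, c l * (conj (c k) * (inner ℂ (y n k) (y n l) - G k l))‖ ≤
      κ / 2 * ∑ k, ‖c k‖ ^ 2 := by
    calc ‖∑ k, ∑ l, c l * (conj (c k) * (inner ℂ (y n k) (y n l) - G k l))‖
        ≤ ∑ k, ∑ l, ‖c k‖ * ‖c l‖ * θ := by
          refine (norm_sum_le _ _).trans (Finset.sum_le_sum fun k _ => ?_)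
          refine (norm_sum_le _ _).trans (Finset.sum_le_sum fun l _ => ?_)
          rw [norm_mul, norm_mul, RCLike.norm_conj]
          have := (hn k l).le
          calc ‖c l‖ * (‖c k‖ * ‖inner ℂ (y n k) (y n l) - G k l‖) ≤ ‖c l‖ * (‖c k‖ * θ) := by gcongr
            _ = _ := by ring
      _ = (∑ k, ‖c k‖) ^ 2 * θ := by
          rw [sq, Finset.sum_mul_sum, Finset.sum_mul]
          refine Finset.sum_congr rfl fun k _ => ?_
          rw [Finset.sum_mul]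
      _ ≤ (Fintype.card K * ∑ k, ‖c k‖ ^ 2) * θ := by
          gcongr
          exact sum_norm_sq_le c
      _ = (θ * Fintype.card K) * ∑ k, ‖c k‖ ^ 2 := by ring
      _ ≤ _ := by gcongr
  rw [h1, Complex.add_re]
  have h3 := hpos c
  have h4 := (abs_le.mp (Complex.abs_re_le_norm (∑ k, ∑ l, c l * (conj (c k) *
    (inner ℂ (y n k) (y n l) - G k l))))).1
  linarith

/-- perturbation -/
lemma gram_pert {y z : K → L} {κ δ : ℝ} (hκ : 0 < κ) (hδ : 0 ≤ δ) (hd : δ ^ 2 * Fintype.card K ≤ κ / 4)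
    (hyz : ∀ k, ‖z k - y k‖ ≤ δ) (c : K → ℂ) (hy : κ * ∑ k, ‖c k‖ ^ 2 ≤ ‖∑ k, c k • y k‖ ^ 2) :
    κ / 4 * ∑ k, ‖c k‖ ^ 2 ≤ ‖∑ k, c k • z k‖ ^ 2 := by
  set s : ℝ := ∑ k, ‖c k‖ ^ 2 with hs
  have hs0 : 0 ≤ s := Finset.sum_nonneg fun k _ => by positivity
  have h1 : ‖∑ k, c k • y k‖ ≤ ‖∑ k, c k • z k‖ + δ * ∑ k, ‖c k‖ := by
    have e : ∑ k, c k • y k = (∑ k, c k • z k) - ∑ k, c k • (z k - y k) := by
      rw [← Finset.sum_sub_distrib]
      refine Finset.sum_congr rfl fun k _ => ?_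
      rw [smul_sub]; abel
    rw [e]
    refine (norm_sub_le _ _).trans (add_le_add_right ?_ _)
    rw [Finset.mul_sum]
    refine (norm_sum_le _ _).trans (Finset.sum_le_sum fun k _ => ?_)
    rw [norm_smul, mul_comm]
    exact mul_le_mul_of_nonneg_right (hyz k) (norm_nonneg _)
  have h2 := sum_norm_sq_le c
  have h3 : (δ * ∑ k, ‖c k‖) ^ 2 ≤ κ / 4 * s := by
    calc (δ * ∑ k, ‖c k‖) ^ 2 = δ ^ 2 * (∑ k, ‖c k‖) ^ 2 := by ring
      _ ≤ δ ^ 2 * (Fintype.card K * s) := by gcongr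
      _ = (δ ^ 2 * Fintype.card K) * s := by ring
      _ ≤ _ := by gcongr
  have hz0 := norm_nonneg (∑ k, c k • z k)
  have hc0 : 0 ≤ δ * ∑ k, ‖c k‖ := by positivity
  have hy0 := norm_nonneg (∑ k, c k • y k)
  have h4 : κ * s ≤ (‖∑ k, c k • z k‖ + δ * ∑ k, ‖c k‖) ^ 2 := hy.trans (by gcongr)
  -- `√(κ s) ≤ Z + √(κ s)/2`
  set t : ℝ := Real.sqrt (κ * s) with ht
  have ht0 : 0 ≤ t := Real.sqrt_nonneg _
  have ht2 : t ^ 2 = κ * s := Real.sq_sqrt (by positivity)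
  have h5 : δ * ∑ k, ‖c k‖ ≤ t / 2 := by
    refine abs_le_of_sq_le_sq' ?_ (by positivity) |>.2
    rw [div_pow, ht2]
    linarith
  have h6 : t ≤ ‖∑ k, c k • z k‖ + δ * ∑ k, ‖c k‖ := by
    refine abs_le_of_sq_le_sq' ?_ (by positivity) |>.2
    rw [ht2]
    exact h4
  have h7 : t / 2 ≤ ‖∑ k, c k • z k‖ := by linarith
  have h8 : (t / 2) ^ 2 ≤ ‖∑ k, c k • z k‖ ^ 2 := by gcongr
  rw [div_pow, ht2] at h8
  linarith

/-- linearly independent vectors have a positive Gram matrix -/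
lemma indep_lower {b : ℕ} {Ψ : Fin b → L} (h : LinearIndependent ℂ Ψ) :
    ∃ κ : ℝ, 0 < κ ∧ ∀ c : Fin b → ℂ, κ * ∑ k, ‖c k‖ ^ 2 ≤ ‖∑ k, c k • Ψ k‖ ^ 2 := by
  let f : EuclideanSpace ℂ (Fin b) →ₗ[ℂ] L :=
    (Fintype.linearCombination ℂ Ψ).comp (WithLp.linearEquiv 2 ℂ (Fin b → ℂ)).toLinearMap
  have hf : LinearMap.ker f = ⊥ := by
    rw [LinearMap.ker_eq_bot']
    intro c hc
    have h1 : ∑ k, c k • Ψ k = 0 := hc
    have h2 := Fintype.linearIndependent_iff.mp h (fun k => c k) h1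
    ext k
    simpa using h2 k
  obtain ⟨C, hC, ha⟩ := f.exists_antilipschitzWith hf
  have hC' : (0 : ℝ) < C := hC
  refine ⟨1 / C ^ 2, by positivity, fun c => ?_⟩
  have h1 := ha.le_mul_dist (WithLp.toLp 2 c) 0
  rw [dist_zero_right, map_zero, dist_zero_right] at h1
  have h2 : ‖(WithLp.toLp 2 c : EuclideanSpace ℂ (Fin b))‖ ^ 2 = ∑ k, ‖c k‖ ^ 2 := by
    rw [EuclideanSpace.norm_sq_eq]
  have h3 : f (WithLp.toLp 2 c) = ∑ k, c k • Ψ k := rfl
  rw [h3] at h1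
  rw [← h2, one_div, inv_mul_le_iff₀ (by positivity)]
  calc ‖(WithLp.toLp 2 c : EuclideanSpace ℂ (Fin b))‖ ^ 2 ≤ (C * ‖∑ k, c k • Ψ k‖) ^ 2 := by gcongr
    _ = _ := by ring

end abs

variable {d : ℕ} {F : Type*} [NormedAddCommGroup F] [InnerProductSpace ℂ F]
variable {S : Setup d F}

lemma Inv_InvP {u : Cfg d → F} (hu : S.Inv u) : S.InvP plT u := by
  refine ⟨hu.1, hu.2.1, fun k l h => hu.2.2 k l ?_⟩
  obtain ⟨h1, rfl⟩ := h
  revert h1
  fin_cases k <;> simp [Same, U.pt]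

lemma InvP_add {P : Fin 9 → Fin 9 → Prop} {u v : Cfg d → F} (hu : S.InvP P u) (hv : S.InvP P v) :
    S.InvP P (fun y => u y + v y) := by
  refine ⟨hu.1.add hv.1, fun C x => ?_, fun k l h x => ?_⟩
  · rw [U.HB.G_add S C hu.1.1 hv.1.1, hu.2.1, hv.2.1, add_zero]
  · rw [U.HB.J_add S k l hu.1.1 hv.1.1, hu.2.2 k l h, hv.2.2 k l h, add_zero]

lemma InvP_csmul {P : Fin 9 → Fin 9 → Prop} (c : ℂ) {u : Cfg d → F} (hu : S.InvP P u) :
    S.InvP P (fun y => c • u y) := by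
  refine ⟨U.HB.Tst_csmul c hu.1, fun C x => ?_, fun k l h x => ?_⟩
  · rw [U.HB.G_csmul S C c hu.1.1, hu.2.1, smul_zero]
  · rw [U.HB.J_csmul S k l c hu.1.1, hu.2.2 k l h, smul_zero]

lemma nsq_comb_le {K : Type*} [Fintype K] (c : K → ℂ) {u : K → Cfg d → F} (hu : ∀ k, Setup.Tst (u k)) :
    nsq (fun x => ∑ k, c k • u k x) ≤ Fintype.card K * ∑ k, ‖c k‖ ^ 2 * nsq (u k) := by
  have h1 : ∀ x, ‖∑ k, c k • u k x‖ ^ 2 ≤ Fintype.card K * ∑ k, ‖c k‖ ^ 2 * ‖u k x‖ ^ 2 := by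
    intro x
    have h2 : ‖∑ k, c k • u k x‖ ≤ ∑ k, ‖c k‖ * ‖u k x‖ := by
      refine (norm_sum_le _ _).trans (Finset.sum_le_sum fun k _ => ?_)
      rw [norm_smul]
    have h3 := sq_sum_le_card_mul_sum_sq (s := (Finset.univ : Finset K)) (f := fun k => ‖c k‖ * ‖u k x‖)
    calc ‖∑ k, c k • u k x‖ ^ 2 ≤ (∑ k, ‖c k‖ * ‖u k x‖) ^ 2 := by gcongr
      _ ≤ Fintype.card K * ∑ k, (‖c k‖ * ‖u k x‖) ^ 2 := by simpa using h3
      _ = _ := by simp only [mul_pow]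
  have hi : ∀ k, Integrable (fun x => ‖c k‖ ^ 2 * ‖u k x‖ ^ 2) := fun k =>
    (hu k).norm_sq_int.const_mul _
  have h4 : ∫ x, (Fintype.card K * ∑ k, ‖c k‖ ^ 2 * ‖u k x‖ ^ 2 : ℝ) =
      Fintype.card K * ∑ k, ‖c k‖ ^ 2 * nsq (u k) := by
    rw [integral_const_mul, integral_finsetSum _ fun k _ => hi k]
    simp only [integral_const_mul, nsq]
  rw [← h4]
  have hT : Setup.Tst (fun x => ∑ k, c k • u k x) :=
    U.HB.Tst_sum _ fun k _ => U.HB.Tst_csmul _ (hu k)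
  exact integral_mono hT.norm_sq_int ((integrable_finsetSum _ fun k _ => hi k).const_mul _) h1

lemma en_comb_le {K : Type*} [Fintype K] (m : ℝ) (c : K → ℂ) {u : K → Cfg d → F}
    (hu : ∀ k, Setup.Tst (u k)) {e : ℝ} (he : ∀ k, S.en m (u k) ≤ e) :
    S.en m (fun x => ∑ k, c k • u k x) ≤ Fintype.card K * (∑ k, ‖c k‖ ^ 2) * e := by
  have h1 : ∀ β, nsq (S.Qm m β (fun x => ∑ k, c k • u k x)) ≤
      Fintype.card K * ∑ k, ‖c k‖ ^ 2 * nsq (S.Qm m β (u k)) := by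
    intro β
    have e1 : S.Qm m β (fun x => ∑ k, c k • u k x) = fun x => ∑ k, c k • S.Qm m β (u k) x :=
      funext fun x => U.HB.Qm_sum S m β _ _ (fun k => (hu k).1) x
    rw [e1]
    exact nsq_comb_le c fun k => U.HB.Tst_Qm S m β (hu k)
  calc S.en m (fun x => ∑ k, c k • u k x)
      ≤ ∑ β, Fintype.card K * ∑ k, ‖c k‖ ^ 2 * nsq (S.Qm m β (u k)) := Finset.sum_le_sum fun β _ => h1 β
    _ = Fintype.card K * ∑ k, ‖c k‖ ^ 2 * S.en m (u k) := by
        rw [← Finset.mul_sum, Finset.sum_comm]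
        simp only [Setup.en, Finset.mul_sum]
    _ ≤ Fintype.card K * ∑ k, ‖c k‖ ^ 2 * e := by
        gcongr with k _
        exact he k
    _ = _ := by rw [← Finset.sum_mul, mul_assoc]

lemma toL_comb {K : Type*} [Fintype K] (c : K → ℂ) {u : K → Cfg d → F} (hu : ∀ k, Setup.Tst (u k)) :
    ‖∑ k, c k • U.HB.toL (hu k)‖ ^ 2 = nsq (fun x => ∑ k, c k • u k x) := by
  refine U.HB.norm_Lp ?_
  have h1 : ∀ s : Finset K, (∑ k ∈ s, c k • U.HB.toL (hu k) : Lp F 2 (volume : Measure (Cfg d))) =ᵐ[volume]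
      fun x => ∑ k ∈ s, c k • u k x := by
    intro s
    classical
    induction s using Finset.induction_on with
    | empty =>
      simp only [Finset.sum_empty]
      exact Lp.coeFn_zero F 2 (volume : Measure (Cfg d))
    | insert b s hb ih =>
      rw [Finset.sum_insert hb]
      filter_upwards [ih, Lp.coeFn_add (c b • U.HB.toL (hu b)) (∑ k ∈ s, c k • U.HB.toL (hu k)),
        Lp.coeFn_smul (c b) (U.HB.toL (hu b)), U.HB.coe_toL (hu b)] with x h1 h2 h3 h4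
      rw [h2, Pi.add_apply, h1, h3, Pi.smul_apply, h4, Finset.sum_insert hb]
  exact h1 Finset.univ

/-- `LowP` for a general finite index type -/
lemma lowP_of {K : Type*} [Fintype K] {P : Fin 9 → Fin 9 → Prop} {m c : ℝ} {u : K → Cfg d → F}
    (hu : ∀ k, S.InvP P (u k)) (h : ∀ a : K → ℂ, a ≠ 0 →
      S.en m (fun x => ∑ j, a j • u j x) < c * nsq (fun x => ∑ j, a j • u j x)) {n : ℕ}
    (hn : Fintype.card K = n) : S.LowP P n m c := by
  let e : Fin n ≃ K := (Fintype.equivFinOfCardEq hn).symm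
  refine ⟨fun j => u (e j), fun j => hu _, fun a ha => ?_⟩
  have h1 := h (fun k => a (e.symm k)) (by
    intro h0
    apply ha
    funext j
    have := congrFun h0 (e j)
    simpa using this)
  have h2 : (fun x => ∑ j : K, a (e.symm j) • u j x) = fun x => ∑ j, a j • u (e j) x := by
    funext x
    rw [← e.sum_comp]
    simp
  rw [h2] at h1
  exact h1

end Vale.Agent.P353.Z.AH
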