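import Vale.Agent.P353.AN.H.CirE
import Vale.Agent.P353.AN.H.QQ
import Vale.Agent.P353.AN.H.S7c

/-! # P353, all `N`, block H: `CircStmt` (helper973) -/

open MeasureTheory Filter Topology
open scoped ContDiff ComplexConjugate

namespace Vale.Agent.P353.Z.AH

namespace Cir

universe w

variable {d : ℕ} {F : Type w} [NormedAddCommGroup F] [InnerProductSpace ℂ F]

lemma int_unit {G : Type*} [NormedAddCommGroup G] [NormedSpace ℝ G] (g : ℝ → G) :
    ∫ s : unitInterval, g s = ∫ s in (0 : ℝ)..1, g s := by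
  rw [unitInterval.volume_def, integral_subtype_comap measurableSet_Icc, integral_Icc_eq_integral_Ioc,
    intervalIntegral.integral_of_le zero_le_one]

lemma RR_period (k l : Fin 9) (x : Cfg d) : RR k l (-(4 * Real.pi)) x = x := by
  ext ⟨i, A⟩
  rw [RR_apply, Real.cos_neg, Real.sin_neg]
  have h1 : Real.cos (4 * Real.pi) = 1 := by
    have := Real.cos_nat_mul_two_pi 2
    rw [← this]
    congr 1
    push_cast
    ring
  have h2 : Real.sin (4 * Real.pi) = 0 := by
    have := Real.sin_nat_mul_pi 4
    rw [← this]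
    congr 1
  rw [h1, h2]
  ring

variable (S : Setup d F) [CompleteSpace F]

lemma Ut_period {k l : Fin 9} {c : ℂ} (hc : ∀ v, S.st k l (4 * Real.pi) v = c • v) (u : Cfg d → F) (x : Cfg d) :
    S.Ut k l (4 * Real.pi) u x = c • u x := by
  unfold Setup.Ut
  rw [hc, RR_period]

lemma J_cav_zero [FiniteDimensional ℂ F] {k l : Fin 9} (h : k ≠ l)
    (hc : ∀ v, S.st k l (4 * Real.pi) v = v) {u : Cfg d → F} (hu : ContDiff ℝ ∞ u) (x : Cfg d) :
    S.J k l (cav S k l (4 * Real.pi) u) x = 0 := by
  have hdiff : Differentiable ℝ u := hu.differentiable (by simp)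
  set T : ℝ := 4 * Real.pi with hT
  have hT0 : T ≠ 0 := by positivity
  rw [J_cav S k l T k l hu]
  have e : ∀ s : ℝ, S.J k l (S.Ut k l (T * s) u) x = S.Ut k l (T * s) (S.J k l u) x := by
    intro s
    rw [S.J_Ut h _ hdiff]
    rfl
  have hcont : Continuous fun s : ℝ => S.J k l (S.Ut k l (T * s) u) x := by
    simp only [e]
    exact (cont_Ut S k l (S.contDiff_J k l hu).continuous).comp
      ((continuous_const.mul continuous_id).prodMk continuous_const)
  rw [int_unit (fun s : ℝ => S.J k l (S.Ut k l (T * s) u) x)]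
  have hder : ∀ s : ℝ, HasDerivAt (fun s => S.Ut k l (T * s) u x)
      (T • (Complex.I • S.J k l (S.Ut k l (T * s) u) x)) s := by
    intro s
    have h1 := S.hasDerivAt_Ut h (T * s) hdiff x
    have h2 : HasDerivAt (fun s : ℝ => T * s) T s := by
      simpa using (hasDerivAt_id s).const_mul T
    exact h1.scomp s h2
  have hint := intervalIntegral.integral_eq_sub_of_hasDerivAt (a := 0) (b := 1) (fun s _ => hder s)
    ((hcont.const_smul Complex.I).const_smul T |>.intervalIntegrable _ _)
  rw [intervalIntegral.integral_smul] at hint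
  have h3 : ∫ s in (0 : ℝ)..1, Complex.I • S.J k l (S.Ut k l (T * s) u) x =
      Complex.I • ∫ s in (0 : ℝ)..1, S.J k l (S.Ut k l (T * s) u) x := intervalIntegral.integral_smul _ _
  rw [h3, mul_one, mul_zero] at hint
  have h4 : S.Ut k l T u x = u x := by
    have := Ut_period S (c := 1) (fun v => by rw [hc, one_smul]) u x
    rwa [one_smul] at this
  have h5 : S.Ut k l 0 u x = u x := by
    simp only [Setup.Ut, S.st_zero, neg_zero, RR_zero]
    rfl
  rw [h4, h5, sub_self, smul_eq_zero, smul_eq_zero] at hint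
  rcases hint with h6 | h6 | h6
  · exact absurd h6 hT0
  · exact absurd h6 Complex.I_ne_zero
  · exact h6

lemma cav_near [FiniteDimensional ℂ F] {k l : Fin 9} (h : k ≠ l) {T : ℝ} (hT : 0 ≤ T) {u : Cfg d → F}
    (hu : Setup.Tst u) :
    nsq (fun x => u x - cav S k l T u x) ≤ T ^ 2 * nsq (S.J k l u) := by
  obtain ⟨r, hr⟩ := exists_r hu
  have h1 := jensen (volume : Measure unitInterval) (κ := Unit)
    (f := fun _ s x => u x - S.Ut k l (T * s) u x) (r := r)
    (fun _ => (hu.1.continuous.comp continuous_snd).sub (cont_fam S k l T hu.1.continuous))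
    (fun _ s x hx => by rw [hr x hx, supp_Ut S h hr _ x hx, sub_zero])
    (fun _ s => hu.sub (hu.Ut S h _))
    (g := fun _ x => u x - cav S k l T u x)
    (fun _ x => by
      rw [integral_sub (integrable_const _) (int_fam _ (fam_cont (cont_fam S k l T hu.1.continuous) x))]
      simp only [integral_const, probReal_univ, one_smul]
      rfl)
    (fun _ => hu.sub (cav_Tst S h T hu)) (B := T ^ 2 * nsq (S.J k l u))
    (fun s => by
      rw [Finset.univ_unique, Finset.sum_singleton]
      have hs0 : 0 ≤ T * (s : ℝ) := mul_nonneg hT s.2.1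
      refine (diff_bound S h hu hs0).trans ?_
      have hs1 : T * (s : ℝ) ≤ T := mul_le_of_le_one_right hT s.2.2
      have := nsq_nonneg (S.J k l u)
      gcongr)
  rwa [Finset.univ_unique, Finset.sum_singleton] at h1

lemma cav_J [FiniteDimensional ℂ F] {k l : Fin 9} (h : k ≠ l) {a b : Fin 9} (hab : a ≠ b) (hak : a ≠ k)
    (hal : a ≠ l) (hbk : b ≠ k) (hbl : b ≠ l) (T : ℝ) {u : Cfg d → F} (hu : Setup.Tst u) :
    nsq (S.J a b (cav S k l T u)) ≤ nsq (S.J a b u) := by
  have hdiff : Differentiable ℝ u := hu.1.differentiable (by simp)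
  have hJ : Setup.Tst (S.J a b u) := hu.J S a b
  have e : ∀ (s : ℝ) x, S.J a b (S.Ut k l s u) x = S.Ut k l s (S.J a b u) x := fun s x =>
    J_Ut' S h hab hak hal hbk hbl s hdiff x
  obtain ⟨r, hr⟩ := exists_r hJ
  have h1 := jensen (volume : Measure unitInterval) (κ := Unit)
    (f := fun _ s x => S.Ut k l (T * s) (S.J a b u) x) (r := r)
    (fun _ => cont_fam S k l T hJ.1.continuous)
    (fun _ s x hx => supp_Ut S h hr _ x hx)
    (fun _ s => hJ.Ut S h _)
    (g := fun _ => S.J a b (cav S k l T u))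
    (fun _ x => by
      rw [J_cav S k l T a b hu.1]
      simp only [e])
    (fun _ => (cav_Tst S h T hu).J S a b) (B := nsq (S.J a b u))
    (fun s => by
      rw [Finset.univ_unique, Finset.sum_singleton]
      exact (nsq_Ut S h (T * s) (S.J a b u)).le)
  rwa [Finset.univ_unique, Finset.sum_singleton] at h1

lemma cav_en [FiniteDimensional ℂ F] {k l : Fin 9} (h : Same k l) (T m : ℝ) {u : Cfg d → F}
    (hu : Setup.Tst u) : S.en m (cav S k l T u) ≤ S.en m u := by
  have hdiff : Differentiable ℝ u := hu.1.differentiable (by simp)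
  have hQ : ∀ c, Setup.Tst (S.Qm m c u) := fun c => U.HB.Tst_Qm S m c hu
  have e : ∀ (b : Fin 16) (s : ℝ) x, S.Qm m b (S.Ut k l s u) x =
      ∑ c, S.gt k l s b c • S.Ut k l s (S.Qm m c u) x := by
    intro b s x
    rw [Qm_Ut S h s m b hdiff x, map_sum]
    refine Finset.sum_congr rfl fun c _ => ?_
    rw [map_smul]
    rfl
  choose r hr using fun c => exists_r (hQ c)
  have hgt : ∀ b c, Continuous fun s : ℝ => S.gt k l s b c := by
    intro b c
    simp only [Setup.gt, Matrix.add_apply, Matrix.smul_apply, smul_eq_mul]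
    fun_prop
  have h1 := jensen (volume : Measure unitInterval) (κ := Fin 16)
    (f := fun b s => S.Qm m b (S.Ut k l (T * s) u)) (r := ∑ c, |r c|)
    (fun b => by
      simp only [e]
      refine continuous_finsetSum _ fun c _ => ?_
      exact ((hgt b c).comp (continuous_const.mul (continuous_subtype_val.comp continuous_fst))).smul
        (cont_fam S k l T (hQ c).1.continuous))
    (fun b s x hx => by
      rw [e]
      refine Finset.sum_eq_zero fun c _ => ?_
      have h2 : r c < ‖x‖ := by
        refine lt_of_le_of_lt ?_ hx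
        exact (le_abs_self _).trans
          (Finset.single_le_sum (f := fun c => |r c|) (fun c _ => abs_nonneg _) (Finset.mem_univ c))
      rw [supp_Ut S h.1 (hr c) _ x h2, smul_zero])
    (fun b s => U.HB.Tst_Qm S m b (hu.Ut S h.1 _))
    (g := fun b => S.Qm m b (cav S k l T u))
    (fun b x => Qm_cav S k l T m b hu.1 x)
    (fun b => U.HB.Tst_Qm S m b (cav_Tst S h.1 T hu)) (B := S.en m u)
    (fun s => (en_Ut S h (T * s) m hu).le)
  exact h1

end Cir

open Cir in
/-- **H3** -/
theorem circ {d : ℕ} {F : Type*} [NormedAddCommGroup F] [InnerProductSpace ℂ F] [FiniteDimensional ℂ F]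
    (S : Setup d F) : CircStmt S := by
  have hFc : CompleteSpace F := FiniteDimensional.complete ℂ F
  intro hI hne k l hkl
  obtain ⟨c, hc⟩ := st_scalar S hI hne hkl.1
  set T : ℝ := 4 * Real.pi with hT
  have hT0 : 0 < T := by positivity
  refine ⟨T ^ 2 + T ^ 2 / ‖1 - c‖ ^ 2, by positivity, fun P hP u hu => ?_⟩
  have hJn := nsq_nonneg (S.J k l u)
  by_cases h1 : c = 1
  · have hc' : ∀ v, S.st k l (4 * Real.pi) v = v := fun v => by rw [hc, h1, one_smul]
    have hdiff : Differentiable ℝ u := hu.1.1.differentiable (by simp)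
    have hJ0 : ∀ x, S.J k l (cav S k l T u) x = 0 := J_cav_zero S hkl.1 hc' hu.1.1
    refine ⟨cav S k l T u, ⟨cav_Tst S hkl.1 T hu.1, fun C x => ?_, fun a b hab x => ?_⟩, ?_, ?_, ?_⟩
    · rw [G_cav S k l T C hu.1.1]
      have h2 : ∀ s : ℝ, S.G C (S.Ut k l s u) x = 0 := by
        intro s
        rw [G_Ut S hkl.1 s C hdiff, hu.2.1, map_zero]
      simp only [h2, integral_zero]
    · have hlk : ∀ x, S.J l k (cav S k l T u) x = 0 := by
        intro x
        rw [J_swap', hJ0, neg_zero]
      rcases hab with hab | ⟨rfl, rfl⟩ | ⟨rfl, rfl⟩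
      · rcases (hP a b hab).2 with ⟨rfl, rfl⟩ | ⟨rfl, rfl⟩ | ⟨h2, h3, h4, h5⟩
        · exact hJ0 x
        · exact hlk x
        · rw [J_cav S k l T a b hu.1.1]
          have h6 : ∀ s : ℝ, S.J a b (S.Ut k l s u) x = 0 := by
            intro s
            rw [J_Ut' S hkl.1 (hP a b hab).1.1 h2 h3 h4 h5 s hdiff, hu.2.2 a b hab, map_zero]
          simp only [h6, integral_zero]
      · exact hJ0 x
      · exact hlk x
    · refine (cav_near S hkl.1 hT0.le hu.1).trans ?_
      have : 0 ≤ T ^ 2 / ‖1 - c‖ ^ 2 := by positivity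
      nlinarith
    · exact fun m => cav_en S hkl T m hu.1
    · exact fun a b hab h2 h3 h4 h5 => cav_J S hkl.1 hab.1 h2 h3 h4 h5 T hu.1
  · have hc1 : 0 < ‖1 - c‖ := norm_pos_iff.mpr (sub_ne_zero.mpr (Ne.symm h1))
    have hz : (fun _ : Cfg d => (0 : F)) = fun x => (0 : ℂ) • u x := by
      funext x
      rw [zero_smul]
    have hInv : S.InvP P (fun _ : Cfg d => (0 : F)) := by
      rw [hz]
      exact InvP_csmul 0 hu
    have hJz : ∀ a b x, S.J a b (fun _ : Cfg d => (0 : F)) x = 0 := by
      intro a b x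
      rw [hz, U.HB.J_csmul S a b 0 hu.1.1, zero_smul]
    refine ⟨fun _ => 0, ⟨hInv.1, hInv.2.1, fun a b _ x => hJz a b x⟩, ?_, ?_, ?_⟩
    · have h2 := diff_bound S hkl.1 hu.1 hT0.le
      have h3 : (fun x => u x - S.Ut k l T u x) = fun x => (1 - c) • u x := by
        funext x
        rw [Ut_period S hc, sub_smul, one_smul]
      rw [h3, nsq_csmul] at h2
      simp only [sub_zero]
      have h4 : nsq u ≤ T ^ 2 / ‖1 - c‖ ^ 2 * nsq (S.J k l u) := by
        rw [div_mul_eq_mul_div, le_div_iff₀ (by positivity)]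
        linarith
      refine h4.trans ?_
      have : 0 ≤ T ^ 2 := by positivity
      nlinarith
    · intro m
      have h2 : S.en m (fun _ : Cfg d => (0 : F)) = 0 := by
        rw [hz, en_csmul m 0 hu.1]
        simp
      rw [h2]
      exact en_nonneg m u
    · intro a b _ _ _ _ _
      have h2 : nsq (S.J a b (fun _ : Cfg d => (0 : F))) = 0 := by
        unfold nsq
        simp only [hJz, norm_zero]
        simp
      rw [h2]
      exact nsq_nonneg _

end Vale.Agent.P353.Z.AH
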