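import Vale.Agent.P353.AN.H.Stmt
import Vale.Agent.P353.Z.U.ThmB2
import Vale.Agent.P353.Z.U.A2

/-! # P353, all `N`, block H (counting): H7, density of the range of `HH + lam` -/

open MeasureTheory Filter Topology
open scoped ContDiff

namespace Vale.Agent.P353.Z.AH

variable {d : ℕ} {F : Type*} [NormedAddCommGroup F] [InnerProductSpace ℂ F]

namespace Dn

open U U.HB

variable (S : Setup d F)

lemma GInv_add {u v : Cfg d → F} (hu : S.GInv u) (hv : S.GInv v) :
    S.GInv (fun y => u y + v y) := by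
  refine ⟨hu.1.add hv.1, fun C x => ?_⟩
  rw [G_add S C hu.1.1 hv.1.1, hu.2, hv.2, add_zero]

lemma GInv_csmul (c : ℂ) {u : Cfg d → F} (hu : S.GInv u) : S.GInv (fun y => c • u y) := by
  refine ⟨Tst_csmul c hu.1, fun C x => ?_⟩
  rw [G_csmul S C c hu.1.1, hu.2, smul_zero]

lemma GInv_zero : S.GInv (fun _ : Cfg d => (0 : F)) := by
  refine ⟨Tst_zero, fun C x => ?_⟩
  have h := G_csmul S C 0 (u := fun _ => (0 : F)) contDiff_const x
  simpa using h

lemma GInv_HH (m : ℝ) {u : Cfg d → F} (hu : S.GInv u) : S.GInv (HH S m u) := by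
  have hA3 : A3Stmt S := a3 S
  refine ⟨Tst_HH S m hu.1, fun C x => ?_⟩
  have h0 : S.G C u = fun _ => 0 := funext fun y => hu.2 C y
  have h1 : ∀ β, S.G C (S.Qm m β u) = fun _ => 0 := by
    intro β
    funext y
    rw [hA3 m C β u hu.1.1 y, h0, Qm_zero]
  have h2 : ∀ β, S.G C (S.Qm m β (S.Qm m β u)) x = 0 := by
    intro β
    rw [hA3 m C β _ (contDiff_Qm S m β hu.1.1) x, h1, Qm_zero]
  have h3 : ∀ s : Finset (Fin 16), S.G C (fun y => ∑ β ∈ s, S.Qm m β (S.Qm m β u) y) x = 0 := by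
    intro s
    classical
    induction s using Finset.induction_on with
    | empty =>
      have := (GInv_zero S).2 C x
      simpa using this
    | insert b s hb ih =>
      simp only [Finset.sum_insert hb]
      rw [G_add S C (contDiff_Qm S m b (contDiff_Qm S m b hu.1.1))
        (ContDiff.sum fun β _ => contDiff_Qm S m β (contDiff_Qm S m β hu.1.1)), h2, ih, add_zero]
  exact h3 Finset.univ

/-- the operator `HH + lam` -/
noncomputable def HL (m lam : ℝ) (u : Cfg d → F) (x : Cfg d) : F := HH S m u x + (lam : ℂ) • u x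

lemma GInv_HL (m lam : ℝ) {u : Cfg d → F} (hu : S.GInv u) : S.GInv (HL S m lam u) :=
  GInv_add S (GInv_HH S m hu) (GInv_csmul S _ hu)

/-- gauge invariant test functions in `L²` -/
def GSub : Submodule ℂ (Lp F 2 (volume : Measure (Cfg d))) where
  carrier := {f | ∃ φ, S.GInv φ ∧ f =ᵐ[volume] φ}
  zero_mem' := ⟨fun _ => 0, GInv_zero S, Lp.coeFn_zero _ _ _⟩
  add_mem' := by
    rintro f g ⟨φ, hφ, hf⟩ ⟨ψ, hψ, hg⟩
    exact ⟨fun y => φ y + ψ y, GInv_add S hφ hψ, (Lp.coeFn_add f g).trans (hf.add hg)⟩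
  smul_mem' := by
    rintro c f ⟨φ, hφ, hf⟩
    exact ⟨fun y => c • φ y, GInv_csmul S c hφ, (Lp.coeFn_smul c f).trans (hf.const_smul c)⟩

/-- range of `HH + lam` on gauge invariant test functions -/
def RSub (m lam : ℝ) : Submodule ℂ (Lp F 2 (volume : Measure (Cfg d))) where
  carrier := {f | ∃ φ, S.GInv φ ∧ f =ᵐ[volume] HL S m lam φ}
  zero_mem' := by
    refine ⟨fun _ => 0, GInv_zero S, ?_⟩
    have h : HL S m lam (fun _ : Cfg d => (0 : F)) = fun _ => 0 := by
      funext x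
      have h1 := HH_csmul S m 0 (u := fun _ => (0 : F)) contDiff_const x
      simp only [smul_zero, zero_smul] at h1
      simp only [HL, h1, smul_zero, add_zero]
    rw [h]
    exact Lp.coeFn_zero _ _ _
  add_mem' := by
    rintro f g ⟨φ, hφ, hf⟩ ⟨ψ, hψ, hg⟩
    refine ⟨fun y => φ y + ψ y, GInv_add S hφ hψ, (Lp.coeFn_add f g).trans ?_⟩
    filter_upwards [hf, hg] with x hx hy
    rw [Pi.add_apply, hx, hy]
    simp only [HL, HH_add S m hφ.1.1 hψ.1.1, smul_add]
    abel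
  smul_mem' := by
    rintro c f ⟨φ, hφ, hf⟩
    refine ⟨fun y => c • φ y, GInv_csmul S c hφ, (Lp.coeFn_smul c f).trans ?_⟩
    filter_upwards [hf] with x hx
    rw [Pi.smul_apply, hx]
    simp only [HL, HH_csmul S m c hφ.1.1, smul_add]
    rw [smul_comm]

lemma R_le_G (m lam : ℝ) : RSub S m lam ≤ GSub S := by
  rintro f ⟨φ, hφ, hf⟩
  exact ⟨HL S m lam φ, GInv_HL S m lam hφ, hf⟩

lemma clG_of_mem {f : Lp F 2 (volume : Measure (Cfg d))} (hf : f ∈ closure (GSub S : Set _)) :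
    ∃ w : ℕ → Cfg d → F, (∀ n, S.GInv (w n)) ∧ L2t w f := by
  obtain ⟨g, hg, hl⟩ := mem_closure_iff_seq_limit.mp hf
  choose w hw hw2 using hg
  refine ⟨w, hw, fun n => (hw n).1.memLp, Lp.memLp f, ?_⟩
  have h1 : ∀ n, nsq (fun x => w n x - f x) = ‖g n - f‖ ^ 2 := by
    intro n
    rw [norm_Lp (u := fun x => w n x - f x)]
    refine (Lp.coeFn_sub (g n) f).trans ?_
    filter_upwards [hw2 n] with x hx
    rw [Pi.sub_apply, hx]
  simp only [h1]
  have h2 := (tendsto_iff_norm_sub_tendsto_zero.mp hl).pow 2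
  simpa using h2

end Dn

open U U.HB Dn in
/-- **H7** -/
theorem dens [CompleteSpace F] (S : Setup d F) (h : WSPStmt S) : DenseStmt S := by
  intro m lam hlam f hf δ hδ
  set R := (RSub S m lam).topologicalClosure with hR
  have hRG : R ≤ (GSub S).topologicalClosure :=
    Submodule.topologicalClosure_mono (R_le_G S m lam)
  have : CompleteSpace R := (Submodule.isClosed_topologicalClosure _).completeSpace_coe
  obtain ⟨w, hw, Ψ, hΨ, hsum⟩ := Submodule.exists_add_mem_mem_orthogonal (K := R) (toL hf.1)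
  have hΨe : Ψ = toL hf.1 - w := by rw [hsum]; abel
  have hcl : Ψ ∈ closure (GSub S : Set (Lp F 2 (volume : Measure (Cfg d)))) := by
    have h1 : toL hf.1 ∈ (GSub S).topologicalClosure :=
      Submodule.le_topologicalClosure _ ⟨f, hf, coe_toL hf.1⟩
    have h2 : Ψ ∈ (GSub S).topologicalClosure := by
      rw [hΨe]
      exact Submodule.sub_mem _ h1 (hRG hw)
    exact h2
  obtain ⟨v, hv, hvl⟩ := clG_of_mem S hcl
  have hP : ∀ φ : Cfg d → F, S.InvP (fun _ _ => False) φ ↔ S.GInv φ := fun φ =>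
    ⟨fun h => ⟨h.1, h.2.1⟩, fun h => ⟨h.1, h.2, fun _ _ h' => h'.elim⟩⟩
  obtain ⟨u, hu, hul, hue⟩ := h (fun _ _ => False) (fun _ _ h' => h'.elim) m lam hlam.le Ψ
    ⟨v, fun n => (hP _).2 (hv n), hvl⟩ (by
      intro φ hφ
      have hφ' := (hP φ).1 hφ
      have h1 : toL (GInv_HL S m lam hφ').1 ∈ R :=
        Submodule.le_topologicalClosure _ ⟨φ, hφ', coe_toL _⟩
      have h2 := (Submodule.mem_orthogonal R Ψ).mp hΨ _ h1
      rw [inner_Lp (coe_toL _) (EventuallyEq.rfl (f := (Ψ : Cfg d → F)))] at h2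
      exact h2)
  have hz : nsq (Ψ : Cfg d → F) = 0 := by
    have h1 : Tendsto (fun n => lam * nsq (u n)) atTop (𝓝 0) := by
      refine squeeze_zero (fun n => mul_nonneg hlam.le (nsq_nonneg _)) (fun n => ?_) hue
      have : 0 ≤ S.en m (u n) := Finset.sum_nonneg fun β _ => nsq_nonneg _
      linarith
    have h2 : Tendsto (fun n => lam * nsq (u n)) atTop (𝓝 (lam * nsq (Ψ : Cfg d → F))) :=
      hul.lim_nsq.const_mul lam
    have h3 := tendsto_nhds_unique h1 h2
    rcases mul_eq_zero.1 h3.symm with h4 | h4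
    · exact absurd h4 hlam.ne'
    · exact h4
  have hΨ0 : Ψ = 0 := by
    have h1 := norm_Lp (EventuallyEq.rfl (f := (Ψ : Cfg d → F)) (l := ae volume))
    rw [hz] at h1
    exact norm_eq_zero.mp (by nlinarith [norm_nonneg Ψ])
  have hmem : toL hf.1 ∈ closure (RSub S m lam : Set (Lp F 2 (volume : Measure (Cfg d)))) := by
    have h1 : toL hf.1 ∈ R := by
      rw [hsum, hΨ0, add_zero]
      exact hw
    exact h1
  obtain ⟨g, ⟨φ, hφ, hg⟩, hd⟩ := Metric.mem_closure_iff.1 hmem (Real.sqrt δ) (Real.sqrt_pos.2 hδ)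
  refine ⟨φ, hφ, ?_⟩
  have h1 : nsq (fun x => HL S m lam φ x - f x) = ‖g - toL hf.1‖ ^ 2 := by
    rw [norm_Lp (u := fun x => HL S m lam φ x - f x)]
    refine (Lp.coeFn_sub g (toL hf.1)).trans ?_
    filter_upwards [hg, coe_toL hf.1] with x hx hy
    rw [Pi.sub_apply, hx, hy]
  have h2 : ‖g - toL hf.1‖ < Real.sqrt δ := by
    rwa [dist_comm, dist_eq_norm] at hd
  change nsq (fun x => HL S m lam φ x - f x) ≤ δ
  rw [h1]
  calc ‖g - toL hf.1‖ ^ 2 ≤ Real.sqrt δ ^ 2 := by gcongr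
    _ = δ := Real.sq_sqrt hδ.le

end Vale.Agent.P353.Z.AH
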