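import Vale.Agent.P353.AN.H.Stmt
import Vale.Agent.P353.Z.U.App
import Vale.Agent.P353.Z.U.Small
import Vale.Agent.P353.Z.U.ZJ

/-! # P353, all `N`, block H: cut off kernel vectors (H9) and local limits (H10) (helper551) -/

open MeasureTheory Filter Topology
open scoped ContDiff

namespace Vale.Agent.P353.Z.AH

variable {d : ℕ} {F : Type*} [NormedAddCommGroup F] [InnerProductSpace ℂ F]

/-- the energy at scale `R` of a function supported in the ball of radius `R` -/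
lemma kc_en (S : Setup d F) {K : ℝ} (hMM : ∀ β x, ‖S.MM β x‖ ≤ K * ‖x‖)
    {Ψ : Cfg d → F} (hΨ : MemLp Ψ 2 (volume : Measure (Cfg d))) {u : Cfg d → F}
    (hu : Setup.Tst u) {R : ℝ} (hR : 0 < R) (h0 : ∀ x, R ≤ ‖x‖ → u x = 0) {q e M : ℝ}
    (hq : ∀ β, R ^ 2 * nsq (S.Q β u) ≤ q) (he : nsq (fun x => u x - Ψ x) ≤ e)
    (hM : ∫ x, (if ‖x‖ ≤ R then (‖x‖ / R) ^ 2 * ‖Ψ x‖ ^ 2 else 0) ≤ M) :
    R ^ 2 * S.en (R⁻¹ ^ 2) u ≤ 16 * (2 * q + 2 * K ^ 2 * (2 * e + 2 * M)) := by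
  obtain ⟨m, hm⟩ : ∃ m : ℝ, m = R⁻¹ ^ 2 := ⟨_, rfl⟩
  have hmR : m * R ^ 2 = 1 := by rw [hm]; field_simp
  rw [← hm]
  have h1 : ∀ β ∈ (Finset.univ : Finset (Fin 16)), R ^ 2 * nsq (S.Qm m β u) ≤
      2 * q + 2 * K ^ 2 * (2 * e + 2 * M) := by
    intro β _
    have h2 : nsq (S.Qm m β u) ≤ 2 * nsq (S.Q β u) +
        2 * nsq (fun x => (m : ℂ) • S.MM β x (u x)) :=
      nsq_add_le (hu.Q S β).memLp ((Setup.Tst.MM S hu β).cst _).memLp
    have h3 : nsq (fun x => (m : ℂ) • S.MM β x (u x)) =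
        m ^ 2 * nsq (fun x => S.MM β x (u x)) := by
      unfold nsq
      rw [← integral_const_mul]
      refine integral_congr_ae (Filter.Eventually.of_forall fun x => ?_)
      simp only [norm_smul, Complex.norm_real, Real.norm_eq_abs, mul_pow, sq_abs]
    have h4 := U.small_MM_nsq S hMM hΨ hu hR h0 β
    have h5 : nsq (fun x => S.MM β x (u x)) ≤ K ^ 2 * (2 * R ^ 2 * e + 2 * R ^ 2 * M) := by
      refine h4.trans (mul_le_mul_of_nonneg_left ?_ (sq_nonneg K))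
      have a1 := mul_le_mul_of_nonneg_left he (by positivity : (0 : ℝ) ≤ 2 * R ^ 2)
      have a2 := mul_le_mul_of_nonneg_left hM (by positivity : (0 : ℝ) ≤ 2 * R ^ 2)
      linarith
    have h6 : R ^ 2 * (m ^ 2 * nsq (fun x => S.MM β x (u x))) ≤
        K ^ 2 * (2 * e + 2 * M) := by
      have a1 := mul_le_mul_of_nonneg_left h5 (by positivity : (0 : ℝ) ≤ R ^ 2 * m ^ 2)
      have a2 : R ^ 2 * m ^ 2 * (K ^ 2 * (2 * R ^ 2 * e + 2 * R ^ 2 * M)) =
          (m * R ^ 2) * (m * R ^ 2) * (K ^ 2 * (2 * e + 2 * M)) := by ring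
      rw [a2, hmR] at a1
      linarith
    have h7 := mul_le_mul_of_nonneg_left h2 (by positivity : (0 : ℝ) ≤ R ^ 2)
    rw [h3] at h7
    have h8 := hq β
    linarith
  have h9 := Finset.sum_le_card_nsmul _ _ _ h1
  rw [← Finset.mul_sum] at h9
  refine h9.trans (le_of_eq ?_)
  simp only [Finset.card_univ, Fintype.card_fin, nsmul_eq_mul]
  push_cast
  ring

/-- **H9** -/
theorem kerCut [FiniteDimensional ℂ F] (S : Setup d F) : KerCutStmt S := by
  have : CompleteSpace F := FiniteDimensional.complete ℂ F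
  intro Ψ hZ ε hε
  obtain ⟨K, hK, hMM⟩ := U.small_MM_bound S
  obtain ⟨hG, hJ, hQ⟩ := U.small_weak S (U.zj S) Ψ hZ
  have hmem : MemLp Ψ 2 (volume : Measure (Cfg d)) := Lp.memLp Ψ
  obtain ⟨C, hC, happ⟩ := U.app S Ψ hmem hG hJ hQ
  obtain ⟨T, hT⟩ : ∃ T : ℝ → ℝ, ∀ R, T R = ∫ x, (if R / 4 ≤ ‖x‖ then ‖Ψ x‖ ^ 2 else 0) :=
    ⟨_, fun _ => rfl⟩
  obtain ⟨M, hM⟩ : ∃ M : ℝ → ℝ, ∀ R, M R =
      ∫ x, (if ‖x‖ ≤ R then (‖x‖ / R) ^ 2 * ‖Ψ x‖ ^ 2 else 0) := ⟨_, fun _ => rfl⟩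
  have hT0 : Tendsto T atTop (𝓝 0) := by
    rw [funext hT]
    exact U.small_tail hmem
  have hM0 : Tendsto M atTop (𝓝 0) := by
    rw [funext hM]
    exact U.small_mom hmem
  have hr0 : Tendsto (fun R : ℝ => R⁻¹ ^ 2) atTop (𝓝 0) := by
    have := (tendsto_inv_atTop_zero (𝕜 := ℝ)).pow 2
    rwa [zero_pow (by norm_num)] at this
  have hE0 : Tendsto (fun R : ℝ => (R⁻¹ ^ 2) ^ 2 + C * T R) atTop (𝓝 0) := by
    have h := (hr0.pow 2).add (hT0.const_mul C)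
    rwa [mul_zero, add_zero, zero_pow (by norm_num)] at h
  have hq0 : Tendsto (fun R : ℝ => R⁻¹ ^ 2 + C * T R) atTop (𝓝 0) := by
    have h := hr0.add (hT0.const_mul C)
    rwa [mul_zero, add_zero] at h
  have hH0 : Tendsto (fun R : ℝ => 16 * (2 * (R⁻¹ ^ 2 + C * T R) +
      2 * K ^ 2 * (2 * ((R⁻¹ ^ 2) ^ 2 + C * T R) + 2 * M R))) atTop (𝓝 0) := by
    have := ((hq0.const_mul 2).add
      (((hE0.const_mul 2).add (hM0.const_mul 2)).const_mul (2 * K ^ 2))).const_mul 16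
    simpa only [mul_zero, add_zero] using this
  filter_upwards [eventually_ge_atTop (1 : ℝ), hE0.eventually (ge_mem_nhds hε),
    hH0.eventually (ge_mem_nhds hε)] with R hR1 hRE hRH
  have hR0 : 0 < R := by linarith
  obtain ⟨u, hu, hsupp, hn, hq⟩ := happ R hR1 ((R⁻¹ ^ 2) ^ 2) (by positivity)
  refine ⟨u, hu, ?_, ?_⟩
  · rw [← hT] at hn
    exact hn.trans hRE
  · rw [← hT] at hn
    refine (kc_en S hMM hmem hu.1 hR0 hsupp (q := R⁻¹ ^ 2 + C * T R) (fun β => ?_) hn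
      (hM R).symm.le).trans hRH
    have h1 := mul_le_mul_of_nonneg_left (hq β) (by positivity : (0 : ℝ) ≤ R ^ 2)
    rw [← hT] at h1
    refine h1.trans (le_of_eq ?_)
    field_simp

/-- the equation `Q_βΨ = 0` passes to local limits -/
lemma loc_wQ (S : Setup d F) {l : Filter ℕ} [l.NeBot] {m : ℕ → ℝ} {u : ℕ → Cfg d → F}
    {Ψ : Cfg d → F} (hm : Tendsto m l (𝓝 0)) (hT : ∀ n, Setup.Tst (u n))
    (hen : Tendsto (fun n => S.en (m n) (u n)) l (𝓝 0))
    (hlim : ∀ ζ : Cfg d → F, Setup.Tst ζ →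
      Tendsto (fun n => ipr ζ (u n)) l (𝓝 (∫ x, inner ℂ (ζ x) (Ψ x)))) (β : Fin 16) :
    S.wQ 0 β Ψ (fun _ => 0) := by
  intro ζ hζ
  simp only [inner_zero_right, integral_zero]
  have h1 := hlim _ (hζ.Qm S 0 β)
  have h2 := hlim _ (Setup.Tst.MM S hζ β)
  have h3 : ∀ n, ipr (S.Qm 0 β ζ) (u n) = ipr ζ (S.Qm (m n) β (u n)) -
      (m n : ℂ) * ipr (fun x => S.MM β x (ζ x)) (u n) := by
    intro n
    unfold ipr
    rw [← Qm_symm S (m n) β ζ (u n) hζ (hT n).1, ← integral_const_mul, ← integral_sub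
      ((hζ.Qm S (m n) β).inner_int (hT n).1.continuous)
      (((Setup.Tst.MM S hζ β).inner_int (hT n).1.continuous).const_mul _)]
    refine integral_congr_ae (Filter.Eventually.of_forall fun x => ?_)
    simp only [Setup.Qm, inner_add_left, inner_smul_left, Complex.conj_ofReal,
      Complex.ofReal_zero, map_zero, zero_mul, add_zero, add_sub_cancel_right]
  have h4 : Tendsto (fun n => ipr ζ (S.Qm (m n) β (u n))) l (𝓝 0) := by
    have h5 : Tendsto (fun n => Real.sqrt (nsq ζ) * Real.sqrt (S.en (m n) (u n))) l (𝓝 0) := by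
      have := ((Real.continuous_sqrt.tendsto 0).comp hen).const_mul (Real.sqrt (nsq ζ))
      rwa [Real.sqrt_zero, mul_zero] at this
    refine squeeze_zero_norm (fun n => ?_) h5
    have h6 := cs_inner hζ.memLp ((hT n).Qm S (m n) β).memLp
    refine h6.trans (mul_le_mul_of_nonneg_left (Real.sqrt_le_sqrt ?_) (Real.sqrt_nonneg _))
    exact Finset.single_le_sum (f := fun β => nsq (S.Qm (m n) β (u n)))
      (fun β _ => nsq_nonneg _) (Finset.mem_univ β)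
  have h5 : Tendsto (fun n => (m n : ℂ) * ipr (fun x => S.MM β x (ζ x)) (u n)) l (𝓝 0) := by
    have h6 : Tendsto (fun n => ((m n : ℝ) : ℂ)) l (𝓝 0) := by
      have := (Complex.continuous_ofReal.tendsto 0).comp hm
      rwa [Complex.ofReal_zero] at this
    have := h6.mul h2
    rwa [zero_mul] at this
  have h7 := h4.sub h5
  rw [sub_zero] at h7
  exact tendsto_nhds_unique h1 (h7.congr fun n => (h3 n).symm)

/-- invariant weak zero modes are zero modes -/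
lemma isZM_of_weak [FiniteDimensional ℂ F] (S : Setup d F)
    (Ψ : Lp F 2 (volume : Measure (Cfg d))) (hG : S.wG Ψ) (hJ : S.wJ Ψ)
    (hQ : ∀ β, S.wQ 0 β Ψ (fun _ => 0)) : S.IsZM Ψ := by
  have hmem : MemLp Ψ 2 (volume : Measure (Cfg d)) := Lp.memLp Ψ
  obtain ⟨C, hC, happ⟩ := U.app S Ψ hmem hG hJ hQ
  have hn0 : Tendsto (fun n : ℕ => ((n : ℝ) + 1)) atTop atTop :=
    tendsto_atTop_add_const_right _ _ tendsto_natCast_atTop_atTop
  have hT0 : Tendsto (fun n : ℕ => ∫ x, (if ((n : ℝ) + 1) / 4 ≤ ‖x‖ then ‖Ψ x‖ ^ 2 else 0)) atTop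
      (𝓝 0) := (U.small_tail hmem).comp hn0
  have hd0 : Tendsto (fun n : ℕ => 1 / ((n : ℝ) + 1)) atTop (𝓝 0) :=
    tendsto_one_div_add_atTop_nhds_zero_nat
  have hE0 : Tendsto (fun n : ℕ => 1 / ((n : ℝ) + 1) +
      C * ∫ x, (if ((n : ℝ) + 1) / 4 ≤ ‖x‖ then ‖Ψ x‖ ^ 2 else 0)) atTop (𝓝 0) := by
    have h := hd0.add (hT0.const_mul C)
    rwa [mul_zero, add_zero] at h
  have hR1 : ∀ n : ℕ, (1 : ℝ) ≤ (n : ℝ) + 1 := fun n => by
    have : (0 : ℝ) ≤ (n : ℝ) := Nat.cast_nonneg n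
    linarith
  choose u hu hsupp hn hq using fun n : ℕ => happ ((n : ℝ) + 1) (hR1 n) (1 / ((n : ℝ) + 1))
    (by have := hR1 n; positivity)
  refine ⟨u, fun n => (hu n).1, fun n => (hu n).2.1, ?_, fun β => ?_⟩
  · exact squeeze_zero (fun n => nsq_nonneg _) hn hE0
  · refine squeeze_zero (fun n => nsq_nonneg _) (fun n => (hq n β).trans ?_) hE0
    have h1 : 0 ≤ ∫ x, (if ((n : ℝ) + 1) / 4 ≤ ‖x‖ then ‖Ψ x‖ ^ 2 else 0) :=
      integral_nonneg fun x => by split_ifs <;> positivity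
    have h2 : C / ((n : ℝ) + 1) ^ 2 ≤ C := by
      refine div_le_self hC ?_
      exact one_le_pow₀ (hR1 n)
    have := mul_le_mul_of_nonneg_right h2 h1
    linarith

/-- **H10** -/
theorem loc [FiniteDimensional ℂ F] (S : Setup d F) : LocStmt S := by
  intro l _ m u C Ψ hm hInv _ hen hlim
  refine isZM_of_weak S Ψ ?_ ?_ (loc_wQ S hm (fun n => (hInv n).1) hen hlim)
  · intro A ζ hζ
    refine tendsto_nhds_unique (hlim _ (hζ.G S A)) (tendsto_const_nhds.congr fun n => ?_)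
    unfold ipr
    rw [G_symm S A ζ (u n) hζ (hInv n).1.1]
    simp only [(hInv n).2.1 A, inner_zero_right, integral_zero]
  · intro k k' hk ζ hζ
    refine tendsto_nhds_unique (hlim _ (hζ.J S k k')) (tendsto_const_nhds.congr fun n => ?_)
    unfold ipr
    rw [J_symm S k k' ζ (u n) hζ (hInv n).1.1]
    simp only [(hInv n).2.2 k k' hk, inner_zero_right, integral_zero]

end Vale.Agent.P353.Z.AH
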