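import Vale.Agent.P353.AN.H.Stmt
import Vale.Agent.P353.Z.U.WS
import Vale.Agent.P353.Z.U.A1
import Vale.Agent.P353.Z.U.A1a
import Vale.Agent.P353.Z.U.A1b
import Vale.Agent.P353.Z.U.FBmn

/-! # P353, all `N`, block H (counting), H6: weak = strong, general sector and mass (helper653) -/

open MeasureTheory Filter Topology
open scoped ContDiff

namespace Vale.Agent.P353.Z.AH

variable {d : ℕ} {F : Type*} [NormedAddCommGroup F] [InnerProductSpace ℂ F]

namespace WSP

open Vale.Agent.P353.Z.Moll Vale.Agent.P353.Z.U Vale.Agent.P353.Z.U.HB Vale.Agent.P353.Z.U.WS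

variable (S : Setup d F)

/-- the weak form of `J k l Ψ = 0` -/
def wJ1 (k l : Fin 9) (Ψ : Cfg d → F) : Prop :=
  ∀ ζ : Cfg d → F, Setup.Tst ζ → ∫ x, inner ℂ (S.J k l ζ x) (Ψ x) = 0

lemma J_mo_zero1 [CompleteSpace F] {g : ℝ → ℝ} {Ψ : Cfg d → F}
    (hΨ : MemLp Ψ 2 (volume : Measure (Cfg d))) {k l : Fin 9} (hw : wJ1 S k l Ψ)
    (hg : ContDiff ℝ ∞ g) (hc : HasCompactSupport (rad (dc := d) g)) (x : Cfg d) :
    S.J k l (mo (rad g) Ψ) x = 0 := by
  rw [J_eq_Dop, Dop_mo_eq_zero hg hc (S.Skl_symm k l) (jco_lin k l) (jco_rot k l) (locInt hΨ) ?_ x]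
  intro ζ hζ
  have := hw ζ hζ
  simpa only [J_eq_Dop] using this

variable {P : Fin 9 → Fin 9 → Prop}

lemma wG_of_limP {Ψ : Cfg d → F} {w : ℕ → Cfg d → F} (hw : ∀ n, S.InvP P (w n))
    (hl : L2t w Ψ) : S.wG Ψ := by
  intro C ζ hζ
  have h1 := (L2t_const (hζ.G S C).memLp).lim_inner hl
  refine tendsto_nhds_unique h1 (tendsto_const_nhds.congr fun n => ?_)
  rw [G_symm S C ζ (w n) hζ (hw n).1.1]
  simp [(hw n).2.1]

lemma wJ_of_limP {Ψ : Cfg d → F} {w : ℕ → Cfg d → F} (hw : ∀ n, S.InvP P (w n))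
    (hl : L2t w Ψ) {k l : Fin 9} (hkl : P k l) : wJ1 S k l Ψ := by
  intro ζ hζ
  have h1 := (L2t_const (hζ.J S k l).memLp).lim_inner hl
  refine tendsto_nhds_unique h1 (tendsto_const_nhds.congr fun n => ?_)
  rw [J_symm S k l ζ (w n) hζ (hw n).1.1]
  simp [(hw n).2.2 k l hkl]

lemma InvP_rad {f : ℝ → ℝ} (hf : ContDiff ℝ ∞ f) (hc : HasCompactSupport (rad (dc := d) f))
    {u : Cfg d → F} (hu : ContDiff ℝ ∞ u) (hG : ∀ C x, S.G C u x = 0)
    (hJ : ∀ k l, P k l → ∀ x, S.J k l u x = 0) :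
    S.InvP P (fun y => ((rad f y : ℝ) : ℂ) • u y) := by
  have hd : ∀ x, DifferentiableAt ℝ u x := fun x => (hu.differentiable (by simp)) x
  refine ⟨⟨(Setup.contDiff_ofReal (contDiff_rad hf)).smul hu, hc.mono ?_⟩, fun C x => ?_,
    fun k l h x => ?_⟩
  · intro x hx
    simp only [Function.mem_support] at hx ⊢
    intro h0
    exact hx (by simp [h0])
  · rw [G_rad S hf C u x (hd x), hG, smul_zero]
  · rw [J_rad S hf k l u x (hd x), hJ k l h, smul_zero]

lemma InvP_mo [CompleteSpace F] {g : ℝ → ℝ} (hg : ContDiff ℝ ∞ g)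
    (hc : HasCompactSupport (rad (dc := d) g)) {u : Cfg d → F} (hu : S.InvP P u) :
    S.InvP P (mo (rad g) u) := by
  have hl : L2t (fun _ : ℕ => u) u := L2t_const hu.1.memLp
  exact ⟨mo_Tst (contDiff_rad hg) hc hu.1,
    fun C x => G_mo_zero S hu.1.memLp (wG_of_limP S (fun _ => hu) hl) hg hc C x,
    fun k l h x => J_mo_zero1 S hu.1.memLp (wJ_of_limP S (fun _ => hu) hl h) hg hc x⟩

/-- the error term of the mollified equation, with mass -/
lemma err_boundP [CompleteSpace F] (h7 : A7Stmt S) (m lam : ℝ) {Ψ : Cfg d → F}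
    {w : ℕ → Cfg d → F} (hw : ∀ n, Setup.Tst (w n)) (hl : L2t w Ψ)
    (h0 : ∀ φ, S.InvP P φ → ∫ x, inner ℂ (HH S m φ x + (lam : ℂ) • φ x) (Ψ x) = 0)
    {ε η : ℝ} (hη : 0 ≤ η) {ρ : Cfg d → ℝ} (h : IsMol ε ρ) (he : ∀ x, ρ (-x) = ρ x)
    {u : Cfg d → F} (hu : Setup.Tst u) (hui : S.InvP P (mo ρ u))
    (hb : ∀ x t, ρ (x - t) ≠ 0 → u t ≠ 0 → ‖S.esaW m x - S.esaW m t‖ ≤ η) :
    ‖(∫ x, inner ℂ (u x) (HH S m (mo ρ Ψ) x)) +
      (lam : ℂ) * ∫ x, inner ℂ (u x) (mo ρ Ψ x)‖ ≤
      η * (Real.sqrt (nsq u) * Real.sqrt (nsq Ψ)) := by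
  set E : Cfg d → F := fun x => ∫ t, ρ (x - t) • (S.esaW m x - S.esaW m t) (u t) with hE
  have hmoT : Setup.Tst (mo ρ u) := mo_Tst h.contDiff h.hcs hu
  have hHT : Setup.Tst (HH S m u) := Tst_HH S m hu
  have hEe : E = fun x => HH S m (mo ρ u) x - mo ρ (HH S m u) x := by
    funext x
    rw [HH_mo S h7 m h.contDiff h.hcs hu x]
    simp only [hE]
    abel
  have hET : Setup.Tst E := by
    rw [hEe]
    exact (Tst_HH S m hmoT).sub (mo_Tst h.contDiff h.hcs hHT)
  have hEb : ∀ x, ‖E x‖ ≤ η * mo ρ (fun t => ‖u t‖) x := by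
    intro x
    have hi : Integrable (fun t => ρ (x - t) • ‖u t‖) :=
      integrable_mo h.contDiff.continuous h.hcs (hu.1.continuous.norm.locallyIntegrable) x
    have e : η * mo ρ (fun t => ‖u t‖) x = ∫ t, η * (ρ (x - t) • ‖u t‖) := by
      rw [integral_const_mul]; rfl
    rw [e]
    refine norm_integral_le_of_norm_le (hi.const_mul _) (Eventually.of_forall fun t => ?_)
    rw [norm_smul, Real.norm_of_nonneg (h.nonneg _), smul_eq_mul]
    by_cases h1 : ρ (x - t) = 0
    · rw [h1]; simp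
    · by_cases h2 : u t = 0
      · rw [h2]; simp
      · calc ρ (x - t) * ‖(S.esaW m x - S.esaW m t) (u t)‖ ≤ ρ (x - t) * (η * ‖u t‖) := by
              refine mul_le_mul_of_nonneg_left ?_ (h.nonneg _)
              exact ((S.esaW m x - S.esaW m t).le_opNorm _).trans
                (mul_le_mul_of_nonneg_right (hb x t h1 h2) (norm_nonneg _))
          _ = _ := by ring
  have hEn := (nsq_le_mo h hu.memLp hET.1.continuous.aestronglyMeasurable hEb).2
  have h1 : (∫ x, inner ℂ (u x) (HH S m (mo ρ Ψ) x)) +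
      (lam : ℂ) * ∫ x, inner ℂ (u x) (mo ρ Ψ x) = - ∫ x, inner ℂ (E x) (Ψ x) := by
    have hsm : ContDiff ℝ ∞ (mo ρ Ψ) := contDiff_mo h.contDiff h.hcs (locInt hl.mem')
    rw [← HH_symm S m hu hsm, mo_symm h he hHT hw hl, mo_symm h he hu hw hl]
    have i1 := integrable_inner_memLp (Tst_HH S m hmoT).memLp hl.mem'
    have i2 := integrable_inner_memLp (mo_Tst h.contDiff h.hcs hHT).memLp hl.mem'
    have i3 := integrable_inner_memLp hmoT.memLp hl.mem'
    have h2 : ∫ x, inner ℂ (E x) (Ψ x) = (∫ x, inner ℂ (HH S m (mo ρ u) x) (Ψ x)) -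
        ∫ x, inner ℂ (mo ρ (HH S m u) x) (Ψ x) := by
      rw [← integral_sub i1 i2]
      refine integral_congr_ae (Eventually.of_forall fun x => ?_)
      simp only [hEe, inner_sub_left]
    have h3 : (∫ x, inner ℂ (HH S m (mo ρ u) x) (Ψ x)) +
        (lam : ℂ) * ∫ x, inner ℂ (mo ρ u x) (Ψ x) = 0 := by
      rw [← integral_const_mul, ← integral_add i1 (i3.const_mul _), ← h0 _ hui]
      refine integral_congr_ae (Eventually.of_forall fun x => ?_)
      simp only [inner_add_left, inner_smul_left, Complex.conj_ofReal]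
    rw [h2]
    linear_combination h3
  rw [h1, norm_neg]
  refine (cs_inner hET.memLp hl.mem').trans ?_
  rw [← mul_assoc]
  refine mul_le_mul_of_nonneg_right ?_ (Real.sqrt_nonneg _)
  calc Real.sqrt (∫ x, ‖E x‖ ^ 2) ≤ Real.sqrt (η ^ 2 * nsq u) := Real.sqrt_le_sqrt hEn
    _ = η * Real.sqrt (nsq u) := by
        rw [Real.sqrt_mul (sq_nonneg _), Real.sqrt_sq hη]

/-- `⟨χ²v, v⟩ = ‖χv‖²` -/
lemma inner_cut (χ : Cfg d → ℝ) (v : Cfg d → F) :
    ∫ x, inner ℂ (((χ x : ℝ) : ℂ) • ((χ x : ℝ) : ℂ) • v x) (v x) =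
      ((nsq (fun x => ((χ x : ℝ) : ℂ) • v x) : ℝ) : ℂ) := by
  unfold nsq
  rw [← integral_complex_ofReal]
  refine integral_congr_ae (Eventually.of_forall fun x => ?_)
  simp only
  have h : (inner ℂ (v x) (v x) : ℂ) = ((‖v x‖ : ℝ) : ℂ) ^ 2 := inner_self_eq_norm_sq_to_K _
  rw [inner_smul_left, inner_smul_left, Complex.conj_ofReal, h,
    norm_smul, Complex.norm_real, mul_pow, Real.norm_eq_abs, sq_abs]
  push_cast
  ring

end WSP

open WSP Vale.Agent.P353.Z.Moll Vale.Agent.P353.Z.U Vale.Agent.P353.Z.U.HB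
  Vale.Agent.P353.Z.U.WS in
/-- **weak = strong**, with the identity `A7` as a hypothesis -/
theorem wsp_of [CompleteSpace F] (S : Setup d F) (h7 : A7Stmt S) : WSPStmt S := by
  rintro P - m lam hlam Ψ ⟨w, hw, hl⟩ h0
  have hΨ : MemLp Ψ 2 (volume : Measure (Cfg d)) := hl.mem'
  have hwT : ∀ n, Setup.Tst (w n) := fun n => (hw n).1
  have hwG := wG_of_limP S hw hl
  set N : ℝ := nsq Ψ with hN
  have hN0 : 0 ≤ N := nsq_nonneg _
  set C1 : ℝ := ∑ β, S.esaC β ^ 2 with hC1
  have hC10 : 0 ≤ C1 := Finset.sum_nonneg fun β _ => sq_nonneg _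
  obtain ⟨K, hK, hcut⟩ := exists_rc
  have hcut' : ∀ n : ℕ, ∃ h : ℝ → ℝ, IsRC K ((n : ℝ) + 1) h := fun n => hcut _ (by positivity)
  choose h hh using hcut'
  have key : ∀ η : ℝ, 0 < η → ∃ u, S.InvP P u ∧ nsq (fun x => u x - Ψ x) ≤ η ∧
      S.en m u + lam * nsq u ≤ η := by
    intro η hη
    have h1 : Tendsto (fun n : ℕ => (K / ((n : ℝ) + 1)) ^ 2 * C1 * N) atTop (𝓝 0) := by
      have := (tendsto_one_div_add_atTop_nhds_zero_nat (𝕜 := ℝ)).const_mul K
      rw [mul_zero] at this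
      have h2 := ((this.pow 2).mul_const C1).mul_const N
      have h3 : (0 : ℝ) ^ 2 * C1 * N = 0 := by ring
      rw [h3] at h2
      refine h2.congr fun n => ?_
      rw [mul_one_div]
    have hη8 : 0 < η / 8 := by positivity
    obtain ⟨n, hn1, hn2⟩ := ((h1.eventually (gt_mem_nhds (half_pos hη))).and
      ((cut_tendsto hΨ hh).eventually (gt_mem_nhds hη8))).exists
    set R : ℝ := (n : ℝ) + 1 with hR
    have hR0 : 0 < R := by positivity
    set χ : Cfg d → ℝ := rad (h n) with hχ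
    have hc := hh n
    have hχs : ContDiff ℝ ∞ χ := contDiff_rad hc.contDiff
    have hχc : HasCompactSupport χ := by
      refine HasCompactSupport.intro (isCompact_closedBall (0 : Cfg d) R) fun x hx => ?_
      rw [Metric.mem_closedBall, dist_zero_right, not_le] at hx
      exact hc.zero x hx.le
    set η' : ℝ := η / (2 * (N + 1)) with hη'
    have hη'0 : 0 < η' := by positivity
    have huc := (isCompact_closedBall (0 : Cfg d) (R + 1)).uniformContinuousOn_of_continuous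
      (S.esa_W_continuous m).continuousOn
    obtain ⟨δ, hδ, hδ'⟩ := Metric.uniformContinuousOn_iff.mp huc η' hη'0
    obtain ⟨ε₀, hε₀, happ⟩ := mo_approx hΨ hη8
    set ε : ℝ := min (min δ 1) ε₀ with hε
    have hε0 : 0 < ε := lt_min (lt_min hδ one_pos) hε₀
    obtain ⟨g, hg, hmol⟩ := exists_mol hε0
    set ρ : Cfg d → ℝ := rad g with hρ
    have heven : ∀ x, ρ (-x) = ρ x := fun x => by simp [hρ, rad]
    set v : Cfg d → F := mo ρ Ψ with hv
    have hvs : ContDiff ℝ ∞ v := contDiff_mo hmol.contDiff hmol.hcs (locInt hΨ)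
    obtain ⟨hvm, hvN⟩ := nsq_mo_le hmol hΨ
    have hvG : ∀ C x, S.G C v x = 0 := fun C x => G_mo_zero S hΨ hwG hg hmol.hcs C x
    have hvJ : ∀ k l, P k l → ∀ x, S.J k l v x = 0 := fun k l hkl x =>
      J_mo_zero1 S hΨ (wJ_of_limP S hw hl hkl) hg hmol.hcs x
    set u : Cfg d → F := fun x => ((χ x : ℝ) : ℂ) • v x with hu
    have hui : S.InvP P u := InvP_rad S hc.contDiff hχc hvs hvG hvJ
    set u2 : Cfg d → F := fun x => ((χ x : ℝ) : ℂ) • u x with hu2
    have hu2i : S.InvP P u2 := InvP_rad S hc.contDiff hχc hui.1.1 hui.2.1 hui.2.2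
    have hle : ∀ {a : Cfg d → F}, MemLp a 2 (volume : Measure (Cfg d)) →
        nsq (fun x => ((χ x : ℝ) : ℂ) • a x) ≤ nsq a := by
      intro a ha
      refine integral_mono_of_nonneg (Eventually.of_forall fun x => by positivity)
        (memLp_norm_sq_int ha) (Eventually.of_forall fun x => ?_)
      simp only
      rw [norm_smul, Complex.norm_real, Real.norm_of_nonneg (hc.nonneg x), mul_pow]
      have h2 : χ x ^ 2 ≤ 1 := pow_le_one₀ (hc.nonneg x) (hc.le_one x)
      calc χ x ^ 2 * ‖a x‖ ^ 2 ≤ 1 * ‖a x‖ ^ 2 := by gcongr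
        _ = _ := one_mul _
    refine ⟨u, hui, ?_, ?_⟩
    · -- `L²` distance
      have m1 : MemLp (fun x => v x - Ψ x) 2 (volume : Measure (Cfg d)) := hvm.sub hΨ
      have m3 : MemLp (fun x => ((χ x : ℝ) : ℂ) • Ψ x) 2 (volume : Measure (Cfg d)) := by
        refine hΨ.of_le ((Complex.continuous_ofReal.comp hχs.continuous
          ).aestronglyMeasurable.smul hΨ.1) (Eventually.of_forall fun x => ?_)
        rw [norm_smul, Complex.norm_real, Real.norm_of_nonneg (hc.nonneg x)]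
        exact mul_le_of_le_one_left (norm_nonneg _) (hc.le_one x)
      have m4 : MemLp (fun x => ((χ x : ℝ) : ℂ) • v x) 2 (volume : Measure (Cfg d)) :=
        hui.1.memLp
      have m2 : MemLp (fun x => ((χ x : ℝ) : ℂ) • (v x - Ψ x)) 2
          (volume : Measure (Cfg d)) := by
        have := m4.sub m3
        refine this.ae_eq (Eventually.of_forall fun x => ?_)
        simp only [Pi.sub_apply, smul_sub]
      have e : (fun x => u x - Ψ x) = fun x => ((χ x : ℝ) : ℂ) • (v x - Ψ x) +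
          (((χ x : ℝ) : ℂ) • Ψ x - Ψ x) := by
        funext x
        rw [smul_sub]
        abel
      have h2 := nsq_add_le m2 (m3.sub hΨ)
      have h3 := hle m1
      have h4 := happ ε (min_le_right _ _) ρ hmol
      rw [e]
      have h5 : nsq (fun x => ((χ x : ℝ) : ℂ) • (v x - Ψ x) + (((χ x : ℝ) : ℂ) • Ψ x - Ψ x)) ≤
          2 * nsq (fun x => ((χ x : ℝ) : ℂ) • (v x - Ψ x)) +
          2 * nsq (fun x => ((χ x : ℝ) : ℂ) • Ψ x - Ψ x) := h2
      linarith
    · -- energy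
      have hen : S.en m u = ∑ β, nsq (S.Qm m β u) := rfl
      rw [hen, loc_energy S m hχs hχc hvs]
      have h2 : ‖(∫ x, inner ℂ (u2 x) (HH S m v x)) +
          (lam : ℂ) * ∫ x, inner ℂ (u2 x) (v x)‖ ≤
          η' * (Real.sqrt (nsq u2) * Real.sqrt (nsq Ψ)) := by
        refine err_boundP S h7 m lam hwT hl h0 hη'0.le hmol heven hu2i.1
          (InvP_mo S hg hmol.hcs hu2i) fun x t hxt ht => ?_
        have h3 : ‖x - t‖ < ε := by
          by_contra h4
          exact hxt (hmol.supp _ (not_lt.mp h4))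
        have h5 : dist x t < δ := by
          rw [dist_eq_norm]
          exact h3.trans_le ((min_le_left _ _).trans (min_le_left _ _))
        have h6 : ‖t‖ ≤ R := by
          by_contra h4
          apply ht
          have h7 : χ t = 0 := hc.zero t (not_le.mp h4).le
          simp only [hu2]
          rw [h7]
          simp
        have h7 : ‖x‖ ≤ R + 1 := by
          have h8 : ‖x - t‖ < 1 := h3.trans_le ((min_le_left _ _).trans (min_le_right _ _))
          have h9 : ‖x‖ ≤ ‖x - t‖ + ‖t‖ := by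
            have := norm_add_le (x - t) t
            simpa using this
          linarith
        have h9 := hδ' x (by simpa using h7) t (by simpa using h6.trans (by linarith)) h5
        rw [dist_eq_norm] at h9
        exact h9.le
      have h3 : nsq u2 ≤ N := (hle hui.1.memLp).trans ((hle hvm).trans hvN)
      have h4 : Real.sqrt (nsq u2) * Real.sqrt (nsq Ψ) ≤ N := by
        calc Real.sqrt (nsq u2) * Real.sqrt (nsq Ψ) ≤ Real.sqrt N * Real.sqrt N := by
              gcongr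
          _ = N := Real.mul_self_sqrt hN0
      have h5 : η' * (Real.sqrt (nsq u2) * Real.sqrt (nsq Ψ)) ≤ η / 2 := by
        calc η' * (Real.sqrt (nsq u2) * Real.sqrt (nsq Ψ)) ≤ η' * (N + 1) := by
              gcongr
              linarith
          _ = η / 2 := by rw [hη']; field_simp
      have h6 : ∑ β, ∫ x, ‖S.esaD χ β x (v x)‖ ^ 2 ≤ (K / R) ^ 2 * C1 * N := by
        have h3 : ∀ β, ∫ x, ‖S.esaD χ β x (v x)‖ ^ 2 ≤ (K / R * S.esaC β) ^ 2 * N := by
          intro β
          refine (nsq_op_le (fun x => D_norm S (fun j B x => hc.grad j B x) β x) hvm).trans ?_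
          exact mul_le_mul_of_nonneg_left hvN (sq_nonneg _)
        refine (Finset.sum_le_sum fun β _ => h3 β).trans (le_of_eq ?_)
        rw [hC1, Finset.mul_sum, Finset.sum_mul]
        refine Finset.sum_congr rfl fun β _ => ?_
        ring
      have h7 := (Complex.re_le_norm ((∫ x, inner ℂ (u2 x) (HH S m v x)) +
          (lam : ℂ) * ∫ x, inner ℂ (u2 x) (v x))).trans (h2.trans h5)
      have h8 : ∫ x, inner ℂ (u2 x) (v x) = ((nsq u : ℝ) : ℂ) := inner_cut χ v
      rw [h8, Complex.add_re, ← Complex.ofReal_mul, Complex.ofReal_re] at h7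
      change (∫ x, inner ℂ (u2 x) (HH S m v x)).re + _ + _ ≤ η
      linarith
  have hpos : ∀ n : ℕ, (0 : ℝ) < 1 / ((n : ℝ) + 1) := fun n => by positivity
  choose u hu1 hu2 hu3 using fun n : ℕ => key _ (hpos n)
  have ht := tendsto_one_div_add_atTop_nhds_zero_nat (𝕜 := ℝ)
  refine ⟨u, hu1, ⟨fun n => (hu1 n).1.memLp, hΨ, ?_⟩, ?_⟩
  · exact squeeze_zero (fun n => nsq_nonneg _) hu2 ht
  · refine squeeze_zero (fun n => add_nonneg ?_ (mul_nonneg hlam (nsq_nonneg _))) hu3 ht
    exact Finset.sum_nonneg fun β _ => nsq_nonneg _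

/-- **H6** weak = strong, general form -/
theorem wsp [CompleteSpace F] (S : Setup d F) : WSPStmt S :=
  wsp_of S (U.a7 S (U.a1 S (U.a1a S) (U.a1b S (U.fbmn S (U.f10 S)))))

end Vale.Agent.P353.Z.AH
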