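import Vale.Agent.P353.AN.H.S6

/-! # P353, all `N`, block H: `dim ker = 1` from the counting theorems (helper973) -/

open MeasureTheory Filter Topology
open scoped ContDiff ComplexConjugate

namespace Vale.Agent.P353.Z.AH

variable {d : ℕ} {F : Type*} [NormedAddCommGroup F] [InnerProductSpace ℂ F]

/-- **Top** -/
theorem top [FiniteDimensional ℂ F] (S : Setup d F) (hQQ : QQStmt S) (hD : DenseStmt S) (hJ : JbdStmt S)
    (hA : AvgStmt S) (hK : KerCutStmt S) (hloc : LocStmt S) (hBr : BridgeStmt S) : TopStmt S := by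
  have hFc : CompleteSpace F := FiniteDimensional.complete ℂ F
  intro hirr hne ι _ P hE hNL hcount hlow
  obtain ⟨m, hm, hlow⟩ := hlow
  -- theorem B after the bridge
  have hB : ∀ k : ℕ, (∃ m : ℝ, 0 < m ∧ S.LowP plT k m (8 * m)) → ∀ m' : ℝ, 0 < m' → ∀ c : ℝ, 0 < c →
      S.Low k m' c := by
    rintro k ⟨m, hm, h⟩ m' hm' c hc
    exact U.All.thmB_all S k m hm (hBr k m hm h (8 * m) (by positivity)) m' hm' c hc
  have hL := hB _ ⟨m, hm, hlow⟩
  obtain ⟨Ψ₀, h0, hn0⟩ := s6 P hloc hE hNL hL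
  refine ⟨Ψ₀, h0, hn0, fun Ψ hΨ => ?_⟩
  by_contra hcon
  have hli : LinearIndependent ℂ ![Ψ₀, Ψ] := by
    rw [LinearIndependent.pair_iff]
    intro s t hst
    have ht : t = 0 := by
      by_contra ht
      refine hcon ⟨-(t⁻¹ * s), ?_⟩
      have h1 : Ψ = t⁻¹ • (t • Ψ) := by rw [smul_smul, inv_mul_cancel₀ ht, one_smul]
      have h2 : t • Ψ = -(s • Ψ₀) := eq_neg_of_add_eq_zero_right hst
      rw [h1, h2, smul_neg, smul_smul, neg_smul]
    rw [ht, zero_smul, add_zero] at hst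
    exact ⟨(smul_eq_zero.mp hst).resolve_right hn0, ht⟩
  have h7 := s7 P hQQ hD hJ (hA hirr hne) hK hE 2 ![Ψ₀, Ψ] (by
    intro j
    fin_cases j
    · exact h0
    · exact hΨ) hli
  have h8 := hB _ h7
  obtain ⟨M, hM, hC⟩ := U.All.thmC_all S (Fintype.card ι + 1) hirr hne hcount
  obtain ⟨ε, hε, hno⟩ := hC M le_rfl
  apply hno
  have h9 := h8 M hM ε hε
  have e : 2 + Fintype.card ι = Fintype.card ι + 1 + 1 := by ring
  rw [e] at h9
  exact h9

end Vale.Agent.P353.Z.AH
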