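import Vale.Agent.P353.AN.H.Avg
import Vale.Agent.P353.AN.H.Bridge
import Vale.Agent.P353.AN.H.CGapT
import Vale.Agent.P353.AN.H.Circ
import Vale.Agent.P353.AN.H.Dens
import Vale.Agent.P353.AN.H.KerCut
import Vale.Agent.P353.AN.H.QQ
import Vale.Agent.P353.AN.H.WSP
import Vale.Agent.P353.AN.H.WTop

/-! # P353, all `N`, block H: assembly (helper973) -/

open MeasureTheory Filter Topology
open scoped ContDiff ComplexConjugate

namespace Vale.Agent.P353.Z.AH

variable {d : ℕ} {F : Type*} [NormedAddCommGroup F] [InnerProductSpace ℂ F] [FiniteDimensional ℂ F]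

theorem avgAll (S : Setup d F) : AvgStmt S := avg S (circ S)

theorem wspAll (S : Setup d F) : WSPStmt S := by
  have hFc : CompleteSpace F := FiniteDimensional.complete ℂ F
  exact wsp S

theorem densAll (S : Setup d F) : DenseStmt S := by
  have hFc : CompleteSpace F := FiniteDimensional.complete ℂ F
  exact dens S (wspAll S)

theorem bridgeAll (S : Setup d F) : BridgeStmt S := bridge S (cgapT S) (wspAll S)

/-- `dim ker = 1` from a weak profile system -/
theorem topWAll (S : Setup d F) : AJ.TopStmt S :=
  AJ.topW S (qq S) (densAll S) (jbd S) (avgAll S) (kerCut S) (loc S) (bridgeAll S)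

/-- `dim ker = 1` from a profile system -/
theorem topAll (S : Setup d F) : TopStmt S :=
  top S (qq S) (densAll S) (jbd S) (avgAll S) (kerCut S) (loc S) (bridgeAll S)

end Vale.Agent.P353.Z.AH

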