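import Vale.Agent.P353.AN.H.Stmt

/-! # P353, all `N`, block H: the average over the torus (H4) from the average over a circle (H3) -/

open MeasureTheory Filter Topology
open scoped ContDiff

namespace Vale.Agent.P353.Z.AH

variable {d : ℕ} {F : Type*} [NormedAddCommGroup F] [InnerProductSpace ℂ F]

theorem avg969_add {f g : Cfg d → F} (hf : Setup.Tst f) (hg : Setup.Tst g) :
    nsq (fun x => f x + g x) ≤ 2 * nsq f + 2 * nsq g := by
  unfold nsq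
  rw [← integral_const_mul, ← integral_const_mul,
    ← integral_add (hf.norm_sq_int.const_mul 2) (hg.norm_sq_int.const_mul 2)]
  refine integral_mono (hf.add hg).norm_sq_int
    ((hf.norm_sq_int.const_mul 2).add (hg.norm_sq_int.const_mul 2)) fun x => ?_
  have h1 := norm_add_le (f x) (g x)
  have h2 := norm_nonneg (f x + g x)
  have h3 := norm_nonneg (f x)
  have h4 := norm_nonneg (g x)
  show ‖f x + g x‖ ^ 2 ≤ 2 * ‖f x‖ ^ 2 + 2 * ‖g x‖ ^ 2
  nlinarith [sq_nonneg (‖f x‖ - ‖g x‖)]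

theorem avg969_four {u v₁ v₂ v₃ v₄ : Cfg d → F} (h0 : Setup.Tst u) (h1 : Setup.Tst v₁)
    (h2 : Setup.Tst v₂) (h3 : Setup.Tst v₃) (h4 : Setup.Tst v₄) :
    nsq (fun x => u x - v₄ x) ≤ 4 * (nsq (fun x => u x - v₁ x) + nsq (fun x => v₁ x - v₂ x) +
      nsq (fun x => v₂ x - v₃ x) + nsq (fun x => v₃ x - v₄ x)) := by
  have e : (fun x => u x - v₄ x) = fun x => ((u x - v₁ x) + (v₁ x - v₂ x)) +
      ((v₂ x - v₃ x) + (v₃ x - v₄ x)) := by
    funext x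
    abel
  have a1 := avg969_add (h0.sub h1) (h1.sub h2)
  have a2 := avg969_add (h2.sub h3) (h3.sub h4)
  have a3 := avg969_add ((h0.sub h1).add (h1.sub h2)) ((h2.sub h3).add (h3.sub h4))
  rw [e]
  linarith

/-- **H4** the average over the torus. -/
theorem avg (S : Setup d F) (h : CircStmt S) : AvgStmt S := by
  intro hI hne
  obtain ⟨C₁, c₁, H₁⟩ := h hI hne 1 2 (by unfold Same; decide)
  obtain ⟨C₂, c₂, H₂⟩ := h hI hne 3 4 (by unfold Same; decide)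
  obtain ⟨C₃, c₃, H₃⟩ := h hI hne 5 6 (by unfold Same; decide)
  obtain ⟨C₄, c₄, H₄⟩ := h hI hne 7 8 (by unfold Same; decide)
  refine ⟨4 * (C₁ + C₂ + C₃ + C₄), by positivity, fun u hu => ?_⟩
  obtain ⟨v₁, i₁, n₁, e₁, J₁⟩ := H₁ (fun _ _ => False) (fun a b hab => hab.elim) u
    ⟨hu.1, hu.2, fun k l hkl => hkl.elim⟩
  obtain ⟨v₂, i₂, n₂, e₂, J₂⟩ := H₂ _ (by
    intro a b hab
    rcases hab with hab | ⟨rfl, rfl⟩ | ⟨rfl, rfl⟩
    · exact hab.elim
    · unfold Same; decide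
    · unfold Same; decide) v₁ i₁
  obtain ⟨v₃, i₃, n₃, e₃, J₃⟩ := H₃ _ (by
    intro a b hab
    rcases hab with (hab | ⟨rfl, rfl⟩ | ⟨rfl, rfl⟩) | ⟨rfl, rfl⟩ | ⟨rfl, rfl⟩
    · exact hab.elim
    all_goals (unfold Same; decide)) v₂ i₂
  obtain ⟨v₄, i₄, n₄, e₄, J₄⟩ := H₄ _ (by
    intro a b hab
    rcases hab with ((hab | ⟨rfl, rfl⟩ | ⟨rfl, rfl⟩) | ⟨rfl, rfl⟩ | ⟨rfl, rfl⟩) | ⟨rfl, rfl⟩ | ⟨rfl, rfl⟩
    · exact hab.elim
    all_goals (unfold Same; decide)) v₃ i₃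
  refine ⟨v₄, ⟨i₄.1, i₄.2.1, ?_⟩, fun m => (e₄ m).trans ((e₃ m).trans ((e₂ m).trans (e₁ m))), ?_⟩
  · intro k l hkl
    refine i₄.2.2 k l ?_
    obtain ⟨hk, rfl⟩ := hkl
    revert hk
    unfold U.pt
    fin_cases k <;> simp
  · have s34 : Same 3 4 := by unfold Same; decide
    have s56 : Same 5 6 := by unfold Same; decide
    have s78 : Same 7 8 := by unfold Same; decide
    have k1 := J₁ 3 4 s34 (by decide) (by decide) (by decide) (by decide)
    have k2 := J₁ 5 6 s56 (by decide) (by decide) (by decide) (by decide)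
    have k3 := J₁ 7 8 s78 (by decide) (by decide) (by decide) (by decide)
    have k4 := J₂ 5 6 s56 (by decide) (by decide) (by decide) (by decide)
    have k5 := J₂ 7 8 s78 (by decide) (by decide) (by decide) (by decide)
    have k6 := J₃ 7 8 s78 (by decide) (by decide) (by decide) (by decide)
    have hf := avg969_four hu.1 i₁.1 i₂.1 i₃.1 i₄.1
    have p1 := nsq_nonneg (S.J 1 2 u)
    have p2 := nsq_nonneg (S.J 3 4 u)
    have p3 := nsq_nonneg (S.J 5 6 u)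
    have p4 := nsq_nonneg (S.J 7 8 u)
    have q2 := n₂.trans (mul_le_mul_of_nonneg_left k1 c₂)
    have q3 := n₃.trans (mul_le_mul_of_nonneg_left (k4.trans k2) c₃)
    have q4 := n₄.trans (mul_le_mul_of_nonneg_left (k6.trans (k5.trans k3)) c₄)
    refine hf.trans ?_
    have r1 : C₁ * nsq (S.J 1 2 u) ≤ C₁ * (nsq (S.J 1 2 u) + nsq (S.J 3 4 u) + nsq (S.J 5 6 u) +
        nsq (S.J 7 8 u)) := mul_le_mul_of_nonneg_left (by linarith) c₁
    have r2 : C₂ * nsq (S.J 3 4 u) ≤ C₂ * (nsq (S.J 1 2 u) + nsq (S.J 3 4 u) + nsq (S.J 5 6 u) +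
        nsq (S.J 7 8 u)) := mul_le_mul_of_nonneg_left (by linarith) c₂
    have r3 : C₃ * nsq (S.J 5 6 u) ≤ C₃ * (nsq (S.J 1 2 u) + nsq (S.J 3 4 u) + nsq (S.J 5 6 u) +
        nsq (S.J 7 8 u)) := mul_le_mul_of_nonneg_left (by linarith) c₃
    have r4 : C₄ * nsq (S.J 7 8 u) ≤ C₄ * (nsq (S.J 1 2 u) + nsq (S.J 3 4 u) + nsq (S.J 5 6 u) +
        nsq (S.J 7 8 u)) := mul_le_mul_of_nonneg_left (by linarith) c₄
    calc _ ≤ 4 * (C₁ * (nsq (S.J 1 2 u) + nsq (S.J 3 4 u) + nsq (S.J 5 6 u) + nsq (S.J 7 8 u)) +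
          C₂ * (nsq (S.J 1 2 u) + nsq (S.J 3 4 u) + nsq (S.J 5 6 u) + nsq (S.J 7 8 u)) +
          C₃ * (nsq (S.J 1 2 u) + nsq (S.J 3 4 u) + nsq (S.J 5 6 u) + nsq (S.J 7 8 u)) +
          C₄ * (nsq (S.J 1 2 u) + nsq (S.J 3 4 u) + nsq (S.J 5 6 u) + nsq (S.J 7 8 u))) := by
            refine mul_le_mul_of_nonneg_left ?_ (by norm_num)
            linarith
      _ = _ := by ring

end Vale.Agent.P353.Z.AH
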