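import Vale.Agent.P353.AN.H.Stmt
import Vale.Agent.P353.Z.RotD
import Vale.Agent.P353.Z.U.A2

/-! # P353, block H: rotations in a plane commute with the gauge generators and with disjoint rotations (helper973) -/

open MeasureTheory Filter Topology
open scoped ContDiff ComplexConjugate

namespace Vale.Agent.P353.Z.AH.Cir

variable {d : ℕ} {F : Type*} [NormedAddCommGroup F] [InnerProductSpace ℂ F]
variable (S : Setup d F)

lemma tot_eq (M : Matrix (Fin 16) (Fin 16) ℂ) : S.tot M = ∑ A, ∑ δ, S.vec 1 A δ * S.vec M A δ := by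
  unfold CS.tot
  refine Finset.sum_congr rfl fun A _ => ?_
  rw [S.sum_vec_mul_vec]
  simp

/-- the spin part of the gauge generator commutes with `θ M θ` -/
lemma cS_tot (C : Fin d) (M : Matrix (Fin 16) (Fin 16) ℂ) : S.cS C * S.tot M = S.tot M * S.cS C := by
  rw [← sub_eq_zero]
  have h1 : ∀ A δ, S.cS C * (S.vec 1 A δ * S.vec M A δ) - S.vec 1 A δ * S.vec M A δ * S.cS C =
      Complex.I • ∑ E, (S.f C A E : ℂ) • (S.vec 1 E δ * S.vec M A δ + S.vec 1 A δ * S.vec M E δ) := by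
    intro A δ
    have e1 := U.comm_cS S C 1 A δ
    have e2 := U.comm_cS S C M A δ
    have e3 : S.cS C * (S.vec 1 A δ * S.vec M A δ) - S.vec 1 A δ * S.vec M A δ * S.cS C =
        (S.cS C * S.vec 1 A δ - S.vec 1 A δ * S.cS C) * S.vec M A δ +
        S.vec 1 A δ * (S.cS C * S.vec M A δ - S.vec M A δ * S.cS C) := by
      noncomm_ring
    rw [e3, e1, e2]
    simp only [smul_add, Finset.sum_add_distrib, smul_mul_assoc, mul_smul_comm, Finset.sum_mul, Finset.mul_sum]
  rw [tot_eq, Finset.mul_sum, Finset.sum_mul, ← Finset.sum_sub_distrib]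
  simp only [Finset.mul_sum, Finset.sum_mul, ← Finset.sum_sub_distrib, h1]
  simp only [← Finset.smul_sum]
  rw [smul_eq_zero]
  right
  have h2 : ∑ A, ∑ δ, ∑ E, (S.f C A E : ℂ) • (S.vec 1 E δ * S.vec M A δ + S.vec 1 A δ * S.vec M E δ) =
      ∑ δ, ∑ A, ∑ E, (S.f C A E : ℂ) • (S.vec 1 E δ * S.vec M A δ + S.vec 1 A δ * S.vec M E δ) :=
    Finset.sum_comm
  rw [h2]
  refine Finset.sum_eq_zero fun δ _ => ?_
  set Z := ∑ A, ∑ E, (S.f C A E : ℂ) • (S.vec 1 E δ * S.vec M A δ + S.vec 1 A δ * S.vec M E δ) with hZ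
  have h3 : Z = -Z := by
    conv_lhs => rw [hZ, Finset.sum_comm]
    rw [hZ, ← Finset.sum_neg_distrib]
    refine Finset.sum_congr rfl fun E _ => ?_
    rw [← Finset.sum_neg_distrib]
    refine Finset.sum_congr rfl fun A _ => ?_
    rw [S.f_swap' C E A, add_comm (S.vec 1 A δ * S.vec M E δ)]
    push_cast
    rw [neg_smul]
  have h4 : (2 : ℂ) • Z = 0 := by
    rw [two_smul]
    nth_rewrite 1 [h3]
    exact neg_add_cancel Z
  exact (smul_eq_zero.mp h4).resolve_left two_ne_zero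

/-- commuting antisymmetric matrices give commuting bilinears -/
lemma tot_tot {M M' : Matrix (Fin 16) (Fin 16) ℂ} (hM : M.transpose = -M)
    (hMM : M * M' = M' * M) : S.tot M' * S.tot M = S.tot M * S.tot M' := by
  rw [← sub_eq_zero]
  have h1 : ∀ A δ, S.vec 1 A δ * S.vec M' A δ * S.tot M - S.tot M * (S.vec 1 A δ * S.vec M' A δ) =
      (2 : ℂ) • (S.vec M A δ * S.vec M' A δ + S.vec 1 A δ * S.vec (M' * M) A δ) := by
    intro A δ
    have e1 := S.vec_comm_tot 1 M hM A δ
    have e2 := S.vec_comm_tot M' M hM A δ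
    have e3 : S.vec 1 A δ * S.vec M' A δ * S.tot M - S.tot M * (S.vec 1 A δ * S.vec M' A δ) =
        (S.vec 1 A δ * S.tot M - S.tot M * S.vec 1 A δ) * S.vec M' A δ +
        S.vec 1 A δ * (S.vec M' A δ * S.tot M - S.tot M * S.vec M' A δ) := by
      noncomm_ring
    rw [e3, e1, e2, one_mul, smul_mul_assoc, mul_smul_comm, smul_add]
  have h2 : S.tot M' * S.tot M - S.tot M * S.tot M' =
      ∑ A, ∑ δ, (S.vec 1 A δ * S.vec M' A δ * S.tot M - S.tot M * (S.vec 1 A δ * S.vec M' A δ)) := by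
    rw [tot_eq S M']
    simp only [Finset.sum_sub_distrib, Finset.sum_mul, Finset.mul_sum]
  rw [h2]
  simp only [h1]
  refine Finset.sum_eq_zero fun A _ => ?_
  rw [← Finset.smul_sum, Finset.sum_add_distrib, S.sum_vec_mul_vec, S.sum_vec_mul_vec, hM,
    Matrix.transpose_one, one_mul, Matrix.neg_mul, hMM, S.bil_neg, neg_add_cancel, smul_zero]

lemma g2_transpose {k l : Fin 9} (h : k ≠ l) : (S.g2 k l).transpose = -S.g2 k l := by
  rw [S.g2_eq_mul h, Matrix.transpose_mul, S.g_symm, S.g_symm, S.g_swap_ne (Ne.symm h)]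

lemma g2_disj {k l a b : Fin 9} (h : k ≠ l) (hab : a ≠ b) (hak : a ≠ k) (hal : a ≠ l) (hbk : b ≠ k)
    (hbl : b ≠ l) : S.g2 k l * S.g2 a b = S.g2 a b * S.g2 k l := by
  rw [S.g2_eq_mul h, S.g2_eq_mul hab]
  have e1 := S.g_swap_ne hak
  have e2 := S.g_swap_ne hal
  have e3 := S.g_swap_ne hbk
  have e4 := S.g_swap_ne hbl
  calc S.g k * S.g l * (S.g a * S.g b) = S.g k * (S.g l * S.g a) * S.g b := by noncomm_ring
    _ = -(S.g k * S.g a) * (S.g l * S.g b) := by
        rw [show S.g l * S.g a = -(S.g a * S.g l) by rw [e2, neg_neg]]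
        noncomm_ring
    _ = S.g a * (S.g k * S.g b) * -S.g l := by
        rw [show S.g k * S.g a = -(S.g a * S.g k) by rw [e1, neg_neg],
          show S.g l * S.g b = -(S.g b * S.g l) by rw [e4, neg_neg]]
        noncomm_ring
    _ = S.g a * S.g b * (S.g k * S.g l) := by
        rw [show S.g k * S.g b = -(S.g b * S.g k) by rw [e3, neg_neg]]
        noncomm_ring

lemma Skl_cS (k l : Fin 9) (C : Fin d) : Commute (S.cS C) (S.Skl k l) := by
  unfold Setup.Skl
  exact (show Commute (S.cS C) (S.tot (S.g2 k l)) from cS_tot S C _).smul_right _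

lemma Skl_Skl {k l a b : Fin 9} (h : k ≠ l) (hab : a ≠ b) (hak : a ≠ k) (hal : a ≠ l) (hbk : b ≠ k)
    (hbl : b ≠ l) : Commute (S.Skl a b) (S.Skl k l) := by
  unfold Setup.Skl
  have h1 : Commute (S.tot (S.g2 a b)) (S.tot (S.g2 k l)) :=
    tot_tot S (g2_transpose S h) (g2_disj S h hab hak hal hbk hbl)
  exact (h1.smul_right _).smul_left _

variable [CompleteSpace F]

lemma st_comm' {T : F →L[ℂ] F} {k l : Fin 9} (h : Commute T (S.Skl k l)) (t : ℝ) (v : F) :
    T (S.st k l t v) = S.st k l t (T v) := by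
  have h1 : Commute T (S.st k l t) := by
    unfold Setup.st
    apply Commute.exp_right
    exact (h.smul_right _).smul_right _
  have := congrArg (fun T : F →L[ℂ] F => T v) h1.eq
  simpa [mul_apply_eq_comp] using this

lemma RR_gLc (k l : Fin 9) (t : ℝ) (C : Fin d) (x : Cfg d) :
    RR k l t (U.gLc S C x) = U.gLc S C (RR k l t x) := by
  ext ⟨i, B⟩
  rw [RR_apply]
  simp only [U.gLc_apply, RR_apply]
  have e : ∀ A, S.f C A B * (x (i, A) + (Real.cos t - 1) *
      ((if i = k then x (k, A) else 0) + (if i = l then x (l, A) else 0)) +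
      Real.sin t * ((if i = k then x (l, A) else 0) - (if i = l then x (k, A) else 0))) =
      S.f C A B * x (i, A) + (Real.cos t - 1) * ((if i = k then S.f C A B * x (k, A) else 0) +
        (if i = l then S.f C A B * x (l, A) else 0)) +
      Real.sin t * ((if i = k then S.f C A B * x (l, A) else 0) -
        (if i = l then S.f C A B * x (k, A) else 0)) := by
    intro A
    split_ifs <;> ring
  simp only [e, Finset.sum_add_distrib, ← Finset.mul_sum, Finset.sum_sub_distrib]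
  have e5 : ∀ (p : Prop) [Decidable p] (f : Fin d → ℝ), (∑ A, if p then f A else 0) = if p then ∑ A, f A else 0 := by
    intro p _ f
    split_ifs <;> simp
  simp only [e5]

lemma RR_LL' {k l a b : Fin 9} (hak : a ≠ k) (hal : a ≠ l) (hbk : b ≠ k)
    (hbl : b ≠ l) (t : ℝ) (x : Cfg d) : RR k l t (LL a b x) = LL a b (RR k l t x) := by
  ext ⟨i, A⟩
  rw [RR_apply, LL_apply, LL_apply, LL_apply, LL_apply]
  simp only [RR_apply, if_neg hak, if_neg hal, if_neg hbk, if_neg hbl, if_neg (Ne.symm hak),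
    if_neg (Ne.symm hal), if_neg (Ne.symm hbk), if_neg (Ne.symm hbl)]
  by_cases h1 : i = k
  · subst h1
    simp [Ne.symm hak, Ne.symm hbk]
  · by_cases h2 : i = l
    · subst h2
      simp [Ne.symm hal, Ne.symm hbl]
    · simp [h1, h2]

theorem G_Ut {k l : Fin 9} (_h : k ≠ l) (t : ℝ) (C : Fin d) {u : Cfg d → F} (hu : Differentiable ℝ u) (x : Cfg d) :
    S.G C (S.Ut k l t u) x = S.st k l t (S.G C u (RR k l (-t) x)) := by
  rw [U.G_eq, U.G_eq, S.fderiv_Ut k l t hu, RR_gLc, map_add, map_smul]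
  congr 1
  exact st_comm' S (Skl_cS S k l C) t _

theorem J_Ut' {k l : Fin 9} (h : k ≠ l) {a b : Fin 9} (hab : a ≠ b) (hak : a ≠ k) (hal : a ≠ l) (hbk : b ≠ k)
    (hbl : b ≠ l) (t : ℝ) {u : Cfg d → F} (hu : Differentiable ℝ u) (x : Cfg d) :
    S.J a b (S.Ut k l t u) x = S.st k l t (S.J a b u (RR k l (-t) x)) := by
  rw [S.J_eq, S.J_eq, S.fderiv_Ut k l t hu, map_neg (RR k l (-t)), RR_LL' hak hal hbk hbl, map_add, map_smul]
  congr 1
  exact st_comm' S (Skl_Skl S h hab hak hal hbk hbl) t _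

end Vale.Agent.P353.Z.AH.Cir
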