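import Vale.Agent.P353.AN.H.Stmt
import Vale.Agent.P353.Z.RotD
import Vale.Agent.P353.Z.U.A1
import Vale.Agent.P353.Z.U.A2

/-! # P353, block H: rotated supercharges of the BMN deformation, invariance of the energy -/

open MeasureTheory Filter Topology
open scoped ContDiff Matrix

namespace Vale.Agent.P353.Z.AH.Cir

open Vale.Agent.P353.Z.Setup

variable {d : ℕ} {F : Type*} [NormedAddCommGroup F] [InnerProductSpace ℂ F]

/-- the weighted configuration -/
noncomputable def awx (x : Cfg d) : Cfg d := WithLp.toLp 2 fun p => aw p.1 * x p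

lemma aw_same {k l : Fin 9} (h : Same k l) : aw k = aw l := by
  have h2 := h.2
  unfold aw
  by_cases hk : k.val < 3
  · rw [if_pos hk, if_pos (h2.1 hk)]
  · rw [if_neg hk, if_neg (fun hl => hk (h2.2 hl))]

lemma awx_RR {k l : Fin 9} (h : Same k l) (t : ℝ) (y : Cfg d) :
    awx (RR k l t y) = RR k l t (awx y) := by
  have hk := aw_same h
  ext ⟨i, A⟩
  have e1 : ∀ (z : Cfg d) (j : Fin 9) (B : Fin d), awx z (j, B) = aw j * z (j, B) :=
    fun _ _ _ => rfl
  rw [e1, RR_apply, RR_apply, e1]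
  by_cases h1 : i = k
  · subst h1
    simp only [if_true, if_neg h.1, e1, hk]
    ring
  · by_cases h2 : i = l
    · subst h2
      simp only [if_true, if_neg h1, e1, hk]
      ring
    · simp only [if_neg h1, if_neg h2]
      ring

lemma PA_eq (S : Setup d F) (A : Fin d) (x : Cfg d) : S.PA_a1 A x = S.XB A (awx x) := rfl

lemma gt_Gam (S : Setup d F) {k l : Fin 9} (h : Same k l) (t : ℝ) :
    S.gt k l t * S.Gam = S.Gam * S.gt k l t := by
  simp only [gt, add_mul, mul_add, Matrix.smul_mul, Matrix.mul_smul, one_mul, mul_one,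
    S.Gam_comm_g2 h]

lemma PAG_RR (S : Setup d F) {k l : Fin 9} (h : Same k l) (t : ℝ) (A : Fin d) (y : Cfg d) :
    S.PA_a1 A (RR k l t y) * S.Gam * S.gt k l t = S.gt k l t * (S.PA_a1 A y * S.Gam) := by
  rw [mul_assoc, ← gt_Gam S h, ← mul_assoc, PA_eq, PA_eq, awx_RR h, S.XB_RR h.1, mul_assoc]

/-- unitarity of the spinor rotation -/
lemma gt_conj_mul (S : Setup d F) {k l : Fin 9} (h : k ≠ l) (t : ℝ) :
    (S.gt k l t)ᴴ * S.gt k l t = 1 := by
  have e1 : (S.gt k l t)ᴴ = (Real.cos (t / 2) : ℂ) • 1 - (Real.sin (t / 2) : ℂ) • S.g2 k l := by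
    rw [gt, Matrix.conjTranspose_add, Matrix.conjTranspose_smul, Matrix.conjTranspose_smul,
      Matrix.conjTranspose_one, U.a5_g2_conj S, Complex.star_def, Complex.conj_ofReal,
      Complex.conj_ofReal, smul_neg, sub_eq_add_neg]
  have hsc : (Real.cos (t / 2) : ℂ) ^ 2 + (Real.sin (t / 2) : ℂ) ^ 2 = 1 := by
    have := Real.cos_sq_add_sin_sq (t / 2)
    exact_mod_cast this
  rw [e1, gt]
  simp only [sub_mul, mul_add, Matrix.smul_mul, Matrix.mul_smul, one_mul, mul_one, S.g2_sq h]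
  linear_combination (norm := module) hsc • (1 : Matrix (Fin 16) (Fin 16) ℂ)

/-- a unitary matrix preserves the sum of the squares -/
lemma sum_sq_unitary (M : Matrix (Fin 16) (Fin 16) ℂ) (hM : Mᴴ * M = 1) (w : Fin 16 → F) :
    ∑ b, ‖∑ c, M b c • w c‖ ^ 2 = ∑ c, ‖w c‖ ^ 2 := by
  have h1 : ((∑ b, ‖∑ c, M b c • w c‖ ^ 2 : ℝ) : ℂ) = ((∑ c, ‖w c‖ ^ 2 : ℝ) : ℂ) := by
    have e : ∀ b, ((‖∑ c, M b c • w c‖ ^ 2 : ℝ) : ℂ) =
        ∑ c, ∑ c', (star (M b c) * M b c') * inner ℂ (w c) (w c') := by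
      intro b
      rw [Complex.ofReal_pow]
      have := inner_self_eq_norm_sq_to_K (𝕜 := ℂ) (∑ c, M b c • w c)
      rw [sum_inner] at this
      have h2 : ((‖∑ c, M b c • w c‖ : ℝ) : ℂ) ^ 2 =
          ∑ c, inner ℂ (M b c • w c) (∑ c, M b c • w c) := this.symm
      rw [h2]
      refine Finset.sum_congr rfl fun c _ => ?_
      rw [inner_sum]
      refine Finset.sum_congr rfl fun c' _ => ?_
      rw [inner_smul_left, inner_smul_right, ← mul_assoc]
      rfl
    rw [Complex.ofReal_sum]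
    simp only [e]
    rw [Finset.sum_comm]
    have e2 : ∀ c, ∑ b, ∑ c', (star (M b c) * M b c') * inner ℂ (w c) (w c') =
        ∑ c', (Mᴴ * M) c c' * inner ℂ (w c) (w c') := by
      intro c
      rw [Finset.sum_comm]
      refine Finset.sum_congr rfl fun c' _ => ?_
      rw [Matrix.mul_apply, Finset.sum_mul]
      rfl
    simp only [e2, hM, Matrix.one_apply, ite_mul, one_mul, zero_mul, Finset.sum_ite_eq,
      Finset.mem_univ, if_true]
    rw [Complex.ofReal_sum]
    refine Finset.sum_congr rfl fun c _ => ?_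
    rw [Complex.ofReal_pow]
    exact inner_self_eq_norm_sq_to_K (w c)
  exact_mod_cast h1

section
variable (S : Setup d F) [CompleteSpace F]

lemma MM_Ut {k l : Fin 9} (h : Same k l) (t : ℝ) (b : Fin 16) (y : Cfg d) (v : F) :
    S.MM b (RR k l t y) (S.st k l t v) = S.st k l t (∑ c, S.gt k l t b c • S.MM c y v) := by
  have happ : ∀ (P : Matrix (Fin 16) (Fin 16) ℂ) (A : Fin d) (v : F),
      S.vec P A b (S.st k l t v) = S.st k l t (S.vec (P * S.gt k l t) A b v) := by
    intro P A v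
    have := congrArg (fun T : F →L[ℂ] F => T v) (S.vec_mul_st h.1 P A b t)
    simpa [mul_apply_eq_comp] using this
  rw [S.MM_eq_a1, _root_.sum_apply]
  simp only [happ]
  rw [← map_sum]
  congr 1
  simp only [PAG_RR S h, S.vec_mul, S.MM_eq_a1, _root_.sum_apply, _root_.smul_apply,
    Finset.smul_sum]
  rw [Finset.sum_comm]

/-- covariance of the deformed supercharges -/
theorem Qm_Ut {k l : Fin 9} (h : Same k l) (t m : ℝ) (b : Fin 16) {u : Cfg d → F}
    (hu : Differentiable ℝ u) (x : Cfg d) :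
    S.Qm m b (S.Ut k l t u) x =
      S.st k l t (∑ c, S.gt k l t b c • S.Qm m c u (RR k l (-t) x)) := by
  have hx : x = RR k l t (RR k l (-t) x) := (RR_cancel_neg h.1 t x).symm
  have h1 := MM_Ut S h t b (RR k l (-t) x) (u (RR k l (-t) x))
  rw [← hx] at h1
  have h2 : S.Ut k l t u x = S.st k l t (u (RR k l (-t) x)) := rfl
  simp only [Qm]
  rw [S.Q_Ut h.1 t hu, h2, h1, ← map_smul, ← map_add]
  congr 1
  simp only [smul_add, Finset.sum_add_distrib, Finset.smul_sum]
  congr 1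
  refine Finset.sum_congr rfl fun c _ => ?_
  rw [smul_comm]

/-- the energy is invariant under the rotations -/
theorem en_Ut {k l : Fin 9} (h : Same k l) (t m : ℝ) {u : Cfg d → F} (hu : Setup.Tst u) :
    S.en m (S.Ut k l t u) = S.en m u := by
  have hd : Differentiable ℝ u := hu.1.differentiable (by simp)
  have h1 : ∀ v : Cfg d → F, Setup.Tst v → S.en m v = ∫ x, ∑ b, ‖S.Qm m b v x‖ ^ 2 := by
    intro v hv
    unfold Setup.en nsq
    rw [integral_finsetSum]
    intro b _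
    exact (U.HB.Tst_Qm S m b hv).norm_sq_int
  rw [h1 _ (hu.Ut S h.1 t), h1 u hu]
  have e : ∀ x, ∑ b, ‖S.Qm m b (S.Ut k l t u) x‖ ^ 2 =
      ∑ b, ‖S.Qm m b u (RR k l (-t) x)‖ ^ 2 := by
    intro x
    simp only [Qm_Ut S h t m _ hd x, S.st_norm]
    exact sum_sq_unitary _ (gt_conj_mul S h.1 t) _
  simp only [e]
  exact integral_comp_RR h.1 (-t) (fun x => ∑ b, ‖S.Qm m b u x‖ ^ 2)

end

end Vale.Agent.P353.Z.AH.Cir
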