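import Vale.Agent.P353.AN.H.S7a
import Vale.Agent.P353.Z.RotD

/-! # P353, all `N`, block H: averages of families of test functions over a compact probability space (helper973) -/

open MeasureTheory Filter Topology
open scoped ContDiff ComplexConjugate

namespace Vale.Agent.P353.Z.AH.Cir

variable {d : ℕ} {F : Type*} [NormedAddCommGroup F] [InnerProductSpace ℂ F]

lemma ipr_le {u v : Cfg d → F} (hu : Setup.Tst u) (hv : Setup.Tst v) :
    ‖ipr u v‖ ≤ Real.sqrt (nsq u) * Real.sqrt (nsq v) := by
  rw [← toL_inner hu hv]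
  refine (norm_inner_le_norm _ _).trans ?_
  rw [← toL_norm hu, ← toL_norm hv, Real.sqrt_sq (norm_nonneg _), Real.sqrt_sq (norm_nonneg _)]

lemma ipr_self' {f : Cfg d → F} (hf : Setup.Tst f) : ipr f f = ((nsq f : ℝ) : ℂ) := by
  rw [← toL_inner hf hf, inner_self_eq_norm_sq_to_K, ← toL_norm hf]
  norm_cast

variable {X : Type} [TopologicalSpace X] [CompactSpace X] [SecondCountableTopology X] [T2Space X]
  [MeasurableSpace X] [BorelSpace X] (μ : Measure X)

/-- a compactly supported continuous family is integrable on the product -/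
lemma fam_int [IsFiniteMeasure μ] {f : X → Cfg d → F} (hf : Continuous fun p : X × Cfg d => f p.1 p.2)
    {r : ℝ} (hr : ∀ a x, r < ‖x‖ → f a x = 0) {g : Cfg d → F} (hg : Continuous g) :
    Integrable (Function.uncurry fun (x : Cfg d) (a : X) => (inner ℂ (g x) (f a x) : ℂ)) (volume.prod μ) := by
  have hc : Continuous (Function.uncurry fun (x : Cfg d) (a : X) => (inner ℂ (g x) (f a x) : ℂ)) := by
    have h1 : Continuous fun p : Cfg d × X => f p.2 p.1 := hf.comp (continuous_snd.prodMk continuous_fst)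
    exact (hg.comp continuous_fst).inner h1
  refine hc.integrable_of_hasCompactSupport ?_
  refine HasCompactSupport.intro ((isCompact_closedBall (0 : Cfg d) r).prod (isCompact_univ (X := X))) ?_
  rintro ⟨x, a⟩ hx
  have h1 : r < ‖x‖ := by
    by_contra h
    exact hx ⟨by simpa using not_lt.mp h, Set.mem_univ _⟩
  simp only [Function.uncurry, hr a x h1, inner_zero_right]

lemma fam_cont {f : X → Cfg d → F} (hf : Continuous fun p : X × Cfg d => f p.1 p.2) (x : Cfg d) :
    Continuous fun a => f a x := hf.comp (continuous_id.prodMk continuous_const)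

lemma int_fam [IsFiniteMeasure μ] {G : Type*} [NormedAddCommGroup G] {f : X → G} (hf : Continuous f) :
    Integrable f μ :=
  hf.integrable_of_hasCompactSupport (HasCompactSupport.of_compactSpace f)

/-- pairing with an average -/
lemma pair_int [IsFiniteMeasure μ] [CompleteSpace F] {f : X → Cfg d → F}
    (hf : Continuous fun p : X × Cfg d => f p.1 p.2)
    {r : ℝ} (hr : ∀ a x, r < ‖x‖ → f a x = 0) {g : Cfg d → F} (hg : Continuous g) :
    ipr g (fun x => ∫ a, f a x ∂μ) = ∫ a, ipr g (f a) ∂μ := by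
  unfold ipr
  have h1 : ∀ x, (inner ℂ (g x) (∫ a, f a x ∂μ) : ℂ) = ∫ a, inner ℂ (g x) (f a x) ∂μ := by
    intro x
    exact (ContinuousLinearMap.integral_comp_comm (innerSL ℂ (g x)) (int_fam μ (fam_cont hf x))).symm
  simp only [h1]
  exact integral_integral_swap (fam_int μ hf hr hg)

/-- Jensen -/
lemma jensen [IsProbabilityMeasure μ] [CompleteSpace F] {κ : Type*} [Fintype κ] {f : κ → X → Cfg d → F}
    (hf : ∀ b, Continuous fun p : X × Cfg d => f b p.1 p.2)
    {r : ℝ} (hr : ∀ b a x, r < ‖x‖ → f b a x = 0) (hT : ∀ b a, Setup.Tst (f b a))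
    {g : κ → Cfg d → F} (hg : ∀ b x, g b x = ∫ a, f b a x ∂μ) (hgT : ∀ b, Setup.Tst (g b))
    {B : ℝ} (hB : ∀ a, ∑ b, nsq (f b a) ≤ B) : ∑ b, nsq (g b) ≤ B := by
  set G : ℝ := ∑ b, nsq (g b) with hG
  have hG0 : 0 ≤ G := Finset.sum_nonneg fun b _ => nsq_nonneg _
  have h1 : (G : ℂ) = ∫ a, ∑ b, ipr (g b) (f b a) ∂μ := by
    have h2 : ∀ b, ipr (g b) (g b) = ∫ a, ipr (g b) (f b a) ∂μ := by
      intro b
      rw [← pair_int μ (hf b) (hr b) (hgT b).1.continuous]
      congr 1
      funext x
      exact hg b x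
    have h3 : ∀ b, Integrable (fun a => ipr (g b) (f b a)) μ := by
      intro b
      exact (fam_int μ (hf b) (hr b) (hgT b).1.continuous).swap.integral_prod_left
    rw [integral_finsetSum _ fun b _ => h3 b, hG]
    push_cast
    refine Finset.sum_congr rfl fun b _ => ?_
    rw [← h2, ipr_self' (hgT b)]
  have h2 : ∀ a, ‖∑ b, ipr (g b) (f b a)‖ ≤ Real.sqrt G * Real.sqrt B := by
    intro a
    calc ‖∑ b, ipr (g b) (f b a)‖ ≤ ∑ b, Real.sqrt (nsq (g b)) * Real.sqrt (nsq (f b a)) :=
          norm_sum_le_of_le _ fun b _ => ipr_le (hgT b) (hT b a)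
      _ ≤ Real.sqrt (∑ b, nsq (g b)) * Real.sqrt (∑ b, nsq (f b a)) := by
          have h := Real.sum_sqrt_mul_sqrt_le (Finset.univ : Finset κ) (f := fun b => nsq (g b))
            (g := fun b => nsq (f b a)) (fun b => nsq_nonneg _) (fun b => nsq_nonneg _)
          exact h
      _ ≤ _ := mul_le_mul_of_nonneg_left (Real.sqrt_le_sqrt (hB a)) (Real.sqrt_nonneg _)
  have h3 : G ≤ Real.sqrt G * Real.sqrt B := by
    have h4 : ‖(G : ℂ)‖ ≤ Real.sqrt G * Real.sqrt B := by
      rw [h1]
      have h5 := norm_integral_le_of_norm_le_const (μ := μ) (Eventually.of_forall h2)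
      simpa using h5
    rwa [Complex.norm_real, Real.norm_eq_abs, abs_of_nonneg hG0] at h4
  rcases hG0.eq_or_lt with h | h
  · rw [← h]
    have : Nonempty X := by
      by_contra hX
      rw [not_nonempty_iff] at hX
      have h6 := measure_univ (μ := μ)
      rw [Measure.eq_zero_of_isEmpty μ] at h6
      simp at h6
    obtain ⟨a⟩ := this
    exact (Finset.sum_nonneg fun b _ => nsq_nonneg _).trans (hB a)
  · have h4 : Real.sqrt G ^ 2 = G := Real.sq_sqrt hG0
    have h5 : 0 < Real.sqrt G := Real.sqrt_pos.mpr h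
    have h6 : Real.sqrt G ≤ Real.sqrt B := by
      refine le_of_mul_le_mul_left (a := Real.sqrt G) ?_ h5
      rw [← sq, h4]
      exact h3
    by_contra h7
    push Not at h7
    have h8 : Real.sqrt B < Real.sqrt G := by
      rcases le_or_gt 0 B with hB0 | hB0
      · exact Real.sqrt_lt_sqrt hB0 h7
      · rw [Real.sqrt_eq_zero_of_nonpos hB0.le]
        exact h5
    linarith

end Vale.Agent.P353.Z.AH.Cir
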