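import Vale.Agent.P353.AN.H.CirD
import Vale.Agent.P353.AN.H.CirA
import Vale.Agent.P353.AN.H.CirB
import Vale.Agent.P353.AN.H.CirC
import Vale.Agent.P353.AN.G.SmInt

/-! # P353, all `N`, block H: average over a circle of rotations (helper973) -/

open MeasureTheory Filter Topology
open scoped ContDiff ComplexConjugate

namespace Vale.Agent.P353.Z.AH.Cir

universe w

variable {d : ℕ} {F : Type w} [NormedAddCommGroup F] [InnerProductSpace ℂ F]

lemma cont_RR (k l : Fin 9) : Continuous fun t : ℝ => (RR k l t : Cfg d →L[ℝ] Cfg d) := by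
  unfold RR
  exact (continuous_const.add ((Real.continuous_cos.sub continuous_const).smul continuous_const)).add
    (Real.continuous_sin.smul continuous_const)

variable (S : Setup d F) [CompleteSpace F]

lemma cont_st (k l : Fin 9) : Continuous (S.st k l) :=
  continuous_iff_continuousAt.mpr fun t => (S.hasDerivAt_st k l t).continuousAt

/-- joint continuity of rotated functions -/
lemma cont_Ut (k l : Fin 9) {u : Cfg d → F} (hu : Continuous u) :
    Continuous fun p : ℝ × Cfg d => S.Ut k l p.1 u p.2 := by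
  unfold Setup.Ut
  have h1 : Continuous fun p : ℝ × Cfg d => RR k l (-p.1) p.2 :=
    ((cont_RR k l).comp (continuous_neg.comp continuous_fst)).clm_apply continuous_snd
  exact ((cont_st S k l).comp continuous_fst).clm_apply (hu.comp h1)

lemma supp_Ut {k l : Fin 9} (h : k ≠ l) {u : Cfg d → F} {r : ℝ} (hr : ∀ x, r < ‖x‖ → u x = 0) (t : ℝ)
    (x : Cfg d) (hx : r < ‖x‖) : S.Ut k l t u x = 0 := by
  unfold Setup.Ut
  rw [hr _ (by rwa [RR_norm h]), map_zero]

lemma exists_r {u : Cfg d → F} (hu : Setup.Tst u) : ∃ r : ℝ, ∀ x, r < ‖x‖ → u x = 0 := by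
  obtain ⟨r, hr⟩ := hu.2.isBounded.subset_closedBall 0
  refine ⟨r, fun x hx => image_eq_zero_of_notMem_tsupport fun h => ?_⟩
  have := hr h
  rw [mem_closedBall_zero_iff] at this
  linarith

lemma nsq_Ut {k l : Fin 9} (h : k ≠ l) (t : ℝ) (u : Cfg d → F) : nsq (S.Ut k l t u) = nsq u :=
  S.integral_Ut' h t u

/-- the distance of `u` and its rotation -/
lemma diff_bound {k l : Fin 9} (h : k ≠ l) {u : Cfg d → F} (hu : Setup.Tst u) {t : ℝ} (ht : 0 ≤ t) :
    nsq (fun x => u x - S.Ut k l t u x) ≤ t ^ 2 * nsq (S.J k l u) := by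
  have hUt : Setup.Tst (S.Ut k l t u) := hu.Ut S h t
  set g : Cfg d → F := fun x => u x - S.Ut k l t u x with hg
  have hgT : Setup.Tst g := hu.sub hUt
  have hdiff : Differentiable ℝ u := hu.1.differentiable (by simp)
  set ψ : ℝ → ℂ := fun s => ∫ x, inner ℂ (g x) (S.Ut k l s u x) with hψ
  have hd : ∀ s, HasDerivAt ψ (∫ x, inner ℂ (g x) (Complex.I • S.J k l (S.Ut k l s u) x)) s := fun s =>
    S.hasDerivAt_integral_Ut h (hgT.1.continuous.locallyIntegrable) hu s
  have hJ : ∀ s, nsq (fun x => Complex.I • S.J k l (S.Ut k l s u) x) = nsq (S.J k l u) := by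
    intro s
    rw [nsq_csmul, Complex.norm_I, one_pow, one_mul]
    have h1 : S.J k l (S.Ut k l s u) = S.Ut k l s (S.J k l u) := by
      funext x
      rw [S.J_Ut h s hdiff]
      rfl
    rw [h1, nsq_Ut S h]
  have hb : ∀ s, ‖∫ x, inner ℂ (g x) (Complex.I • S.J k l (S.Ut k l s u) x)‖ ≤
      Real.sqrt (nsq g) * Real.sqrt (nsq (S.J k l u)) := by
    intro s
    have hT : Setup.Tst (fun x => Complex.I • S.J k l (S.Ut k l s u) x) :=
      U.HB.Tst_csmul Complex.I ((hu.Ut S h s).J S k l)
    have h1 := ipr_le hgT hT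
    rw [hJ s] at h1
    exact h1
  have hmv : ‖ψ t - ψ 0‖ ≤ Real.sqrt (nsq g) * Real.sqrt (nsq (S.J k l u)) * ‖t - 0‖ :=
    Convex.norm_image_sub_le_of_norm_hasDerivWithin_le (fun s _ => (hd s).hasDerivWithinAt)
      (fun s _ => hb s) convex_univ (Set.mem_univ _) (Set.mem_univ _)
  have h0 : ψ 0 = ∫ x, inner ℂ (g x) (u x) := by
    simp only [hψ]
    congr 1
    funext x
    simp only [Setup.Ut, S.st_zero, neg_zero, RR_zero]
    rfl
  have h1 : ψ 0 - ψ t = ipr g g := by
    rw [h0]
    simp only [hψ]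
    rw [← integral_sub (hgT.inner_int hu.1.continuous) (hgT.inner_int hUt.1.continuous)]
    unfold ipr
    congr 1
    funext x
    rw [hg]
    simp only [inner_sub_right]
  rw [sub_zero, Real.norm_eq_abs, abs_of_nonneg ht, norm_sub_rev, h1, ipr_self' hgT, Complex.norm_real,
    Real.norm_eq_abs, abs_of_nonneg (nsq_nonneg g)] at hmv
  rcases (nsq_nonneg g).eq_or_lt with h2 | h2
  · rw [← h2]
    have := nsq_nonneg (S.J k l u)
    positivity
  · have h3 : Real.sqrt (nsq g) ^ 2 = nsq g := Real.sq_sqrt (nsq_nonneg g)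
    have h4 : 0 < Real.sqrt (nsq g) := Real.sqrt_pos.mpr h2
    have h5 : Real.sqrt (nsq g) ≤ t * Real.sqrt (nsq (S.J k l u)) := by
      refine le_of_mul_le_mul_left (a := Real.sqrt (nsq g)) ?_ h4
      rw [← sq, h3]
      linarith
    calc nsq g = Real.sqrt (nsq g) ^ 2 := h3.symm
      _ ≤ (t * Real.sqrt (nsq (S.J k l u))) ^ 2 := by gcongr
      _ = _ := by rw [mul_pow, Real.sq_sqrt (nsq_nonneg _)]

/-- the average over the rotations by `T s`, `s ∈ [0,1]` -/
noncomputable def cav (k l : Fin 9) (T : ℝ) (u : Cfg d → F) (x : Cfg d) : F :=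
  ∫ s : unitInterval, S.Ut k l (T * s) u x

lemma cont_fam (k l : Fin 9) (T : ℝ) {u : Cfg d → F} (hu : Continuous u) :
    Continuous fun p : unitInterval × Cfg d => S.Ut k l (T * p.1) u p.2 := by
  have h1 := cont_Ut S k l hu
  exact h1.comp ((continuous_const.mul (continuous_subtype_val.comp continuous_fst)).prodMk continuous_snd)

/-- smoothness of the average and its derivative -/
lemma cav_smooth [FiniteDimensional ℂ F] (k l : Fin 9) (T : ℝ) {u : Cfg d → F} (hu : ContDiff ℝ ∞ u) :
    ContDiff ℝ ∞ (cav S k l T u) ∧ ∀ x w, fderiv ℝ (cav S k l T u) x w =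
      ∫ s : unitInterval, fderiv ℝ (S.Ut k l (T * s) u) x w := by
  have hfd : FiniteDimensional ℝ F := FiniteDimensional.complexToReal F
  have h := AN.G.smInt unitInterval (Cfg d) (volume : Measure unitInterval)
    (fun s => RR k l (-(T * s)))
    ((cont_RR k l).comp (continuous_neg.comp (continuous_const.mul continuous_subtype_val)))
    F F (fun s => (S.st k l (T * s)).restrictScalars ℝ) (by
      have h1 : Continuous fun s : unitInterval => S.st k l (T * s) :=
        (cont_st S k l).comp (continuous_const.mul continuous_subtype_val)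
      refine continuous_clm_apply.2 fun v => ?_
      exact h1.clm_apply continuous_const) u hu
  refine ⟨h.1, fun x w => ?_⟩
  have h2 := h.2 x w
  refine h2.trans ?_
  refine integral_congr_ae (Eventually.of_forall fun s => ?_)
  exact (S.fderiv_Ut k l (T * s) (hu.differentiable (by simp)) x w).symm

lemma cav_Tst [FiniteDimensional ℂ F] {k l : Fin 9} (h : k ≠ l) (T : ℝ) {u : Cfg d → F} (hu : Setup.Tst u) :
    Setup.Tst (cav S k l T u) := by
  refine ⟨(cav_smooth S k l T hu.1).1, ?_⟩
  obtain ⟨r, hr⟩ := exists_r hu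
  refine HasCompactSupport.intro (isCompact_closedBall (0 : Cfg d) r) fun x hx => ?_
  have h1 : r < ‖x‖ := by
    rw [mem_closedBall_zero_iff] at hx
    exact not_le.mp hx
  unfold cav
  simp only [supp_Ut S h hr _ x h1, integral_zero]

/-- first order operators commute with the average -/
lemma op_cav [FiniteDimensional ℂ F] (k l : Fin 9) (T : ℝ) {u : Cfg d → F} (hu : ContDiff ℝ ∞ u)
    (c : Fin 9 → Fin d → F →L[ℂ] F) (c0 : F →L[ℂ] F) (x : Cfg d) :
    (∑ i, ∑ A, c i A (pd i A (cav S k l T u) x)) + c0 (cav S k l T u x) =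
      ∫ s : unitInterval, ((∑ i, ∑ A, c i A (pd i A (S.Ut k l (T * s) u) x)) + c0 (S.Ut k l (T * s) u x)) := by
  have hfd : FiniteDimensional ℝ F := FiniteDimensional.complexToReal F
  have hdiff : Differentiable ℝ u := hu.differentiable (by simp)
  have hfc : ∀ w, Continuous fun s : unitInterval => fderiv ℝ (S.Ut k l (T * s) u) x w := by
    intro w
    simp only [S.fderiv_Ut k l _ hdiff]
    have h1 : Continuous fun s : unitInterval => (RR k l (-(T * s)) : Cfg d →L[ℝ] Cfg d) :=
      (cont_RR k l).comp (continuous_neg.comp (continuous_const.mul continuous_subtype_val))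
    have h2 : Continuous fun s : unitInterval => S.st k l (T * s) :=
      (cont_st S k l).comp (continuous_const.mul continuous_subtype_val)
    have h3 : Continuous (fderiv ℝ u) := hu.continuous_fderiv (by simp)
    exact h2.clm_apply ((h3.comp (h1.clm_apply continuous_const)).clm_apply (h1.clm_apply continuous_const))
  have hc0 : Continuous fun s : unitInterval => S.Ut k l (T * s) u x :=
    fam_cont (cont_fam S k l T hu.continuous) x
  have h2 : ∀ i A, Continuous fun s : unitInterval => c i A (pd i A (S.Ut k l (T * s) u) x) := fun i A =>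
    (c i A).continuous.comp (hfc _)
  have h3 : Continuous fun s : unitInterval => c0 (S.Ut k l (T * s) u x) := c0.continuous.comp hc0
  rw [integral_add (int_fam _ (continuous_finsetSum _ fun i _ =>
    continuous_finsetSum _ fun A _ => h2 i A)) (int_fam _ h3),
    integral_finsetSum _ fun i _ => int_fam _ (continuous_finsetSum _ fun A _ => h2 i A)]
  congr 1
  · refine Finset.sum_congr rfl fun i _ => ?_
    rw [integral_finsetSum _ fun A _ => int_fam _ (h2 i A)]
    refine Finset.sum_congr rfl fun A _ => ?_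
    have h4 := ContinuousLinearMap.integral_comp_comm (c i A)
      (int_fam (volume : Measure unitInterval) (hfc (EuclideanSpace.single (i, A) 1)))
    rw [← (cav_smooth S k l T hu).2 x _] at h4
    exact h4.symm
  · rw [ContinuousLinearMap.integral_comp_comm c0 (int_fam _ hc0)]
    rfl

lemma Qm_eq' (m : ℝ) (β : Fin 16) (u : Cfg d → F) (x : Cfg d) :
    S.Qm m β u x = (∑ i, ∑ A, ((-Complex.I) • S.vec (S.g i) A β) (pd i A u x)) +
      (S.W β x + (m : ℂ) • S.MM β x) (u x) := by
  simp only [Setup.Qm, Setup.Q, _root_.smul_apply, _root_.add_apply, Finset.smul_sum]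
  abel

lemma J_eq' (k l : Fin 9) (u : Cfg d → F) (x : Cfg d) :
    S.J k l u x = (∑ i, ∑ A, ((-Complex.I * ((if i = l then (x (k, A) : ℂ) else 0) -
      (if i = k then (x (l, A) : ℂ) else 0))) • (1 : F →L[ℂ] F)) (pd i A u x)) +
      S.Skl k l (u x) := by
  rw [Finset.sum_comm]
  have h : ∀ (c : ℂ) (w : F), (c • (1 : F →L[ℂ] F)) w = c • w := fun c w => rfl
  simp only [Setup.J, h]
  simp only [mul_smul, sub_smul,
    Finset.smul_sum, Finset.sum_sub_distrib, ite_smul, zero_smul, smul_sub, smul_ite, smul_zero,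
    Finset.sum_ite_eq', Finset.mem_univ, if_true]

lemma G_eq' (C : Fin d) (u : Cfg d → F) (x : Cfg d) :
    S.G C u x = (∑ i, ∑ A, ((-Complex.I * ∑ B, (S.f C B A : ℂ) * (x (i, B) : ℂ)) • (1 : F →L[ℂ] F))
      (pd i A u x)) + S.cS C (u x) := by
  have h : ∀ (c : ℂ) (w : F), (c • (1 : F →L[ℂ] F)) w = c • w := fun c w => rfl
  simp only [Setup.G, h]
  congr 1
  rw [Finset.smul_sum]
  refine Finset.sum_congr rfl fun i _ => ?_
  rw [Finset.sum_comm, Finset.smul_sum]
  refine Finset.sum_congr rfl fun A _ => ?_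
  rw [mul_smul, Finset.sum_smul]

lemma Qm_cav [FiniteDimensional ℂ F] (k l : Fin 9) (T m : ℝ) (β : Fin 16) {u : Cfg d → F}
    (hu : ContDiff ℝ ∞ u) (x : Cfg d) :
    S.Qm m β (cav S k l T u) x = ∫ s : unitInterval, S.Qm m β (S.Ut k l (T * s) u) x := by
  rw [Qm_eq', op_cav S k l T hu]
  exact integral_congr_ae (Eventually.of_forall fun s => (Qm_eq' S m β _ x).symm)

lemma J_cav [FiniteDimensional ℂ F] (k l : Fin 9) (T : ℝ) (a b : Fin 9) {u : Cfg d → F}
    (hu : ContDiff ℝ ∞ u) (x : Cfg d) :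
    S.J a b (cav S k l T u) x = ∫ s : unitInterval, S.J a b (S.Ut k l (T * s) u) x := by
  rw [J_eq', op_cav S k l T hu]
  exact integral_congr_ae (Eventually.of_forall fun s => (J_eq' S a b _ x).symm)

lemma G_cav [FiniteDimensional ℂ F] (k l : Fin 9) (T : ℝ) (C : Fin d) {u : Cfg d → F}
    (hu : ContDiff ℝ ∞ u) (x : Cfg d) :
    S.G C (cav S k l T u) x = ∫ s : unitInterval, S.G C (S.Ut k l (T * s) u) x := by
  rw [G_eq', op_cav S k l T hu]
  exact integral_congr_ae (Eventually.of_forall fun s => (G_eq' S C _ x).symm)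

end Vale.Agent.P353.Z.AH.Cir
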