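import Vale.Agent.P353.Z.U.QmBase
import Vale.Agent.P353.Z.U.StmtD
import Vale.Agent.P353.Z.U.A5

/-! # P353, all `N`, block H (counting): definitions

`InvP P` = gauge invariant test functions that are also invariant under the rotations in the planes `P k l`.
`P = pl0` (empty): `GInv`. `P = plT`: the four commuting planes `(1,2),(3,4),(5,6),(7,8)`. `P = Same`: the library's `Inv`. -/

open MeasureTheory Filter Topology
open scoped ContDiff

namespace Vale.Agent.P353.Z

variable {d : ℕ} {F : Type*} [NormedAddCommGroup F] [InnerProductSpace ℂ F]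

/-- the four commuting planes (ordered pairs) -/
def plT (k l : Fin 9) : Prop := k ≠ 0 ∧ l = U.pt k

/-- the `L²` pairing -/
noncomputable def ipr (f g : Cfg d → F) : ℂ := ∫ x, inner ℂ (f x) (g x)

namespace Setup

variable (S : Setup d F)

/-- gauge invariant test functions, invariant under the rotations in the planes `P` -/
def InvP (P : Fin 9 → Fin 9 → Prop) (u : Cfg d → F) : Prop :=
  Tst u ∧ (∀ C x, S.G C u x = 0) ∧ ∀ k l, P k l → ∀ x, S.J k l u x = 0

/-- gauge invariant test functions -/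
def GInv (u : Cfg d → F) : Prop := Tst u ∧ ∀ C x, S.G C u x = 0

/-- `k` dimensional low energy space of `InvP P` functions -/
def LowP (P : Fin 9 → Fin 9 → Prop) (k : ℕ) (m c : ℝ) : Prop :=
  ∃ u : Fin k → Cfg d → F, (∀ j, S.InvP P (u j)) ∧ ∀ a : Fin k → ℂ, a ≠ 0 →
    ∑ β, nsq (S.Qm m β (fun x => ∑ j, a j • u j x)) < c * nsq (fun x => ∑ j, a j • u j x)

/-- energy `∑_β ‖Q_β u‖²` -/
noncomputable def en (m : ℝ) (u : Cfg d → F) : ℝ := ∑ β, nsq (S.Qm m β u)

end Setup

/-- **Profile system** at infinity: for every cluster type `i` (a partition of `N` with at least two parts) a Hilbert space `H i` of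
profiles (`L²` functions on `ℝ^9 ⊗ 𝔷` with values in the fibre, symmetric under the exchange of equal blocks), a dense submodule `D i` of
test profiles (smooth, supported off the collisions), the free BMN supercharges `Ds i β` of mass `1`, the ground state `g i`
(Gaussian times vacuum vector) and the trial map `J i R a ∈ GInv` at scale `R = m^{-1/2}` (defined for `R ≥ R₀(a)`).
No linearity of `J i R` is required: it follows asymptotically from `gram`. -/
structure Prof {d : ℕ} {F : Type*} [NormedAddCommGroup F] [InnerProductSpace ℂ F] (S : Setup d F) (ι : Type) where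
  H : ι → Type
  [ng : ∀ i, NormedAddCommGroup (H i)]
  [ips : ∀ i, InnerProductSpace ℂ (H i)]
  [cs : ∀ i, CompleteSpace (H i)]
  D : ∀ i, Submodule ℂ (H i)
  Ds : ∀ i, Fin 16 → D i → D i
  g : ∀ i, H i
  J : ∀ i, ℝ → D i → Cfg d → F
  dense : ∀ i, Dense (D i : Set (H i))
  g_norm : ∀ i, ‖g i‖ = 1
  /-- (F) the ground state is a zero mode, weakly off the collisions -/
  Ds_g : ∀ i β (a : D i), inner ℂ (Ds i β a : H i) (g i) = 0
  /-- (F) the weak joint kernel is spanned by the ground state -/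
  ker : ∀ i (w : H i), (∀ β (a : D i), inner ℂ (Ds i β a : H i) w = 0) → ∃ c : ℂ, w = c • g i
  /-- (F) resolvent equation: `D_β w = v_β`, `∑_β D_β v_β = 16 (s - w)` weakly off the collisions give `‖w‖ ≤ ‖s‖` -/
  res : ∀ i (w s : H i) (v : Fin 16 → H i),
    (∀ β (a : D i), inner ℂ (Ds i β a : H i) w = inner ℂ (a : H i) (v β)) →
    (∀ a : D i, ∑ β, inner ℂ (Ds i β a : H i) (v β) = 16 * inner ℂ (a : H i) (s - w)) → ‖w‖ ≤ ‖s‖
  /-- the trial functions are gauge invariant test functions -/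
  J_inv : ∀ i (a : D i), ∀ᶠ R in atTop, S.GInv (J i R a)
  /-- they live at distances of order `R` -/
  J_supp : ∀ i (a : D i), ∃ c : ℝ, 0 < c ∧ ∀ᶠ R in atTop, ∀ x : Cfg d, ‖x‖ ≤ c * R → J i R a x = 0
  /-- (J1) asymptotic isometry -/
  gram : ∀ i (a b : D i), Tendsto (fun R => ipr (J i R a) (J i R b)) atTop (𝓝 (inner ℂ (a : H i) (b : H i)))
  /-- (J2) different types are asymptotically orthogonal -/
  orth : ∀ i j, i ≠ j → ∀ (a : D i) (b : D j), Tendsto (fun R => ipr (J i R a) (J j R b)) atTop (𝓝 0)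

attribute [instance] Prof.ng Prof.ips Prof.cs

namespace Prof

variable {S : Setup d F} {ι : Type} (P : Prof S ι)

/-- bounded sequences at scale `R n → ∞` (mass `m = R^{-2}`) -/
structure Bdd (S : Setup d F) (R : ℕ → ℝ) (Ψ : ℕ → Cfg d → F) (C : ℝ) : Prop where
  R_lim : Tendsto R atTop atTop
  inv : ∀ n, S.GInv (Ψ n)
  norm : ∀ n, nsq (Ψ n) ≤ C
  energy : ∀ n, R n ^ 2 * S.en ((R n)⁻¹ ^ 2) (Ψ n) ≤ C

/-- **(E) limit equation**: `⟨J_R a, R Q_β Ψ_R⟩ - ⟨J_R (D_β a), Ψ_R⟩ → 0` for bounded sequences -/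
def LimEq : Prop := ∀ (R : ℕ → ℝ) (Ψ : ℕ → Cfg d → F) (C : ℝ), Bdd S R Ψ C → ∀ i β (a : P.D i),
  Tendsto (fun n => (R n : ℂ) * ipr (P.J i (R n) a) (S.Qm ((R n)⁻¹ ^ 2) β (Ψ n)) -
    ipr (P.J i (R n) (P.Ds i β a)) (Ψ n)) atTop (𝓝 0)

/-- **(NL) no loss**: a bounded sequence (tight at scale `R` because of the mass terms) without profiles at scale `R` and without local
limit tends to `0` -/
def NoLoss : Prop := ∀ (R : ℕ → ℝ) (Ψ : ℕ → Cfg d → F) (C : ℝ), Bdd S R Ψ C →
  (∀ i (a : P.D i), Tendsto (fun n => ipr (P.J i (R n) a) (Ψ n)) atTop (𝓝 0)) →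
  (∀ ζ : Cfg d → F, Setup.Tst ζ → Tendsto (fun n => ipr ζ (Ψ n)) atTop (𝓝 0)) →
  Tendsto (fun n => nsq (Ψ n)) atTop (𝓝 0)

end Prof

end Vale.Agent.P353.Z
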