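import Vale.Agent.P353.AN.H.Stmt
import Vale.Agent.P353.Z.U.ThmB2

/-! # P353, all `N`, block H: profiles along an ultrafilter (helper973) -/

open MeasureTheory Filter Topology
open scoped ContDiff ComplexConjugate

namespace Vale.Agent.P353.Z.AH

section abs

variable {H : Type*} [NormedAddCommGroup H] [InnerProductSpace ℂ H]
variable {L : Type*} [NormedAddCommGroup L] [InnerProductSpace ℂ L]

/-- asymptotic isometry on finite combinations -/
lemma comb {D : Submodule ℂ H} {J : ℕ → D → L}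
    (hJ : ∀ a b : D, Tendsto (fun n => inner ℂ (J n a) (J n b)) atTop (𝓝 (inner ℂ (a : H) (b : H))))
    {κ : Type*} [Fintype κ] (c : κ → ℂ) (a : κ → D) :
    Tendsto (fun n => ‖∑ k, c k • J n (a k)‖ ^ 2) atTop (𝓝 (‖∑ k, c k • (a k : H)‖ ^ 2)) := by
  have e1 : ∀ n, ‖∑ k, c k • J n (a k)‖ ^ 2 =
      (∑ k, ∑ l, c l * (conj (c k) * inner ℂ (J n (a k)) (J n (a l)))).re := by
    intro n
    rw [← inner_self_eq_norm_sq (𝕜 := ℂ), sum_inner]
    simp only [inner_sum, inner_smul_left, inner_smul_right]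
    rfl
  have e2 : ‖∑ k, c k • (a k : H)‖ ^ 2 =
      (∑ k, ∑ l, c l * (conj (c k) * inner ℂ (a k : H) (a l : H))).re := by
    rw [← inner_self_eq_norm_sq (𝕜 := ℂ), sum_inner]
    simp only [inner_sum, inner_smul_left, inner_smul_right]
    rfl
  simp only [e1]
  rw [e2]
  refine (Complex.continuous_re.tendsto _).comp ?_
  exact tendsto_finsetSum _ fun k _ => tendsto_finsetSum _ fun l _ =>
    ((hJ (a k) (a l)).const_mul _).const_mul _

/-- profile of a bounded sequence along an ultrafilter -/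
lemma profile [CompleteSpace H] {D : Submodule ℂ H} {J : ℕ → D → L}
    (hJ : ∀ a b : D, Tendsto (fun n => inner ℂ (J n a) (J n b)) atTop (𝓝 (inner ℂ (a : H) (b : H))))
    (U : Ultrafilter ℕ) (hU : (U : Filter ℕ) ≤ atTop) {Ψ : ℕ → L} {C : ℝ} (hC : 0 ≤ C)
    (hΨ : ∀ n, ‖Ψ n‖ ≤ C) :
    ∃ W : H, ‖W‖ ≤ C ∧ ∀ a : D, Tendsto (fun n => inner ℂ (J n a) (Ψ n)) U (𝓝 (inner ℂ (a : H) W)) := by
  have hn : ∀ a : D, Tendsto (fun n => ‖J n a‖) atTop (𝓝 ‖(a : H)‖) := by
    intro a
    have h := comb hJ (κ := Unit) (fun _ => 1) (fun _ => a)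
    simp only [Finset.univ_unique, Finset.sum_singleton, one_smul] at h
    have h2 := (Real.continuous_sqrt.tendsto _).comp h
    simpa [Function.comp_def, Real.sqrt_sq (norm_nonneg _)] using h2
  have hb : ∀ (a : D) n, ‖inner ℂ (J n a) (Ψ n)‖ ≤ ‖J n a‖ * C := fun a n =>
    (norm_inner_le_norm _ _).trans (mul_le_mul_of_nonneg_left (hΨ n) (norm_nonneg _))
  have hlim : ∀ a : D, ∃ z : ℂ, Tendsto (fun n => inner ℂ (J n a) (Ψ n)) U (𝓝 z) := by
    intro a
    have hev : ∀ᶠ n in (U : Filter ℕ), inner ℂ (J n a) (Ψ n) ∈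
        Metric.closedBall (0 : ℂ) ((‖(a : H)‖ + 1) * C) := by
      have h1 : ∀ᶠ n in atTop, ‖J n a‖ < ‖(a : H)‖ + 1 :=
        (hn a).eventually_lt_const (by linarith)
      filter_upwards [hU h1] with n h
      rw [mem_closedBall_zero_iff]
      exact (hb a n).trans (mul_le_mul_of_nonneg_right h.le hC)
    obtain ⟨z, _, hz⟩ := (isCompact_closedBall (0 : ℂ) ((‖(a : H)‖ + 1) * C)).ultrafilter_le_nhds
      (U.map fun n => inner ℂ (J n a) (Ψ n)) (by
        rw [Ultrafilter.coe_map, le_principal_iff, mem_map]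
        exact hev)
    exact ⟨z, hz⟩
  choose z hz using hlim
  have hcomb : ∀ {κ : Type} [Fintype κ] (c : κ → ℂ) (a : κ → D), ∑ k, c k • (a k : H) = 0 →
      ∑ k, conj (c k) * z (a k) = 0 := by
    intro κ _ c a h0
    have h1 : Tendsto (fun n => ∑ k, conj (c k) * inner ℂ (J n (a k)) (Ψ n)) U
        (𝓝 (∑ k, conj (c k) * z (a k))) :=
      tendsto_finsetSum _ fun k _ => (hz (a k)).const_mul _
    have h2 : Tendsto (fun n => ∑ k, conj (c k) * inner ℂ (J n (a k)) (Ψ n)) U (𝓝 0) := by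
      have h3 := comb hJ c a
      rw [h0, norm_zero] at h3
      have h4 := (Real.continuous_sqrt.tendsto _).comp h3
      have h5 : Tendsto (fun n => ‖∑ k, c k • J n (a k)‖ * C) atTop (𝓝 0) := by
        have h6 : Tendsto (fun n => ‖∑ k, c k • J n (a k)‖) atTop (𝓝 0) := by
          simpa [Function.comp_def, Real.sqrt_sq (norm_nonneg _)] using h4
        simpa using h6.mul_const C
      refine squeeze_zero_norm (fun n => ?_) (h5.mono_left hU)
      have e : ∑ k, conj (c k) * inner ℂ (J n (a k)) (Ψ n) =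
          inner ℂ (∑ k, c k • J n (a k)) (Ψ n) := by
        rw [sum_inner]
        exact Finset.sum_congr rfl fun k _ => (inner_smul_left _ _ _).symm
      rw [e]
      exact (norm_inner_le_norm _ _).trans (mul_le_mul_of_nonneg_left (hΨ n) (norm_nonneg _))
    exact tendsto_nhds_unique h1 h2
  have hadd : ∀ a b : D, z (a + b) = z a + z b := by
    intro a b
    have h := hcomb (κ := Fin 3) ![1, -1, -1] ![a + b, a, b] (by
      simp [Fin.sum_univ_three])
    simp [Fin.sum_univ_three] at h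
    linear_combination h
  have hsm : ∀ (c : ℂ) (a : D), z (c • a) = conj c * z a := by
    intro c a
    have h := hcomb (κ := Fin 2) ![1, -c] ![c • a, a] (by
      simp [Fin.sum_univ_two])
    simp [Fin.sum_univ_two] at h
    linear_combination h
  have hzb : ∀ a : D, ‖z a‖ ≤ C * ‖a‖ := by
    intro a
    have h1 : Tendsto (fun n => ‖J n a‖ * C) U (𝓝 (‖(a : H)‖ * C)) :=
      ((hn a).mul_const C).mono_left hU
    have h2 := le_of_tendsto_of_tendsto' (hz a).norm h1 (hb a)
    rw [mul_comm]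
    exact h2
  let f : D →ₗ[ℂ] ℂ :=
    { toFun := fun a => conj (z a)
      map_add' := fun a b => by rw [hadd, map_add]
      map_smul' := fun c a => by
        rw [hsm, map_mul, Complex.conj_conj]
        rfl }
  let f' : D →L[ℂ] ℂ := f.mkContinuous C fun a => by
    change ‖conj (z a)‖ ≤ C * ‖a‖
    rw [RCLike.norm_conj]
    exact hzb a
  obtain ⟨g, hg, hgn⟩ := exists_extension_norm_eq D f'
  refine ⟨(InnerProductSpace.toDual ℂ H).symm g, ?_, fun a => ?_⟩
  · rw [LinearIsometryEquiv.norm_map, hgn]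
    exact LinearMap.mkContinuous_norm_le _ hC _
  · have h1 : inner ℂ (a : H) ((InnerProductSpace.toDual ℂ H).symm g) = z a := by
      rw [← inner_conj_symm, InnerProductSpace.toDual_symm_apply, hg a]
      change conj (conj (z a)) = z a
      exact Complex.conj_conj _
    rw [h1]
    exact hz a

end abs

end Vale.Agent.P353.Z.AH
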