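import Vale.Agent.P353.AN.H.S7

/-! # P353, all `N`, block H: theorem S6 (existence, helper973) -/

open MeasureTheory Filter Topology
open scoped ContDiff ComplexConjugate

namespace Vale.Agent.P353.Z.AH

variable {d : ℕ} {F : Type*} [NormedAddCommGroup F] [InnerProductSpace ℂ F]
variable {S : Setup d F} {ι : Type} (P : Prof S ι)

lemma Inv_GInv {u : Cfg d → F} (hu : S.Inv u) : S.GInv u := ⟨hu.1, hu.2.1⟩

lemma norm_sub_sq_re' {H : Type*} [NormedAddCommGroup H] [InnerProductSpace ℂ H] (x y : H) :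
    ‖x - y‖ ^ 2 = ((inner ℂ x x : ℂ) - inner ℂ x y - inner ℂ y x + inner ℂ y y).re := by
  have h : (inner ℂ (x - y) (x - y) : ℂ).re = ‖x - y‖ ^ 2 := inner_self_eq_norm_sq (𝕜 := ℂ) _
  rw [← h]
  congr 1
  simp only [inner_sub_left, inner_sub_right]
  ring

/-- a nonzero combination orthogonal to `card ι` vectors -/
lemma exists_orth {L : Type*} [NormedAddCommGroup L] [InnerProductSpace ℂ L] [Fintype ι]
    (y : ι → L) (z : Fin (Fintype.card ι + 1) → L) :
    ∃ c : Fin (Fintype.card ι + 1) → ℂ, c ≠ 0 ∧ ∀ i, inner ℂ (y i) (∑ k, c k • z k) = 0 := by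
  let T : (Fin (Fintype.card ι + 1) → ℂ) →ₗ[ℂ] (ι → ℂ) :=
    { toFun := fun c i => inner ℂ (y i) (∑ k, c k • z k)
      map_add' := fun c c' => by
        funext i
        simp only [Pi.add_apply, add_smul, Finset.sum_add_distrib, inner_add_right]
      map_smul' := fun r c => by
        funext i
        simp only [Pi.smul_apply, smul_eq_mul, RingHom.id_apply, mul_smul]
        rw [← Finset.smul_sum, inner_smul_right] }
  have hT : LinearMap.ker T ≠ ⊥ := by
    intro h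
    have h1 := LinearMap.finrank_le_finrank_of_injective (LinearMap.ker_eq_bot.mp h)
    simp at h1
  obtain ⟨c, hc, hc0⟩ := (Submodule.ne_bot_iff _).mp hT
  refine ⟨c, hc0, fun i => ?_⟩
  exact congrFun (LinearMap.mem_ker.mp hc) i

/-- the vectors used in S6 -/
lemma vec [Fintype ι] (hL : ∀ m : ℝ, 0 < m → ∀ c : ℝ, 0 < c → S.Low (Fintype.card ι + 1) m c)
    (y : ι → Lp F 2 (volume : Measure (Cfg d))) {m c : ℝ} (hm : 0 < m) (hc : 0 < c) :
    ∃ (u : Cfg d → F) (hu : S.Inv u), nsq u = 1 ∧ S.en m u ≤ c ∧ ∀ i, inner ℂ (y i) (U.HB.toL hu.1) = 0 := by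
  obtain ⟨z, hz, hlow⟩ := hL m hm c hc
  obtain ⟨a, ha, horth⟩ := exists_orth y fun k => U.HB.toL (hz k).1
  set v : Cfg d → F := fun x => ∑ j, a j • z j x with hv
  have hvi : S.Inv v := U.HB.Inv_sum S Finset.univ a hz
  have h1 : S.en m v < c * nsq v := hlow a ha
  have hn : 0 < nsq v := by
    by_contra h
    have h2 : nsq v = 0 := le_antisymm (not_lt.mp h) (nsq_nonneg v)
    rw [h2, mul_zero] at h1
    exact absurd h1 (not_lt.mpr (en_nonneg m v))
  set r : ℝ := (Real.sqrt (nsq v))⁻¹ with hr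
  have hr2 : ‖((r : ℝ) : ℂ)‖ ^ 2 = (nsq v)⁻¹ := by
    rw [Complex.norm_real, Real.norm_eq_abs, sq_abs, hr, inv_pow, Real.sq_sqrt hn.le]
  refine ⟨fun x => ((r : ℝ) : ℂ) • v x, U.HB.Inv_csmul S _ hvi, ?_, ?_, fun i => ?_⟩
  · rw [nsq_csmul, hr2, inv_mul_cancel₀ hn.ne']
  · rw [en_csmul m _ hvi.1, hr2, inv_mul_le_iff₀ hn, mul_comm]
    exact h1.le
  · have h3 : U.HB.toL (U.HB.Inv_csmul S ((r : ℝ) : ℂ) hvi).1 =
        ((r : ℝ) : ℂ) • ∑ k, a k • U.HB.toL (hz k).1 := by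
      have h4 : ∀ s : Finset (Fin (Fintype.card ι + 1)),
          (∑ k ∈ s, a k • U.HB.toL (hz k).1 : Lp F 2 (volume : Measure (Cfg d))) =ᵐ[volume]
          fun x => ∑ k ∈ s, a k • z k x := by
        intro s
        classical
        induction s using Finset.induction_on with
        | empty =>
          simp only [Finset.sum_empty]
          exact Lp.coeFn_zero F 2 (volume : Measure (Cfg d))
        | insert b s hb ih =>
          rw [Finset.sum_insert hb]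
          filter_upwards [ih, Lp.coeFn_add (a b • U.HB.toL (hz b).1) (∑ k ∈ s, a k • U.HB.toL (hz k).1),
            Lp.coeFn_smul (a b) (U.HB.toL (hz b).1), U.HB.coe_toL (hz b).1] with x h1 h2 h3 h4
          rw [h2, Pi.add_apply, h1, h3, Pi.smul_apply, h4, Finset.sum_insert hb]
      refine Lp.ext ?_
      filter_upwards [U.HB.coe_toL (U.HB.Inv_csmul S ((r : ℝ) : ℂ) hvi).1, h4 Finset.univ,
        Lp.coeFn_smul ((r : ℝ) : ℂ) (∑ k, a k • U.HB.toL (hz k).1)] with x h1 h2 h3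
      rw [h1, h3, Pi.smul_apply, h2]
    rw [h3, inner_smul_right, horth i, mul_zero]

/-- a good scale -/
lemma scale [Fintype ι] (α : ∀ i, ℕ → P.D i) (k : ℕ) : ∃ R : ℝ, (k : ℝ) + 1 ≤ R ∧
    ∀ i, ∀ p ≤ k, ‖Jv P i R (α i k) - Jv P i R (α i p)‖ ^ 2 ≤
      ‖(α i k : P.H i) - (α i p : P.H i)‖ ^ 2 + 1 / ((k : ℝ) + 1) := by
  have h1 : ∀ i p, ∀ᶠ R : ℝ in atTop, ‖Jv P i R (α i k) - Jv P i R (α i p)‖ ^ 2 ≤
      ‖(α i k : P.H i) - (α i p : P.H i)‖ ^ 2 + 1 / ((k : ℝ) + 1) := by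
    intro i p
    have h2 : Tendsto (fun R => ‖Jv P i R (α i k) - Jv P i R (α i p)‖ ^ 2) atTop
        (𝓝 (‖(α i k : P.H i) - (α i p : P.H i)‖ ^ 2)) := by
      simp only [norm_sub_sq_re']
      refine (Complex.continuous_re.tendsto _).comp ?_
      exact (((Jv_gram P _ _).sub (Jv_gram P _ _)).sub (Jv_gram P _ _)).add (Jv_gram P _ _)
    exact h2.eventually_le_const (by
      have : (0 : ℝ) < 1 / ((k : ℝ) + 1) := by positivity
      linarith)
  have h2 : ∀ᶠ R : ℝ in atTop, ∀ i, ∀ p ≤ k, ‖Jv P i R (α i k) - Jv P i R (α i p)‖ ^ 2 ≤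
      ‖(α i k : P.H i) - (α i p : P.H i)‖ ^ 2 + 1 / ((k : ℝ) + 1) := by
    rw [eventually_all]
    intro i
    have h3 := (Set.finite_Iic k).eventually_all (l := (atTop : Filter ℝ))
      (p := fun p R => ‖Jv P i R (α i k) - Jv P i R (α i p)‖ ^ 2 ≤
      ‖(α i k : P.H i) - (α i p : P.H i)‖ ^ 2 + 1 / ((k : ℝ) + 1))
    exact h3.mpr fun p _ => h1 i p
  obtain ⟨R, hR1, hR2⟩ := ((eventually_ge_atTop ((k : ℝ) + 1)).and h2).exists
  exact ⟨R, hR1, hR2⟩

/-- no profiles -/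
lemma no_prof [Fintype ι] (hE : P.LimEq) (α : ∀ i, ℕ → P.D i)
    (hα : ∀ i, Tendsto (fun k => (α i k : P.H i)) atTop (𝓝 (P.g i)))
    {R : ℕ → ℝ} (hR : ∀ k : ℕ, (k : ℝ) + 1 ≤ R k)
    (hRs : ∀ k i, ∀ p ≤ k, ‖Jv P i (R k) (α i k) - Jv P i (R k) (α i p)‖ ^ 2 ≤
      ‖(α i k : P.H i) - (α i p : P.H i)‖ ^ 2 + 1 / ((k : ℝ) + 1))
    {u : ℕ → Cfg d → F} (hu : ∀ k, S.GInv (u k)) (hn : ∀ k, nsq (u k) = 1)
    (he : ∀ k, R k ^ 2 * S.en ((R k)⁻¹ ^ 2) (u k) ≤ 1 / ((k : ℝ) + 1))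
    (ho : ∀ k i, inner ℂ (Jv P i (R k) (α i k)) (U.HB.toL (hu k).1) = 0) :
    Prof.Bdd S R u 1 ∧ ∀ i (a : P.D i), Tendsto (fun n => ipr (P.J i (R n) a) (u n)) atTop (𝓝 0) := by
  have hRlim : Tendsto R atTop atTop :=
    tendsto_atTop_mono hR (tendsto_atTop_add_const_right _ _ tendsto_natCast_atTop_atTop)
  have hB : Prof.Bdd S R u 1 := by
    refine ⟨hRlim, hu, fun n => (hn n).le, fun n => (he n).trans ?_⟩
    rw [div_le_one (by positivity)]
    linarith [Nat.cast_nonneg (α := ℝ) n]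
  refine ⟨hB, fun i a => ?_⟩
  rw [tendsto_iff_ultrafilter]
  intro V hV
  have hJ : ∀ b c : P.D i, Tendsto (fun n => inner ℂ (Jv P i (R n) b) (Jv P i (R n) c)) atTop
      (𝓝 (inner ℂ (b : P.H i) (c : P.H i))) := fun b c => (Jv_gram P b c).comp hRlim
  have hnorm : ∀ n, ‖U.HB.toL (hu n).1‖ ≤ 1 := by
    intro n
    have := toL_norm (hu n).1
    rw [hn n] at this
    nlinarith [norm_nonneg (U.HB.toL (hu n).1)]
  obtain ⟨W, -, hW⟩ := profile hJ V hV zero_le_one hnorm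
  have hpw : ∀ b : P.D i, Tendsto (fun n => ipr (P.J i (R n) b) (u n)) V (𝓝 (inner ℂ (b : P.H i) W)) := by
    intro b
    refine (hW b).congr' ?_
    filter_upwards [hV (hRlim.eventually (Jv_inner P b))] with n hn
    exact hn _ _
  -- zero mode equation
  have h1 : ∀ β (b : P.D i), inner ℂ (P.Ds i β b : P.H i) W = 0 := by
    intro β b
    have h2 := (hE R u 1 hB i β b).mono_left hV
    have h3 : Tendsto (fun n => (R n : ℂ) * ipr (P.J i (R n) b) (S.Qm ((R n)⁻¹ ^ 2) β (u n))) V (𝓝 0) := by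
      have h4 : Tendsto (fun n => ‖Jv P i (R n) b‖ * Real.sqrt (1 / ((n : ℝ) + 1))) atTop
          (𝓝 (‖(b : P.H i)‖ * Real.sqrt 0)) :=
        ((Jv_norm P b).comp hRlim).mul
          ((Real.continuous_sqrt.tendsto _).comp tendsto_one_div_add_atTop_nhds_zero_nat)
      rw [Real.sqrt_zero, mul_zero] at h4
      refine squeeze_zero_norm' ?_ (h4.mono_left hV)
      filter_upwards [hV (hRlim.eventually (Jv_inner P b))] with n hn'
      have hT := U.HB.Tst_Qm S ((R n)⁻¹ ^ 2) β (hu n).1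
      rw [← hn' _ hT, norm_mul]
      have hRn : 0 ≤ R n := by
        have := hR n
        have h0 : (0 : ℝ) ≤ n := Nat.cast_nonneg n
        linarith
      have h5 : ‖U.HB.toL hT‖ * R n ≤ Real.sqrt (1 / ((n : ℝ) + 1)) := by
        refine Real.le_sqrt_of_sq_le ?_
        rw [mul_pow, toL_norm, mul_comm]
        refine le_trans ?_ (he n)
        have : nsq (S.Qm ((R n)⁻¹ ^ 2) β (u n)) ≤ S.en ((R n)⁻¹ ^ 2) (u n) :=
          Finset.single_le_sum (f := fun β => nsq (S.Qm ((R n)⁻¹ ^ 2) β (u n)))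
            (fun β _ => nsq_nonneg _) (Finset.mem_univ β)
        gcongr
      calc ‖(R n : ℂ)‖ * ‖inner ℂ (Jv P i (R n) b) (U.HB.toL hT)‖
          ≤ R n * (‖Jv P i (R n) b‖ * ‖U.HB.toL hT‖) := by
            rw [Complex.norm_real, Real.norm_eq_abs, abs_of_nonneg hRn]
            gcongr
            exact norm_inner_le_norm _ _
        _ = ‖Jv P i (R n) b‖ * (‖U.HB.toL hT‖ * R n) := by ring
        _ ≤ _ := by gcongr
    have h6 := tendsto_nhds_unique h2 (h3.sub (hpw (P.Ds i β b)))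
    rw [zero_sub] at h6
    exact neg_eq_zero.mp h6.symm
  obtain ⟨c, hc⟩ := P.ker i W h1
  -- orthogonality
  have h2 : ∀ p, ‖inner ℂ (α i p : P.H i) W‖ ≤ ‖P.g i - (α i p : P.H i)‖ := by
    intro p
    have h3 : Tendsto (fun k : ℕ => Real.sqrt (‖(α i k : P.H i) - (α i p : P.H i)‖ ^ 2 + 1 / ((k : ℝ) + 1))) atTop
        (𝓝 (Real.sqrt (‖P.g i - (α i p : P.H i)‖ ^ 2 + 0))) :=
      (Real.continuous_sqrt.tendsto _).comp
        ((((hα i).sub_const _).norm.pow 2).add tendsto_one_div_add_atTop_nhds_zero_nat)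
    rw [add_zero, Real.sqrt_sq (norm_nonneg _)] at h3
    refine le_of_tendsto_of_tendsto (hW (α i p)).norm (h3.mono_left hV) ?_
    filter_upwards [hV (eventually_ge_atTop p)] with k hk
    have h4 : inner ℂ (Jv P i (R k) (α i p)) (U.HB.toL (hu k).1) =
        inner ℂ (Jv P i (R k) (α i p) - Jv P i (R k) (α i k)) (U.HB.toL (hu k).1) := by
      rw [inner_sub_left, ho k i, sub_zero]
    rw [h4]
    refine (norm_inner_le_norm _ _).trans ?_
    have h5 : ‖Jv P i (R k) (α i p) - Jv P i (R k) (α i k)‖ ≤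
        Real.sqrt (‖(α i k : P.H i) - (α i p : P.H i)‖ ^ 2 + 1 / ((k : ℝ) + 1)) := by
      refine Real.le_sqrt_of_sq_le ?_
      rw [norm_sub_rev]
      exact hRs k i p hk
    calc ‖Jv P i (R k) (α i p) - Jv P i (R k) (α i k)‖ * ‖U.HB.toL (hu k).1‖
        ≤ ‖Jv P i (R k) (α i p) - Jv P i (R k) (α i k)‖ * 1 := by
          gcongr
          exact hnorm k
      _ ≤ _ := by rw [mul_one]; exact h5
  have h3 : inner ℂ (P.g i) W = 0 := by
    have h4 : Tendsto (fun p => ‖inner ℂ (α i p : P.H i) W‖) atTop (𝓝 ‖inner ℂ (P.g i) W‖) :=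
      ((hα i).inner tendsto_const_nhds).norm
    have h5 : Tendsto (fun p => ‖P.g i - (α i p : P.H i)‖) atTop (𝓝 ‖P.g i - P.g i‖) :=
      (tendsto_const_nhds.sub (hα i)).norm
    have h6 := le_of_tendsto_of_tendsto' h4 h5 h2
    rw [sub_self, norm_zero] at h6
    exact norm_le_zero_iff.mp h6
  have hc0 : c = 0 := by
    rw [hc, inner_smul_right, inner_self_eq_norm_sq_to_K, P.g_norm i] at h3
    simpa using h3
  have hW0 : W = 0 := by rw [hc, hc0, zero_smul]
  have h4 := hpw a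
  rw [hW0, inner_zero_right] at h4
  exact h4

/-- **S6** -/
theorem s6 [CompleteSpace F] [Fintype ι] (hloc : LocStmt S) : S6Stmt S P := by
  classical
  intro hE hNL hL
  by_contra hcon
  have hz : ∀ Ψ : Lp F 2 (volume : Measure (Cfg d)), S.IsZM Ψ → Ψ = 0 := by
    intro Ψ hΨ
    by_contra h
    exact hcon ⟨Ψ, hΨ, h⟩
  -- approximants of the ground states
  have hα : ∀ i, ∃ α : ℕ → P.D i, Tendsto (fun k => (α k : P.H i)) atTop (𝓝 (P.g i)) := by
    intro i
    obtain ⟨α, hα1, hα2⟩ := mem_closure_iff_seq_limit.mp (P.dense i (P.g i))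
    exact ⟨fun k => ⟨α k, hα1 k⟩, hα2⟩
  choose α hα using hα
  choose R hR hRs using scale P α
  have hR0 : ∀ k, 0 < R k := fun k => by
    have := hR k
    have h0 : (0 : ℝ) ≤ k := Nat.cast_nonneg k
    linarith
  have hv := fun k => vec hL (fun i => Jv P i (R k) (α i k)) (m := (R k)⁻¹ ^ 2)
    (c := (R k)⁻¹ ^ 2 * (1 / ((k : ℝ) + 1))) (by have := hR0 k; positivity) (by have := hR0 k; positivity)
  choose u hu hn he ho using hv
  have he' : ∀ k, R k ^ 2 * S.en ((R k)⁻¹ ^ 2) (u k) ≤ 1 / ((k : ℝ) + 1) := by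
    intro k
    have h1 := he k
    have h2 := hR0 k
    calc R k ^ 2 * S.en ((R k)⁻¹ ^ 2) (u k) ≤ R k ^ 2 * ((R k)⁻¹ ^ 2 * (1 / ((k : ℝ) + 1))) := by gcongr
      _ = 1 / ((k : ℝ) + 1) := by field_simp
  obtain ⟨hB, hprof⟩ := no_prof P hE α hα hR hRs (fun k => Inv_GInv (hu k)) hn he' ho
  have hRlim := hB.R_lim
  -- local limits
  have hlocal : ∀ ζ : Cfg d → F, Setup.Tst ζ → Tendsto (fun n => ipr ζ (u n)) atTop (𝓝 0) := by
    intro ζ hζ
    rw [tendsto_iff_ultrafilter]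
    intro V hV
    have hnorm : ∀ n, ‖U.HB.toL (hu n).1‖ ≤ 1 := by
      intro n
      have := toL_norm (hu n).1
      rw [hn n] at this
      nlinarith [norm_nonneg (U.HB.toL (hu n).1)]
    obtain ⟨Ψ, -, hΨ⟩ := profile (H := Lp F 2 (volume : Measure (Cfg d))) (D := ⊤)
      (J := fun _ a => (a : Lp F 2 (volume : Measure (Cfg d)))) (fun a b => tendsto_const_nhds) V hV
      zero_le_one hnorm
    have hΨ' : ∀ ξ : Cfg d → F, Setup.Tst ξ →
        Tendsto (fun n => ipr ξ (u n)) V (𝓝 (∫ x, inner ℂ (ξ x) (Ψ x))) := by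
      intro ξ hξ
      have h1 := hΨ ⟨U.HB.toL hξ, Submodule.mem_top⟩
      have h2 : inner ℂ (U.HB.toL hξ) Ψ = ∫ x, inner ℂ (ξ x) (Ψ x) :=
        U.HB.inner_Lp (U.HB.coe_toL hξ) (Filter.EventuallyEq.refl _ _)
      simp only at h1
      rw [h2] at h1
      refine h1.congr fun n => ?_
      exact toL_inner hξ (hu n).1
    have hm : Tendsto (fun n => (R n)⁻¹ ^ 2) atTop (𝓝 0) := by
      have := (tendsto_inv_atTop_zero.comp hRlim).pow 2
      simpa using this
    have hen : Tendsto (fun n => S.en ((R n)⁻¹ ^ 2) (u n)) atTop (𝓝 0) := by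
      refine squeeze_zero (fun n => en_nonneg _ _) (fun n => ?_) tendsto_one_div_add_atTop_nhds_zero_nat
      have h1 := he' n
      have h2 : 1 ≤ R n := by
        have := hR n
        have h0 : (0 : ℝ) ≤ n := Nat.cast_nonneg n
        linarith
      have h3 := en_nonneg (S := S) ((R n)⁻¹ ^ 2) (u n)
      have h4 : 1 ≤ R n ^ 2 := one_le_pow₀ h2
      calc S.en ((R n)⁻¹ ^ 2) (u n) = 1 * S.en ((R n)⁻¹ ^ 2) (u n) := (one_mul _).symm
        _ ≤ R n ^ 2 * S.en ((R n)⁻¹ ^ 2) (u n) := mul_le_mul_of_nonneg_right h4 h3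
        _ ≤ _ := h1
    have hzm := hloc V (fun n => (R n)⁻¹ ^ 2) u 1 Ψ (hm.mono_left hV) hu (fun n => (hn n).le)
      (hen.mono_left hV) hΨ'
    have h0 := hz Ψ hzm
    have h1 := hΨ' ζ hζ
    have h2 : ∫ x, inner ℂ (ζ x) (Ψ x) = 0 := by
      rw [h0]
      have h3 : ∫ x, inner ℂ (ζ x) ((0 : Lp F 2 (volume : Measure (Cfg d))) x) = ∫ _ : Cfg d, (0 : ℂ) := by
        refine integral_congr_ae ?_
        filter_upwards [Lp.coeFn_zero F 2 (volume : Measure (Cfg d))] with x hx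
        rw [hx]
        exact inner_zero_right _
      rw [h3, integral_zero]
    rw [h2] at h1
    exact h1
  have h1 := hNL R u 1 hB hprof hlocal
  have h2 : Tendsto (fun n => nsq (u n)) atTop (𝓝 1) := by
    simp only [hn]
    exact tendsto_const_nhds
  exact zero_ne_one (tendsto_nhds_unique h1 h2)

end Vale.Agent.P353.Z.AH
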