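import Vale.Agent.P353.AN.H.S7c

/-! # P353, all `N`, block H: theorem S7 (helper973) -/

open MeasureTheory Filter Topology
open scoped ContDiff ComplexConjugate

namespace Vale.Agent.P353.Z.AH

variable {d : ℕ} {F : Type*} [NormedAddCommGroup F] [InnerProductSpace ℂ F]
variable {S : Setup d F} {ι : Type} (P : Prof S ι)

/-- triangle inequality -/
lemma nsq_tri {u v w : Cfg d → F} (hu : Setup.Tst u) (hv : Setup.Tst v) (hw : Setup.Tst w) :
    nsq (fun x => u x - w x) ≤ 2 * nsq (fun x => u x - v x) + 2 * nsq (fun x => v x - w x) := by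
  unfold nsq
  rw [← integral_const_mul, ← integral_const_mul,
    ← integral_add ((hu.sub hv).norm_sq_int.const_mul _) ((hv.sub hw).norm_sq_int.const_mul _)]
  refine integral_mono (hu.sub hw).norm_sq_int
    (((hu.sub hv).norm_sq_int.const_mul _).add ((hv.sub hw).norm_sq_int.const_mul _)) fun x => ?_
  have h1 : u x - w x = (u x - v x) + (v x - w x) := by abel
  simp only
  rw [h1]
  have h2 := norm_add_le (u x - v x) (v x - w x)
  have h3 := norm_nonneg (u x - v x + (v x - w x))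
  nlinarith [sq_nonneg (‖u x - v x‖ - ‖v x - w x‖), norm_nonneg (u x - v x), norm_nonneg (v x - w x)]

/-- torus invariant low vectors close to the trial functions -/
lemma trial (hE : P.LimEq) (hQQ : QQStmt S) (hD : DenseStmt S) (hJ : JbdStmt S)
    (hA : ∃ C : ℝ, 0 ≤ C ∧ ∀ u : Cfg d → F, S.GInv u →
      ∃ v : Cfg d → F, S.InvP plT v ∧ (∀ m, S.en m v ≤ S.en m u) ∧
      nsq (fun x => u x - v x) ≤ C * (nsq (S.J 1 2 u) + nsq (S.J 3 4 u) + nsq (S.J 5 6 u) + nsq (S.J 7 8 u)))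
    (i : ι) {η : ℝ} (hη : 0 < η) :
    ∃ a : P.D i, ‖(a : P.H i) - P.g i‖ ≤ η ∧ ∀ᶠ R : ℝ in atTop, S.GInv (P.J i R a) ∧
      ∃ v : Cfg d → F, S.InvP plT v ∧
      nsq (fun x => v x - P.J i R a x) ≤ η ∧ R ^ 2 * S.en (R⁻¹ ^ 2) v ≤ η := by
  obtain ⟨CA, hCA, hA⟩ := hA
  obtain ⟨CJ, hCJ, hJ⟩ := hJ
  set η' : ℝ := η / (16 * CA * CJ + 2) with hη'
  have hη'0 : 0 < η' := by positivity
  have hη'1 : η' ≤ η := by
    rw [hη']
    refine div_le_self hη.le ?_
    have : 0 ≤ CA * CJ := mul_nonneg hCA hCJ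
    linarith
  obtain ⟨a, ha, hev⟩ := core P hE hQQ hD i hη'0
  refine ⟨a, ha.trans hη'1, ?_⟩
  filter_upwards [hev, eventually_ge_atTop (1 : ℝ)] with R ⟨hf, w, hw, h1, h2, h3⟩ hR
  refine ⟨hf, ?_⟩
  have hR0 : 0 < R := by linarith
  obtain ⟨v, hv, hv2, hv3⟩ := hA w hw
  have hm : (0 : ℝ) < R⁻¹ ^ 2 := by positivity
  have hJ' : ∀ k l, Same k l → nsq (S.J k l w) ≤ 2 * CJ * η' := by
    intro k l hkl
    have h4 := hJ (R⁻¹ ^ 2) hm w hw k l hkl
    have h5 : nsq (S.J k l w) = R ^ 4 * ((R⁻¹ ^ 2) ^ 2 * nsq (S.J k l w)) := by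
      field_simp
    rw [h5]
    calc R ^ 4 * ((R⁻¹ ^ 2) ^ 2 * nsq (S.J k l w))
        ≤ R ^ 4 * (CJ * (nsq (U.HB.HH S (R⁻¹ ^ 2) w) + R⁻¹ ^ 2 * S.en (R⁻¹ ^ 2) w)) := by gcongr
      _ = CJ * (R ^ 4 * nsq (U.HB.HH S (R⁻¹ ^ 2) w) + R ^ 2 * S.en (R⁻¹ ^ 2) w) := by
          field_simp
      _ ≤ CJ * (η' + η') := by gcongr
      _ = _ := by ring
  refine ⟨v, hv, ?_, ?_⟩
  · have h6 := nsq_tri hv.1 hw.1 hf.1
    have h7 : nsq (fun x => v x - w x) = nsq (fun x => w x - v x) := by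
      unfold nsq
      simp only [norm_sub_rev]
    rw [h7] at h6
    have h8 : nsq (fun x => w x - v x) ≤ CA * (4 * (2 * CJ * η')) := by
      refine hv3.trans (mul_le_mul_of_nonneg_left ?_ hCA)
      have e1 := hJ' 1 2 ⟨by decide, by decide⟩
      have e2 := hJ' 3 4 ⟨by decide, by decide⟩
      have e3 := hJ' 5 6 ⟨by decide, by decide⟩
      have e4 := hJ' 7 8 ⟨by decide, by decide⟩
      linarith
    have h9 : (16 * CA * CJ + 2) * η' = η := by
      rw [hη']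
      field_simp
    nlinarith
  · have h6 := hv2 (R⁻¹ ^ 2)
    calc R ^ 2 * S.en (R⁻¹ ^ 2) v ≤ R ^ 2 * S.en (R⁻¹ ^ 2) w := by gcongr
      _ ≤ η' := h2
      _ ≤ η := hη'1

/-- trial functions are asymptotically orthogonal to zero modes -/
lemma mixed (hK : KerCutStmt S) (i : ι) (a : P.D i) {Ψ : Lp F 2 (volume : Measure (Cfg d))} (hΨ : S.IsZM Ψ) :
    Tendsto (fun R => inner ℂ Ψ (Jv P i R a)) atTop (𝓝 0) := by
  rw [Metric.tendsto_nhds]
  intro ε hε
  set δ : ℝ := (ε / (2 * (‖(a : P.H i)‖ + 1))) ^ 2 with hδ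
  have hδ0 : 0 < δ := by positivity
  obtain ⟨R₁, hR₁⟩ := (hK Ψ hΨ δ hδ0).exists
  obtain ⟨u, hu, hu1, -⟩ := hR₁
  obtain ⟨c, hc, hsupp⟩ := P.J_supp i a
  obtain ⟨r, hr⟩ := hu.1.2.isBounded.subset_closedBall 0
  filter_upwards [hsupp, P.J_inv i a, (Jv_norm P a).eventually_lt_const (lt_add_one _),
    eventually_ge_atTop (r / c)] with R h1 h2 h3 h4
  rw [dist_zero_right]
  have h5 : inner ℂ (U.HB.toL hu.1) (Jv P i R a) = 0 := by
    rw [Jv_of P h2, toL_inner]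
    unfold ipr
    rw [← integral_zero (Cfg d) ℂ]
    refine integral_congr_ae (Eventually.of_forall fun x => ?_)
    by_cases hx : x ∈ tsupport u
    · have h6 : ‖x‖ ≤ r := by simpa using hr hx
      have h7 : ‖x‖ ≤ c * R := by
        rw [div_le_iff₀ hc] at h4
        linarith
      simp only
      rw [h1 x h7, inner_zero_right]
    · simp only
      rw [image_eq_zero_of_notMem_tsupport hx, inner_zero_left]
  have h6 : inner ℂ Ψ (Jv P i R a) = inner ℂ (Ψ - U.HB.toL hu.1) (Jv P i R a) := by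
    rw [inner_sub_left, h5, sub_zero]
  have h7 : ‖Ψ - U.HB.toL hu.1‖ ^ 2 ≤ δ := by
    rw [norm_sub_rev]
    have h8 : U.HB.toL hu.1 - Ψ =ᵐ[volume] fun x => u x - Ψ x := by
      filter_upwards [Lp.coeFn_sub (U.HB.toL hu.1) Ψ, U.HB.coe_toL hu.1] with x h1 h2
      rw [h1, Pi.sub_apply, h2]
    rw [U.HB.norm_Lp h8]
    exact hu1
  have h8 : ‖Ψ - U.HB.toL hu.1‖ ≤ ε / (2 * (‖(a : P.H i)‖ + 1)) :=
    abs_le_of_sq_le_sq' h7 (by positivity) |>.2
  rw [h6]
  calc ‖inner ℂ (Ψ - U.HB.toL hu.1) (Jv P i R a)‖ ≤ ‖Ψ - U.HB.toL hu.1‖ * ‖Jv P i R a‖ :=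
        norm_inner_le_norm _ _
    _ ≤ ε / (2 * (‖(a : P.H i)‖ + 1)) * (‖(a : P.H i)‖ + 1) := by gcongr
    _ = ε / 2 := by field_simp
    _ < ε := by linarith

theorem s7 [Fintype ι] (hQQ : QQStmt S) (hD : DenseStmt S) (hJ : JbdStmt S)
    (hA : ∃ C : ℝ, 0 ≤ C ∧ ∀ u : Cfg d → F, S.GInv u →
      ∃ v : Cfg d → F, S.InvP plT v ∧ (∀ m, S.en m v ≤ S.en m u) ∧
      nsq (fun x => u x - v x) ≤ C * (nsq (S.J 1 2 u) + nsq (S.J 3 4 u) + nsq (S.J 5 6 u) + nsq (S.J 7 8 u)))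
    (hK : KerCutStmt S) : S7Stmt S P := by
  classical
  intro hE b Ψ hΨ hli
  obtain ⟨κ₁, hκ₁, hlow⟩ := indep_lower hli
  set κ : ℝ := min κ₁ (1 / 4) with hκ
  have hκ0 : 0 < κ := lt_min hκ₁ (by norm_num)
  have hκ1 : κ ≤ κ₁ := min_le_left _ _
  have hκ4 : κ ≤ 1 / 4 := min_le_right _ _
  set K := Fin b ⊕ ι with hKdef
  set N : ℝ := (Fintype.card K : ℝ) with hN
  have hN0 : 0 ≤ N := Nat.cast_nonneg _
  set η : ℝ := min (1 / 2) (κ / (8 * (N + 1))) with hη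
  have hη0 : 0 < η := lt_min (by norm_num) (by positivity)
  have hη1 : η ≤ 1 / 2 := min_le_left _ _
  have hη2 : η * N ≤ κ / 8 := by
    have h1 : η ≤ κ / (8 * (N + 1)) := min_le_right _ _
    rw [le_div_iff₀ (by positivity)] at h1
    nlinarith
  choose a ha hev using fun i => trial P hE hQQ hD hJ hA i hη0
  have hga : ∀ i, 1 / 2 ≤ ‖(a i : P.H i)‖ := by
    intro i
    have h1 : ‖P.g i‖ ≤ ‖(a i : P.H i) - P.g i‖ + ‖(a i : P.H i)‖ := by
      have : P.g i = (a i : P.H i) - ((a i : P.H i) - P.g i) := by abel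
      calc ‖P.g i‖ = ‖(a i : P.H i) - ((a i : P.H i) - P.g i)‖ := by rw [← this]
        _ ≤ ‖(a i : P.H i)‖ + ‖(a i : P.H i) - P.g i‖ := norm_sub_le _ _
        _ = _ := by ring
    rw [P.g_norm i] at h1
    linarith [ha i]
  -- ideal vectors and their limiting Gram matrix
  set y : ℝ → K → Lp F 2 (volume : Measure (Cfg d)) := fun R k => Sum.elim Ψ (fun i => Jv P i R (a i)) k with hy
  set G : K → K → ℂ := fun k l => match k, l with
    | Sum.inl j, Sum.inl j' => inner ℂ (Ψ j) (Ψ j')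
    | Sum.inr i, Sum.inr i' => if i = i' then ((‖(a i : P.H i)‖ ^ 2 : ℝ) : ℂ) else 0
    | _, _ => 0 with hG
  have hGlim : ∀ k l, Tendsto (fun R => inner ℂ (y R k) (y R l)) atTop (𝓝 (G k l)) := by
    rintro (j | i) (j' | i')
    · exact tendsto_const_nhds
    · exact mixed P hK i' (a i') (hΨ j)
    · have h1 := mixed P hK i (a i) (hΨ j')
      have h2 := (Complex.continuous_conj.tendsto _).comp h1
      simp only [Function.comp_def, inner_conj_symm, map_zero] at h2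
      exact h2
    · by_cases hii : i = i'
      · subst hii
        have h1 := Jv_gram P (a i) (a i)
        have h2 : inner ℂ (a i : P.H i) (a i : P.H i) = ((‖(a i : P.H i)‖ ^ 2 : ℝ) : ℂ) := by
          rw [inner_self_eq_norm_sq_to_K]
          norm_cast
        rw [h2] at h1
        have h3 : G (Sum.inr i) (Sum.inr i) = ((‖(a i : P.H i)‖ ^ 2 : ℝ) : ℂ) := by simp only [hG, if_true]
        rw [h3]
        exact h1
      · have h1 := P.orth i i' hii (a i) (a i')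
        have h2 : Tendsto (fun R => inner ℂ (Jv P i R (a i)) (Jv P i' R (a i'))) atTop (𝓝 0) := by
          refine h1.congr' ?_
          filter_upwards [P.J_inv i (a i), P.J_inv i' (a i')] with R h h'
          rw [Jv_of P h, Jv_of P h', toL_inner]
        have h3 : G (Sum.inr i) (Sum.inr i') = 0 := by simp only [hG, if_neg hii]
        rw [h3]
        exact h2
  have hpos : ∀ c : K → ℂ, κ * ∑ k, ‖c k‖ ^ 2 ≤ (∑ k, ∑ l, c l * (conj (c k) * G k l)).re := by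
    intro c
    have e1 : (∑ k, ∑ l, c l * (conj (c k) * G k l)) =
        (∑ j, ∑ j', c (Sum.inl j') * (conj (c (Sum.inl j)) * inner ℂ (Ψ j) (Ψ j'))) +
          ∑ i, ((‖c (Sum.inr i)‖ ^ 2 * ‖(a i : P.H i)‖ ^ 2 : ℝ) : ℂ) := by
      rw [Fintype.sum_sum_type]
      congr 1
      · refine Finset.sum_congr rfl fun j _ => ?_
        rw [Fintype.sum_sum_type]
        simp [hG]
      · refine Finset.sum_congr rfl fun i _ => ?_
        rw [Fintype.sum_sum_type]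
        simp only [hG, mul_zero, Finset.sum_const_zero, zero_add, mul_ite, Finset.sum_ite_eq,
          Finset.mem_univ, if_true]
        rw [← mul_assoc, Complex.mul_conj, Complex.normSq_eq_norm_sq]
        push_cast
        ring
    rw [e1, Complex.add_re, ← norm_sum_sq, ← Complex.ofReal_sum, Complex.ofReal_re, Fintype.sum_sum_type, mul_add]
    refine add_le_add ?_ ?_
    · refine le_trans ?_ (hlow fun j => c (Sum.inl j))
      exact mul_le_mul_of_nonneg_right hκ1 (Finset.sum_nonneg fun k _ => by positivity)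
    · rw [Finset.mul_sum]
      refine Finset.sum_le_sum fun i _ => ?_
      have h1 : (1 / 4 : ℝ) ≤ ‖(a i : P.H i)‖ ^ 2 := by
        have := hga i
        nlinarith
      have h2 : (0 : ℝ) ≤ ‖c (Sum.inr i)‖ ^ 2 := by positivity
      nlinarith
  have hgram := gram_lower y G hGlim hκ0 hpos
  -- choose `R`
  have hker : ∀ᶠ R : ℝ in atTop, ∀ j : Fin b, ∃ u : Cfg d → F, S.Inv u ∧
      nsq (fun x => u x - Ψ j x) ≤ η ∧ R ^ 2 * S.en (R⁻¹ ^ 2) u ≤ η := by
    rw [eventually_all]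
    exact fun j => hK (Ψ j) (hΨ j) η hη0
  have hall : ∀ᶠ R : ℝ in atTop, ∀ i, S.GInv (P.J i R (a i)) ∧ ∃ v : Cfg d → F, S.InvP plT v ∧
      nsq (fun x => v x - P.J i R (a i) x) ≤ η ∧ R ^ 2 * S.en (R⁻¹ ^ 2) v ≤ η := by
    rw [eventually_all]
    exact hev
  obtain ⟨R, hR, hRg, hRk, hRa⟩ := ((eventually_ge_atTop (1 : ℝ)).and (hgram.and (hker.and hall))).exists
  have hR0 : 0 < R := by linarith
  choose u hu hu1 hu2 using hRk
  choose v hv hv1 hv2 using fun i => (hRa i).2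
  set z : K → Cfg d → F := Sum.elim u v with hz
  have hzi : ∀ k, S.InvP plT (z k) := by
    rintro (j | i)
    · exact Inv_InvP (hu j)
    · exact hv i
  have hze : ∀ k, S.en (R⁻¹ ^ 2) (z k) ≤ η / R ^ 2 := by
    rintro (j | i)
    · rw [le_div_iff₀ (by positivity), mul_comm]
      exact hu2 j
    · rw [le_div_iff₀ (by positivity), mul_comm]
      exact hv2 i
  have hzy : ∀ k, ‖U.HB.toL (hzi k).1 - y R k‖ ≤ Real.sqrt η := by
    rintro (j | i)
    · refine Real.le_sqrt_of_sq_le ?_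
      have h1 : U.HB.toL (hzi (Sum.inl j)).1 - y R (Sum.inl j) =ᵐ[volume] fun x => u j x - Ψ j x := by
        filter_upwards [Lp.coeFn_sub (U.HB.toL (hzi (Sum.inl j)).1) (Ψ j),
          U.HB.coe_toL (hzi (Sum.inl j)).1] with x h1 h2
        change (U.HB.toL (hzi (Sum.inl j)).1 - Ψ j : Lp F 2 (volume : Measure (Cfg d))) x = _
        rw [h1, Pi.sub_apply, h2]
        rfl
      rw [U.HB.norm_Lp h1]
      exact hu1 j
    · refine Real.le_sqrt_of_sq_le ?_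
      have h0 : y R (Sum.inr i) = U.HB.toL (hRa i).1.1 := Jv_of P (hRa i).1
      rw [h0]
      have h1 : U.HB.toL (hzi (Sum.inr i)).1 - U.HB.toL (hRa i).1.1 =ᵐ[volume]
          fun x => v i x - P.J i R (a i) x := by
        filter_upwards [Lp.coeFn_sub (U.HB.toL (hzi (Sum.inr i)).1) (U.HB.toL (hRa i).1.1),
          U.HB.coe_toL (hzi (Sum.inr i)).1, U.HB.coe_toL (hRa i).1.1] with x h1 h2 h3
        rw [h1, Pi.sub_apply, h2, h3]
        rfl
      rw [U.HB.norm_Lp h1]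
      exact hv1 i
  refine ⟨R⁻¹ ^ 2, by positivity, lowP_of (K := K) hzi (fun c hc => ?_) (by simp [hKdef])⟩
  have hcpos : 0 < ∑ k, ‖c k‖ ^ 2 := by
    obtain ⟨k, hk⟩ := Function.ne_iff.mp hc
    refine Finset.sum_pos' (fun k _ => by positivity) ⟨k, Finset.mem_univ k, ?_⟩
    have : 0 < ‖c k‖ := norm_pos_iff.mpr hk
    positivity
  have h1 := gram_pert (y := y R) (z := fun k => U.HB.toL (hzi k).1) (κ := κ / 2) (by positivity)
    (Real.sqrt_nonneg η) (by rw [Real.sq_sqrt hη0.le]; linarith) hzy c (hRg c)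
  rw [toL_comb] at h1
  have h2 := en_comb_le (S := S) (R⁻¹ ^ 2) c (fun k => (hzi k).1) hze
  have h3 : (Fintype.card K : ℝ) * (∑ k, ‖c k‖ ^ 2) * (η / R ^ 2) = (η * N) * (∑ k, ‖c k‖ ^ 2) * R⁻¹ ^ 2 := by
    rw [hN]
    field_simp
  rw [h3] at h2
  have hRi : 0 < R⁻¹ ^ 2 := by positivity
  calc S.en (R⁻¹ ^ 2) (fun x => ∑ k, c k • z k x) ≤ (η * N) * (∑ k, ‖c k‖ ^ 2) * R⁻¹ ^ 2 := h2
    _ ≤ (κ / 8) * (∑ k, ‖c k‖ ^ 2) * R⁻¹ ^ 2 := by gcongr
    _ < 8 * R⁻¹ ^ 2 * (κ / 2 / 4 * ∑ k, ‖c k‖ ^ 2) := by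
        have : 0 < κ * (∑ k, ‖c k‖ ^ 2) * R⁻¹ ^ 2 := by positivity
        nlinarith
    _ ≤ _ := by gcongr

end Vale.Agent.P353.Z.AH
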