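import Vale.Agent.P353.AN.H.S7a

/-! # P353, all `N`, block H: the approximate resolvent of a trial function is a low state (helper973) -/

open MeasureTheory Filter Topology
open scoped ContDiff ComplexConjugate

namespace Vale.Agent.P353.Z.AH

variable {d : ℕ} {F : Type*} [NormedAddCommGroup F] [InnerProductSpace ℂ F]
variable {S : Setup d F} {ι : Type} (P : Prof S ι)

/-- data of one approximate resolvent vector: `w + h = f + e`, `h = (R²/16) HH w`, all in `L²` -/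
lemma one_step (hD : DenseStmt S) {R : ℝ} (hR : 1 ≤ R) {f : Cfg d → F} (hf : S.GInv f) {δ : ℝ} (hδ : 0 < δ) :
    ∃ (w : Cfg d → F) (hw : S.GInv w) (h e : Lp F 2 (volume : Measure (Cfg d))),
      U.HB.toL hw.1 + h = U.HB.toL hf.1 + e ∧ ‖e‖ ≤ δ ∧
      h = ((R ^ 2 / 16 : ℝ) : ℂ) • U.HB.toL (U.HB.Tst_HH S (R⁻¹ ^ 2) hw.1) ∧
      inner ℂ (U.HB.toL hw.1) h = ((R ^ 2 / 16 * S.en (R⁻¹ ^ 2) w : ℝ) : ℂ) := by
  have hR0 : 0 < R := by linarith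
  set c : ℝ := 16 * R⁻¹ ^ 2 with hc
  have hc0 : 0 < c := by positivity
  obtain ⟨w, hw, hn⟩ := hD (R⁻¹ ^ 2) c hc0 (fun x => (c : ℂ) • f x) (GInv_csmul _ hf) ((c * δ) ^ 2) (by positivity)
  set h : Lp F 2 (volume : Measure (Cfg d)) :=
    ((R ^ 2 / 16 : ℝ) : ℂ) • U.HB.toL (U.HB.Tst_HH S (R⁻¹ ^ 2) hw.1) with hh
  refine ⟨w, hw, h, U.HB.toL hw.1 + h - U.HB.toL hf.1, by abel, ?_, rfl, ?_⟩
  · have h1 : U.HB.toL hw.1 + h - U.HB.toL hf.1 =ᵐ[volume] fun x =>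
        ((c⁻¹ : ℝ) : ℂ) • (U.HB.HH S (R⁻¹ ^ 2) w x + (c : ℂ) • w x - (c : ℂ) • f x) := by
      filter_upwards [Lp.coeFn_sub (U.HB.toL hw.1 + h) (U.HB.toL hf.1), Lp.coeFn_add (U.HB.toL hw.1) h,
        Lp.coeFn_smul ((R ^ 2 / 16 : ℝ) : ℂ) (U.HB.toL (U.HB.Tst_HH S (R⁻¹ ^ 2) hw.1)), U.HB.coe_toL hw.1,
        U.HB.coe_toL hf.1, U.HB.coe_toL (U.HB.Tst_HH S (R⁻¹ ^ 2) hw.1)] with x h1 h2 h3 h4 h5 h6
      rw [h1, Pi.sub_apply, h2, Pi.add_apply, h3, Pi.smul_apply, h4, h5, h6]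
      have e1 : (R ^ 2 / 16 : ℝ) = c⁻¹ := by
        rw [hc]
        field_simp
      rw [e1, smul_sub, smul_add, smul_smul, smul_smul]
      have e2 : ((c⁻¹ : ℝ) : ℂ) * (c : ℂ) = 1 := by
        rw [← Complex.ofReal_mul, inv_mul_cancel₀ hc0.ne', Complex.ofReal_one]
      rw [e2, one_smul, one_smul]
      abel
    have h2 := U.HB.norm_Lp h1
    rw [nsq_csmul] at h2
    have h3 : ‖((c⁻¹ : ℝ) : ℂ)‖ ^ 2 = (c⁻¹) ^ 2 := by
      rw [Complex.norm_real, Real.norm_eq_abs, sq_abs]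
    rw [h3] at h2
    have h4 : ‖U.HB.toL hw.1 + h - U.HB.toL hf.1‖ ^ 2 ≤ δ ^ 2 := by
      rw [h2]
      calc c⁻¹ ^ 2 * nsq _ ≤ c⁻¹ ^ 2 * (c * δ) ^ 2 := by gcongr
        _ = δ ^ 2 := by field_simp
    exact abs_le_of_sq_le_sq' h4 hδ.le |>.2
  · rw [hh, inner_smul_right, toL_inner]
    have h1 : ipr w (U.HB.HH S (R⁻¹ ^ 2) w) = ((S.en (R⁻¹ ^ 2) w : ℝ) : ℂ) := by
      have h2 := U.HB.inner_HH S (R⁻¹ ^ 2) hw.1 hw.1
      have h3 : ∀ β, ∫ x, inner ℂ (S.Qm (R⁻¹ ^ 2) β w x) (S.Qm (R⁻¹ ^ 2) β w x) =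
          ((nsq (S.Qm (R⁻¹ ^ 2) β w) : ℝ) : ℂ) := by
        intro β
        rw [nsq, ← integral_complex_ofReal]
        refine integral_congr_ae (Eventually.of_forall fun x => ?_)
        simp only [inner_self_eq_norm_sq_to_K]
        norm_cast
      simp only [h3] at h2
      have h4 : ipr w (U.HB.HH S (R⁻¹ ^ 2) w) = conj (∫ x, inner ℂ (U.HB.HH S (R⁻¹ ^ 2) w x) (w x)) := by
        rw [ipr, ← integral_conj]
        simp only [inner_conj_symm]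
      rw [h4, h2]
      unfold Setup.en
      push_cast
      simp only [map_sum, Complex.conj_ofReal]
    rw [h1]
    push_cast
    ring

/-- bounds for the approximate resolvent vector -/
lemma one_bounds {R : ℝ} (hR : 1 ≤ R) {C0 : ℝ} (hC0 : 0 ≤ C0)
    (hQQ : ∀ m : ℝ, 0 ≤ m → ∀ u : Cfg d → F, S.GInv u →
      ∑ α, ∑ β, nsq (S.Qm m β (S.Qm m α u)) ≤ nsq (U.HB.HH S m u) + C0 * m * S.en m u)
    {w : Cfg d → F} (hw : S.GInv w) {h g : Lp F 2 (volume : Measure (Cfg d))} {M : ℝ}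
    (hg : ‖g‖ ≤ M) (he : U.HB.toL hw.1 + h = g)
    (hh : h = ((R ^ 2 / 16 : ℝ) : ℂ) • U.HB.toL (U.HB.Tst_HH S (R⁻¹ ^ 2) hw.1))
    (hi : inner ℂ (U.HB.toL hw.1) h = ((R ^ 2 / 16 * S.en (R⁻¹ ^ 2) w : ℝ) : ℂ)) :
    ‖U.HB.toL hw.1‖ ≤ M ∧ ‖h‖ ≤ M ∧ R ^ 4 * nsq (U.HB.HH S (R⁻¹ ^ 2) w) = 256 * ‖h‖ ^ 2 ∧
      R ^ 2 * S.en (R⁻¹ ^ 2) w ≤ 8 * M ^ 2 ∧
      ∀ β, R ^ 4 * S.en (R⁻¹ ^ 2) (S.Qm (R⁻¹ ^ 2) β w) ≤ (256 + 8 * C0) * M ^ 2 := by
  have hR0 : 0 < R := by linarith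
  have hen := en_nonneg (S := S) (R⁻¹ ^ 2) w
  have hE : 0 ≤ (inner ℂ (U.HB.toL hw.1) h : ℂ).re := by
    rw [hi, Complex.ofReal_re]
    positivity
  have h1 := est_a (f := g) (e := 0) (by rw [add_zero]; exact he) hE
  rw [add_zero] at h1
  obtain ⟨h2, h3, h4⟩ := h1
  have hM : 0 ≤ M := (norm_nonneg g).trans hg
  have h5 : ‖g‖ ^ 2 ≤ M ^ 2 := by gcongr
  rw [hi, Complex.ofReal_re] at h4
  have h6 : R ^ 4 * nsq (U.HB.HH S (R⁻¹ ^ 2) w) = 256 * ‖h‖ ^ 2 := by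
    rw [hh, norm_smul, mul_pow, toL_norm, Complex.norm_real, Real.norm_eq_abs, sq_abs]
    ring
  have h7 : R ^ 2 * S.en (R⁻¹ ^ 2) w ≤ 8 * M ^ 2 := by nlinarith
  refine ⟨h2.trans hg, h3.trans hg, h6, h7, fun β => ?_⟩
  have h8 := hQQ (R⁻¹ ^ 2) (by positivity) w hw
  have h9 : S.en (R⁻¹ ^ 2) (S.Qm (R⁻¹ ^ 2) β w) ≤
      ∑ α, ∑ β, nsq (S.Qm (R⁻¹ ^ 2) β (S.Qm (R⁻¹ ^ 2) α w)) :=
    Finset.single_le_sum (f := fun α => ∑ β, nsq (S.Qm (R⁻¹ ^ 2) β (S.Qm (R⁻¹ ^ 2) α w)))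
      (fun α _ => Finset.sum_nonneg fun β _ => nsq_nonneg _) (Finset.mem_univ β)
  have h10 : ‖h‖ ^ 2 ≤ M ^ 2 := by
    have := h3.trans hg
    gcongr
  calc R ^ 4 * S.en (R⁻¹ ^ 2) (S.Qm (R⁻¹ ^ 2) β w)
      ≤ R ^ 4 * (nsq (U.HB.HH S (R⁻¹ ^ 2) w) + C0 * R⁻¹ ^ 2 * S.en (R⁻¹ ^ 2) w) := by
        gcongr
        exact h9.trans h8
    _ = R ^ 4 * nsq (U.HB.HH S (R⁻¹ ^ 2) w) + C0 * (R ^ 2 * S.en (R⁻¹ ^ 2) w) := by
        field_simp
    _ ≤ 256 * M ^ 2 + C0 * (8 * M ^ 2) := by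
        rw [h6]
        gcongr
    _ = _ := by ring

lemma ipr_csmul (f u : Cfg d → F) (c : ℂ) : ipr f (fun x => c • u x) = c * ipr f u := by
  unfold ipr
  rw [← integral_const_mul]
  simp only [inner_smul_right]

/-- `R² ⟨f, HH w⟩ = ∑ R ⟨f, Q_β (R Q_β w)⟩` -/
lemma ipr_HH {R m : ℝ} {f w : Cfg d → F} (hf : S.GInv f) (hw : S.GInv w) :
    ∑ β, (R : ℂ) * ipr f (S.Qm m β (fun x => ((R : ℝ) : ℂ) • S.Qm m β w x)) =
      ((R ^ 2 : ℝ) : ℂ) * ipr f (U.HB.HH S m w) := by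
  have h5 : ∀ β, ipr f (S.Qm m β (fun x => ((R : ℝ) : ℂ) • S.Qm m β w x)) =
      (R : ℂ) * ipr f (S.Qm m β (S.Qm m β w)) := by
    intro β
    rw [← ipr_csmul]
    congr 1
    funext x
    exact U.HB.Qm_csmul S _ β _ (U.HB.contDiff_Qm S _ β hw.1.1) x
  simp only [h5]
  have h6 : ipr f (U.HB.HH S m w) = ∑ β, ipr f (S.Qm m β (S.Qm m β w)) := by
    unfold ipr U.HB.HH
    simp only [inner_sum]
    exact integral_finsetSum _ fun β _ => hf.1.inner_int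
      (U.HB.contDiff_Qm S _ β (U.HB.contDiff_Qm S _ β hw.1.1)).continuous
  rw [h6, Finset.mul_sum]
  refine Finset.sum_congr rfl fun β _ => ?_
  push_cast
  ring

/-- the final estimate of `core` -/
lemma one_end {R ε η : ℝ} (hε0 : 0 < ε) (hε1 : ε ≤ 1) (hε3 : 3000 * ε ≤ η) {f w : Cfg d → F} (hf : S.GInv f)
    (hw : S.GInv w) {h e : Lp F 2 (volume : Measure (Cfg d))}
    (hwh : U.HB.toL hw.1 + h = U.HB.toL hf.1 + e) (he2 : ‖e‖ ≤ ε)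
    (hsum : R ^ 2 / 16 * S.en (R⁻¹ ^ 2) w + ‖h‖ ^ 2 ≤ 5 * ε)
    (hH : R ^ 4 * nsq (U.HB.HH S (R⁻¹ ^ 2) w) = 256 * ‖h‖ ^ 2) :
    nsq (fun x => w x - f x) ≤ η ∧ R ^ 2 * S.en (R⁻¹ ^ 2) w ≤ η ∧
      R ^ 4 * nsq (U.HB.HH S (R⁻¹ ^ 2) w) ≤ η := by
  have hen := en_nonneg (S := S) (R⁻¹ ^ 2) w
  have hp1 : 0 ≤ R ^ 2 / 16 * S.en (R⁻¹ ^ 2) w := by positivity
  have hh2 : ‖h‖ ^ 2 ≤ 5 * ε := by linarith
  refine ⟨?_, ?_, ?_⟩
  · have h1 : U.HB.toL hw.1 - U.HB.toL hf.1 =ᵐ[volume] fun x => w x - f x := by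
      filter_upwards [Lp.coeFn_sub (U.HB.toL hw.1) (U.HB.toL hf.1), U.HB.coe_toL hw.1,
        U.HB.coe_toL hf.1] with x h1 h2 h3
      rw [h1, Pi.sub_apply, h2, h3]
    rw [← U.HB.norm_Lp h1]
    have h2 : U.HB.toL hw.1 - U.HB.toL hf.1 = e - h := by
      have h3 : U.HB.toL hw.1 = U.HB.toL hf.1 + e - h := by rw [← hwh]; abel
      rw [h3]
      abel
    rw [h2]
    have h3 : ‖e - h‖ ^ 2 ≤ 2 * ‖e‖ ^ 2 + 2 * ‖h‖ ^ 2 := by
      have h4 := norm_sub_le e h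
      nlinarith [sq_nonneg (‖e‖ - ‖h‖), norm_nonneg (e - h), norm_nonneg e, norm_nonneg h]
    have h5 : ‖e‖ ^ 2 ≤ ε := by
      nlinarith [norm_nonneg e]
    linarith
  · have := sq_nonneg ‖h‖
    linarith
  · rw [hH]
    linarith

/-- **core of S7**: close to the ground state profile, `J_R a` is close to a low vector with small `‖Hw‖` -/
theorem core (hE : P.LimEq) (hQQ : QQStmt S) (hD : DenseStmt S) (i : ι) {η : ℝ} (hη : 0 < η) :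
    ∃ a : P.D i, ‖(a : P.H i) - P.g i‖ ≤ η ∧ ∀ᶠ R : ℝ in atTop, S.GInv (P.J i R a) ∧ ∃ w : Cfg d → F, S.GInv w ∧
      nsq (fun x => w x - P.J i R a x) ≤ η ∧ R ^ 2 * S.en (R⁻¹ ^ 2) w ≤ η ∧
      R ^ 4 * nsq (U.HB.HH S (R⁻¹ ^ 2) w) ≤ η := by
  classical
  obtain ⟨C0, hC0, hQQ⟩ := hQQ
  set ε : ℝ := min 1 (min η (η / 3000)) with hε
  have hε0 : 0 < ε := lt_min one_pos (lt_min hη (by positivity))
  have hε1 : ε ≤ 1 := min_le_left _ _
  have hε2 : ε ≤ η := (min_le_right _ _).trans (min_le_left _ _)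
  have hε3 : 3000 * ε ≤ η := by
    have : ε ≤ η / 3000 := (min_le_right _ _).trans (min_le_right _ _)
    linarith
  obtain ⟨a0, ha0, had⟩ := Metric.mem_closure_iff.mp (P.dense i (P.g i)) ε hε0
  set a : P.D i := ⟨a0, ha0⟩ with hadef
  have hag : ‖(a : P.H i) - P.g i‖ ≤ ε := by
    rw [← dist_eq_norm, dist_comm]
    exact had.le
  have han : ‖(a : P.H i)‖ ≤ 2 := by
    have h1 : (a : P.H i) = ((a : P.H i) - P.g i) + P.g i := by abel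
    rw [h1]
    refine (norm_add_le _ _).trans ?_
    rw [P.g_norm i]
    linarith
  refine ⟨a, hag.trans hε2, ?_⟩
  by_contra hcon
  -- a bad sequence
  have hfr : ∃ᶠ R : ℝ in atTop, (S.GInv (P.J i R a) ∧ 1 ≤ R ∧ ‖Jv P i R a‖ ≤ 3) ∧
      ¬ (∃ w : Cfg d → F, S.GInv w ∧ nsq (fun x => w x - P.J i R a x) ≤ η ∧
        R ^ 2 * S.en (R⁻¹ ^ 2) w ≤ η ∧ R ^ 4 * nsq (U.HB.HH S (R⁻¹ ^ 2) w) ≤ η) := by
    have h1 : ∀ᶠ R : ℝ in atTop, S.GInv (P.J i R a) ∧ 1 ≤ R ∧ ‖Jv P i R a‖ ≤ 3 := by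
      filter_upwards [P.J_inv i a, eventually_ge_atTop (1 : ℝ),
        (Jv_norm P a).eventually_le_const (by linarith : ‖(a : P.H i)‖ < 3)] with R h1 h2 h3
      exact ⟨h1, h2, h3⟩
    have h2 := (not_eventually.mp hcon).and_eventually h1
    refine h2.mono fun R h3 => ⟨h3.2, fun h4 => h3.1 ⟨h3.2.1, h4⟩⟩
  obtain ⟨R, hRlim, hRp⟩ := exists_seq_forall_of_frequently hfr
  have hδ : ∀ n : ℕ, (0 : ℝ) < 1 / ((n : ℝ) + 1) := fun n => by positivity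
  choose w hw h e hwh he hh hi using fun n => one_step hD (hRp n).1.2.1 (hRp n).1.1 (hδ n)
  have hR1 : ∀ n, 1 ≤ R n := fun n => (hRp n).1.2.1
  have hR0 : ∀ n, 0 < R n := fun n => lt_of_lt_of_le one_pos (hR1 n)
  have hfn : ∀ n, ‖U.HB.toL (hRp n).1.1.1‖ ≤ 3 := by
    intro n
    have := (hRp n).1.2.2
    rwa [Jv_of P (hRp n).1.1] at this
  have hen1 : ∀ n, ‖e n‖ ≤ 1 := by
    intro n
    refine (he n).trans ?_
    rw [div_le_one (by positivity)]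
    linarith [Nat.cast_nonneg (α := ℝ) n]
  have hg4 : ∀ n, ‖U.HB.toL (hRp n).1.1.1 + e n‖ ≤ 4 := fun n =>
    (norm_add_le _ _).trans (by linarith [hfn n, hen1 n])
  have hB := fun n => one_bounds (hR1 n) hC0 hQQ (hw n) (hg4 n) (hwh n) (hh n) (hi n)
  set C : ℝ := (256 + 8 * C0) * 4 ^ 2 + 8 * 4 ^ 2 with hC
  have hCpos : 0 ≤ C := by positivity
  -- `w` is bounded
  have hbw : Prof.Bdd S R w C := by
    refine ⟨hRlim, hw, fun n => ?_, fun n => ?_⟩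
    · rw [← toL_norm (hw n).1]
      have h1 := (hB n).1
      have h2 : ‖U.HB.toL (hw n).1‖ ^ 2 ≤ 4 ^ 2 := by gcongr
      rw [hC]
      nlinarith
    · have h1 := (hB n).2.2.2.1
      rw [hC]
      nlinarith
  -- `v_β` is bounded
  set v : Fin 16 → ℕ → Cfg d → F := fun β n x => ((R n : ℝ) : ℂ) • S.Qm ((R n)⁻¹ ^ 2) β (w n) x with hv
  have hvi : ∀ β n, S.GInv (v β n) := fun β n => GInv_csmul _ (GInv_Qm _ β (hw n))
  have hbv : ∀ β, Prof.Bdd S R (v β) C := by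
    intro β
    refine ⟨hRlim, hvi β, fun n => ?_, fun n => ?_⟩
    · have h1 := (hB n).2.2.2.1
      have h2 : nsq (v β n) = R n ^ 2 * nsq (S.Qm ((R n)⁻¹ ^ 2) β (w n)) := by
        rw [hv]
        simp only [nsq_csmul, Complex.norm_real, Real.norm_eq_abs, sq_abs]
      have h3 : nsq (S.Qm ((R n)⁻¹ ^ 2) β (w n)) ≤ S.en ((R n)⁻¹ ^ 2) (w n) :=
        Finset.single_le_sum (f := fun β => nsq (S.Qm ((R n)⁻¹ ^ 2) β (w n)))
          (fun β _ => nsq_nonneg _) (Finset.mem_univ β)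
      rw [h2]
      calc R n ^ 2 * nsq (S.Qm ((R n)⁻¹ ^ 2) β (w n)) ≤ R n ^ 2 * S.en ((R n)⁻¹ ^ 2) (w n) := by gcongr
        _ ≤ C := by rw [hC]; nlinarith
    · have h1 := (hB n).2.2.2.2 β
      have h2 : S.en ((R n)⁻¹ ^ 2) (v β n) =
          R n ^ 2 * S.en ((R n)⁻¹ ^ 2) (S.Qm ((R n)⁻¹ ^ 2) β (w n)) := by
        rw [hv]
        simp only
        rw [en_csmul _ _ (GInv_Qm _ β (hw n)).1, Complex.norm_real, Real.norm_eq_abs, sq_abs]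
      rw [h2]
      calc R n ^ 2 * (R n ^ 2 * S.en ((R n)⁻¹ ^ 2) (S.Qm ((R n)⁻¹ ^ 2) β (w n)))
          = R n ^ 4 * S.en ((R n)⁻¹ ^ 2) (S.Qm ((R n)⁻¹ ^ 2) β (w n)) := by ring
        _ ≤ C := by rw [hC]; nlinarith
  -- ultrafilter and profiles
  set V := Ultrafilter.of (atTop : Filter ℕ) with hV
  have hVle : (V : Filter ℕ) ≤ atTop := Ultrafilter.of_le _
  have hJ : ∀ b c : P.D i, Tendsto (fun n => inner ℂ (Jv P i (R n) b) (Jv P i (R n) c)) atTop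
      (𝓝 (inner ℂ (b : P.H i) (c : P.H i))) := fun b c => (Jv_gram P b c).comp hRlim
  have hbd : ∀ {Ψ : ℕ → Cfg d → F} (hΨ : Prof.Bdd S R Ψ C) n, ‖U.HB.toL (hΨ.inv n).1‖ ≤ Real.sqrt C := by
    intro Ψ hΨ n
    rw [← Real.sqrt_sq (norm_nonneg (U.HB.toL (hΨ.inv n).1)), toL_norm]
    exact Real.sqrt_le_sqrt (hΨ.norm n)
  obtain ⟨W, -, hW⟩ := profile hJ V hVle (Real.sqrt_nonneg C) (hbd hbw)
  choose X hXb hX using fun β => profile hJ V hVle (Real.sqrt_nonneg C) (hbd (hbv β))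
  -- pairings with `J_R b`
  have hpair : ∀ (b : P.D i) {Ψ : ℕ → Cfg d → F} (hΨ : Prof.Bdd S R Ψ C),
      ∀ᶠ n in atTop, ∀ (u : Cfg d → F) (hu : Setup.Tst u),
        inner ℂ (Jv P i (R n) b) (U.HB.toL hu) = ipr (P.J i (R n) b) u := by
    intro b Ψ _
    exact hRlim.eventually (Jv_inner P b)
  have hpw : ∀ b : P.D i, Tendsto (fun n => ipr (P.J i (R n) b) (w n)) V (𝓝 (inner ℂ (b : P.H i) W)) := by
    intro b
    refine (hW b).congr' ?_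
    filter_upwards [hVle (hpair b hbw)] with n hn
    exact hn _ _
  have hpv : ∀ β (b : P.D i), Tendsto (fun n => ipr (P.J i (R n) b) (v β n)) V
      (𝓝 (inner ℂ (b : P.H i) (X β))) := by
    intro β b
    refine (hX β b).congr' ?_
    filter_upwards [hVle (hpair b hbw)] with n hn
    exact hn _ _
  -- first equation
  have heq1 : ∀ β (b : P.D i), inner ℂ (P.Ds i β b : P.H i) W = inner ℂ (b : P.H i) (X β) := by
    intro β b
    have h1 := (hE R w C hbw i β b).mono_left hVle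
    have h2 : Tendsto (fun n => (R n : ℂ) * ipr (P.J i (R n) b) (S.Qm ((R n)⁻¹ ^ 2) β (w n)) -
        ipr (P.J i (R n) (P.Ds i β b)) (w n)) V
        (𝓝 (inner ℂ (b : P.H i) (X β) - inner ℂ (P.Ds i β b : P.H i) W)) := by
      refine Tendsto.sub ?_ (hpw _)
      refine (hpv β b).congr fun n => ?_
      exact ipr_csmul _ _ _
    have h3 := tendsto_nhds_unique h1 h2
    exact (sub_eq_zero.mp h3.symm).symm
  -- pairing with `h = (R²/16) HH w`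
  have hph : ∀ b : P.D i, Tendsto (fun n => ((R n ^ 2 : ℝ) : ℂ) *
      ipr (P.J i (R n) b) (U.HB.HH S ((R n)⁻¹ ^ 2) (w n))) V
      (𝓝 (16 * inner ℂ (b : P.H i) ((a : P.H i) - W))) := by
    intro b
    have h1 : Tendsto (fun n => (16 : ℂ) * (inner ℂ (Jv P i (R n) b) (Jv P i (R n) a) -
        inner ℂ (Jv P i (R n) b) (U.HB.toL (hw n).1) + inner ℂ (Jv P i (R n) b) (e n))) V
        (𝓝 (16 * (inner ℂ (b : P.H i) (a : P.H i) - inner ℂ (b : P.H i) W + 0))) := by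
      refine Tendsto.const_mul _ (Tendsto.add (Tendsto.sub ((hJ b a).mono_left hVle) (hW b)) ?_)
      have h2 : Tendsto (fun n => ‖Jv P i (R n) b‖ * (1 / ((n : ℝ) + 1))) atTop
          (𝓝 (‖(b : P.H i)‖ * 0)) :=
        ((Jv_norm P b).comp hRlim).mul tendsto_one_div_add_atTop_nhds_zero_nat
      rw [mul_zero] at h2
      refine squeeze_zero_norm (fun n => ?_) (h2.mono_left hVle)
      exact (norm_inner_le_norm _ _).trans (mul_le_mul_of_nonneg_left (he n) (norm_nonneg _))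
    rw [add_zero, ← inner_sub_right] at h1
    refine h1.congr' ?_
    filter_upwards [hVle (hpair b hbw)] with n hn
    have h3 : U.HB.toL (hw n).1 + h n = Jv P i (R n) a + e n := by
      rw [Jv_of P (hRp n).1.1]
      exact hwh n
    have h4 : inner ℂ (Jv P i (R n) b) (Jv P i (R n) a) -
        inner ℂ (Jv P i (R n) b) (U.HB.toL (hw n).1) + inner ℂ (Jv P i (R n) b) (e n) =
        inner ℂ (Jv P i (R n) b) (h n) := by
      rw [← inner_sub_right, ← inner_add_right]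
      congr 1
      have : h n = Jv P i (R n) a + e n - U.HB.toL (hw n).1 := by rw [← h3]; abel
      rw [this]
      abel
    rw [h4, hh n, inner_smul_right, hn]
    push_cast
    ring
  -- second equation
  have heq2 : ∀ b : P.D i, ∑ β, inner ℂ (P.Ds i β b : P.H i) (X β) =
      16 * inner ℂ (b : P.H i) ((a : P.H i) - W) := by
    intro b
    have h1 : ∀ β, Tendsto (fun n => ((R n : ℂ) * ipr (P.J i (R n) b) (S.Qm ((R n)⁻¹ ^ 2) β (v β n)) -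
        ipr (P.J i (R n) (P.Ds i β b)) (v β n))) V (𝓝 0) := fun β =>
      (hE R (v β) C (hbv β) i β b).mono_left hVle
    have h2 : Tendsto (fun n => ∑ β, ((R n : ℂ) * ipr (P.J i (R n) b) (S.Qm ((R n)⁻¹ ^ 2) β (v β n)) -
        ipr (P.J i (R n) (P.Ds i β b)) (v β n))) V (𝓝 (∑ β : Fin 16, (0 : ℂ))) :=
      tendsto_finsetSum _ fun β _ => h1 β
    have h3 : Tendsto (fun n => ((R n ^ 2 : ℝ) : ℂ) *
        ipr (P.J i (R n) b) (U.HB.HH S ((R n)⁻¹ ^ 2) (w n)) -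
        ∑ β, ipr (P.J i (R n) (P.Ds i β b)) (v β n)) V
        (𝓝 (16 * inner ℂ (b : P.H i) ((a : P.H i) - W) - ∑ β, inner ℂ (P.Ds i β b : P.H i) (X β))) :=
      (hph b).sub (tendsto_finsetSum _ fun β _ => hpv β _)
    have h4 : ∀ᶠ n in (V : Filter ℕ), ∑ β, ((R n : ℂ) * ipr (P.J i (R n) b) (S.Qm ((R n)⁻¹ ^ 2) β (v β n)) -
        ipr (P.J i (R n) (P.Ds i β b)) (v β n)) = ((R n ^ 2 : ℝ) : ℂ) *
        ipr (P.J i (R n) b) (U.HB.HH S ((R n)⁻¹ ^ 2) (w n)) -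
        ∑ β, ipr (P.J i (R n) (P.Ds i β b)) (v β n) := by
      filter_upwards [hVle (hRlim.eventually (P.J_inv i b))] with n hn
      rw [Finset.sum_sub_distrib, ← ipr_HH hn (hw n)]
    have h5 := h3.congr' (h4.mono fun n hn => hn.symm)
    have h6 := tendsto_nhds_unique h2 h5
    rw [Finset.sum_const_zero] at h6
    exact (sub_eq_zero.mp h6.symm).symm
  -- the resolvent estimate
  have hWg : ‖W - P.g i‖ ≤ ‖(a : P.H i) - P.g i‖ := by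
    refine P.res i (W - P.g i) ((a : P.H i) - P.g i) X (fun β b => ?_) (fun b => ?_)
    · rw [inner_sub_right, P.Ds_g i β b, sub_zero, heq1]
    · rw [heq2]
      congr 2
      abel
  have hWa : ‖(a : P.H i) - W‖ ≤ 2 * ε := by
    have h1 : (a : P.H i) - W = ((a : P.H i) - P.g i) - (W - P.g i) := by abel
    rw [h1]
    refine (norm_sub_le _ _).trans ?_
    linarith [hWg.trans hag]
  -- limit of the defect
  have hdef : Tendsto (fun n => ‖Jv P i (R n) a‖ ^ 2 - (inner ℂ (Jv P i (R n) a) (U.HB.toL (hw n).1) : ℂ).re +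
      (‖U.HB.toL (hw n).1‖ + 2 * ‖h n‖) * ‖e n‖) V
      (𝓝 (‖(a : P.H i)‖ ^ 2 - (inner ℂ (a : P.H i) W : ℂ).re + 0)) := by
    refine Tendsto.add (Tendsto.sub ?_ ?_) ?_
    · exact (((Jv_norm P a).comp hRlim).pow 2).mono_left hVle
    · exact (Complex.continuous_re.tendsto _).comp (hW a)
    · have h1 : Tendsto (fun n : ℕ => 12 * (1 / ((n : ℝ) + 1))) atTop (𝓝 (12 * 0)) :=
        tendsto_one_div_add_atTop_nhds_zero_nat.const_mul _
      rw [mul_zero] at h1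
      refine squeeze_zero (fun n => by positivity) (fun n => ?_) (h1.mono_left hVle)
      have h2 := (hB n).1
      have h3 := (hB n).2.1
      have h4 : ‖U.HB.toL (hw n).1‖ + 2 * ‖h n‖ ≤ 12 := by linarith
      exact mul_le_mul h4 (he n) (norm_nonneg _) (by norm_num)
  have hlim4 : ‖(a : P.H i)‖ ^ 2 - (inner ℂ (a : P.H i) W : ℂ).re + 0 ≤ 4 * ε := by
    have h1 : ‖(a : P.H i)‖ ^ 2 - (inner ℂ (a : P.H i) W : ℂ).re = (inner ℂ (a : P.H i) ((a : P.H i) - W) : ℂ).re := by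
      rw [inner_sub_right, Complex.sub_re]
      congr 1
      exact (inner_self_eq_norm_sq (𝕜 := ℂ) _).symm
    rw [h1, add_zero]
    refine (Complex.re_le_norm _).trans ((norm_inner_le_norm _ _).trans ?_)
    calc ‖(a : P.H i)‖ * ‖(a : P.H i) - W‖ ≤ 2 * (2 * ε) := by gcongr
      _ = 4 * ε := by ring
  have hev : ∀ᶠ n in (V : Filter ℕ), ‖Jv P i (R n) a‖ ^ 2 -
      (inner ℂ (Jv P i (R n) a) (U.HB.toL (hw n).1) : ℂ).re +
      (‖U.HB.toL (hw n).1‖ + 2 * ‖h n‖) * ‖e n‖ < 5 * ε :=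
    hdef.eventually_lt_const (by linarith)
  have hev2 : ∀ᶠ n : ℕ in (V : Filter ℕ), (1 / ((n : ℝ) + 1)) < ε :=
    (tendsto_one_div_add_atTop_nhds_zero_nat.mono_left hVle).eventually_lt_const hε0
  obtain ⟨n, hn1, hn2⟩ := (hev.and hev2).exists
  -- contradiction at `n`
  have hb := est_b (f := Jv P i (R n) a) (w := U.HB.toL (hw n).1) (h := h n) (e := e n) (by
    rw [Jv_of P (hRp n).1.1]
    exact hwh n)
  rw [hi n, Complex.ofReal_re] at hb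
  exact (hRp n).2 ⟨w n, hw n, one_end hε0 hε1 hε3 (hRp n).1.1 (hw n) (hwh n) ((he n).trans hn2.le)
    (hb.trans hn1.le) (hB n).2.2.1⟩

end Vale.Agent.P353.Z.AH
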