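import Vale.Agent.P353.AN.H.Defs

/-! # P353, all `N`, block H (counting): statements (helper973)

A prover delivers `theorem <name> (S : Setup d F) … : XStmt S` in `Vale/Agent/P353/AN/H/<File>.lean`, importing this file and landed
files (e.g. `Vale.Agent.P353.Z.U.All`), using other statements only as hypotheses. `F` finite dimensional may be assumed. -/

open MeasureTheory Filter Topology
open scoped ContDiff

namespace Vale.Agent.P353.Z.AH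

variable {d : ℕ} {F : Type*} [NormedAddCommGroup F] [InnerProductSpace ℂ F]

/-- **H1** `∑_{αβ}‖Q_βQ_αu‖² ≤ ‖∑Q²u‖² + Cm∑‖Q_αu‖²` for gauge invariant `u`.
PROOF: `∑_β‖Q_βQ_αu‖² = ⟨Q_αu, 16H Q_αu⟩` (`U.HB.inner_HH`, `A7`), `A4`: `16HQ_αu = Q_α(16Hu) - 8im(ΓQ)_αu` (gauge part `0`); sum over `α`:
`⟨∑Q_αQ_αu, 16Hu⟩ - 8im∑Γ_{αβ}⟨Q_αu,Q_βu⟩`, `|Γ_{αβ}| ≤ C`. (`Q_αu` is again gauge invariant: `A3`.) -/
def QQStmt (S : Setup d F) : Prop := ∃ C : ℝ, 0 ≤ C ∧ ∀ m : ℝ, 0 ≤ m → ∀ u : Cfg d → F, S.GInv u →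
  ∑ α, ∑ β, nsq (S.Qm m β (S.Qm m α u)) ≤ nsq (U.HB.HH S m u) + C * m * S.en m u

/-- **H2** the rotation generators are small on low states.
PROOF: multiply `A1` (gauge term `0`) by `conj (Γγ^{kl})_{αβ}` and sum over `α,β`: `tr((Γγ^{kl})ᴴΓγ^{ij}) = 16(δ_{ik}δ_{jl} - δ_{il}δ_{jk})`,
`tr(Γγ^{kl}) = 0`: `32 rc_{kl} m J_{kl}u = ∑ conj(Γγ^{kl})_{αβ}(Q_αQ_βu + Q_βQ_αu)`, `|rc_{kl}| ≥ 1`; then H1. -/
def JbdStmt (S : Setup d F) : Prop := ∃ C : ℝ, 0 ≤ C ∧ ∀ m : ℝ, 0 < m → ∀ u : Cfg d → F, S.GInv u →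
  ∀ k l, Same k l → m ^ 2 * nsq (S.J k l u) ≤ C * (nsq (U.HB.HH S m u) + m * S.en m u)

/-- **H3** average over the circle of rotations in the plane `(k,l)`.
PROOF. `U_t u(x) = exp(itS_{kl}) u(R_t x)` (`R_t` = rotation by `∓t` in the plane `(k,l)`; sign such that `d/dt U_tu = iU_tJ_{kl}u = iJ_{kl}U_tu`).
`exp(4πiS_{kl})` commutes with all `θ` (`e^{itS}θ_αe^{-itS} = ∑(e^{±tγ^{kl}/2})_{αβ}θ_β`, `(γ^{kl})² = -1`), so it is a scalar `c` by irreducibility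
(finite dimensional Schur). If `c ≠ 1`: `|1-c|‖u‖ = ‖u - U_{4π}u‖ ≤ 4π‖J_{kl}u‖`, take `v = 0`. If `c = 1`: `v = (4π)⁻¹∫_0^{4π}U_tu dt`:
smooth (parametric integral, e.g. `Vale/Agent/P205/WK/Ring.lean: contDiff_integral_param`), `J_{kl}v = 0`, `‖u - v‖ ≤ 4π‖J_{kl}u‖`; `U_t` commutes with
`G_C` and with `J_{ab}` for planes disjoint from `{k,l}`, and rotates the supercharges: `∑_β‖Q_βU_tu‖² = ∑_β‖Q_βu‖²` (`A2`). Minkowski for the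
integral. -/
def CircStmt (S : Setup d F) : Prop := S.Irr → (∃ v : F, v ≠ 0) → ∀ k l, Same k l →
  ∃ C : ℝ, 0 ≤ C ∧ ∀ P : Fin 9 → Fin 9 → Prop,
    (∀ a b, P a b → Same a b ∧ ((a = k ∧ b = l) ∨ (a = l ∧ b = k) ∨ (a ≠ k ∧ a ≠ l ∧ b ≠ k ∧ b ≠ l))) →
    ∀ u : Cfg d → F, S.InvP P u →
      ∃ v : Cfg d → F, S.InvP (fun a b => P a b ∨ (a = k ∧ b = l) ∨ (a = l ∧ b = k)) v ∧
        nsq (fun x => u x - v x) ≤ C * nsq (S.J k l u) ∧ (∀ m, S.en m v ≤ S.en m u) ∧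
        ∀ a b, Same a b → a ≠ k → a ≠ l → b ≠ k → b ≠ l → nsq (S.J a b v) ≤ nsq (S.J a b u)

/-- **H4** average over the torus: H3 for the planes `(1,2), (3,4), (5,6), (7,8)`. -/
def AvgStmt (S : Setup d F) : Prop := S.Irr → (∃ v : F, v ≠ 0) → ∃ C : ℝ, 0 ≤ C ∧ ∀ u : Cfg d → F, S.GInv u →
  ∃ v : Cfg d → F, S.InvP plT v ∧ (∀ m, S.en m v ≤ S.en m u) ∧
    nsq (fun x => u x - v x) ≤ C * (nsq (S.J 1 2 u) + nsq (S.J 3 4 u) + nsq (S.J 5 6 u) + nsq (S.J 7 8 u))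

/-- **H5** core gap for torus invariant functions. Same proof as `Z/U/CGap.lean`, where `J_{kl}φ = 0` is used only for the planes
`(k, pt k)`, `k ≠ 0`: all other coefficients `ζ†Γγ^{kl}ζ` vanish. -/
def CGapTStmt (S : Setup d F) : Prop := ∀ m : ℝ, 0 < m → ∀ φ : Cfg d → F, S.InvP plT φ →
  8 * m * S.en m φ ≤ nsq (U.HB.HH S m φ)

/-- **H6** weak = strong, general form. Same proof as `Z/U/WS.lean: ws` (there `P = Same`, `lam = 0`): radial mollification and radial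
cutoff preserve `InvP P`; local energy identity `∑‖Q_β(χv)‖² = Re⟨χ²v, HHv⟩ + ∑‖(γθ∇χ)_βv‖²`, `HHv = -lam v + err`. -/
def WSPStmt (S : Setup d F) : Prop := ∀ P : Fin 9 → Fin 9 → Prop, (∀ a b, P a b → Same a b) →
  ∀ (m lam : ℝ), 0 ≤ lam → ∀ Ψ : Cfg d → F,
  (∃ w : ℕ → Cfg d → F, (∀ n, S.InvP P (w n)) ∧ L2t w Ψ) →
  (∀ φ, S.InvP P φ → ∫ x, inner ℂ (U.HB.HH S m φ x + (lam : ℂ) • φ x) (Ψ x) = 0) →
  ∃ u : ℕ → Cfg d → F, (∀ n, S.InvP P (u n)) ∧ L2t u Ψ ∧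
    Tendsto (fun n => S.en m (u n) + lam * nsq (u n)) atTop (𝓝 0)

/-- **H7** density of the range of `HH + lam` on `GInv`. PROOF: the range `{HHw + lam w}` lies in `GInv`; if `f` is not in its closure,
the component `Ψ ≠ 0` of `f` orthogonal to the range lies in the closure of `GInv`, and H6 (`P` empty) gives `nsq Ψ = lim nsq (u n) = 0`. -/
def DenseStmt (S : Setup d F) : Prop := ∀ m lam : ℝ, 0 < lam → ∀ f : Cfg d → F, S.GInv f → ∀ δ : ℝ, 0 < δ →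
  ∃ w : Cfg d → F, S.GInv w ∧ nsq (fun x => U.HB.HH S m w x + (lam : ℂ) • w x - f x) ≤ δ

/-- **H8** torus invariant low spaces give invariant low spaces. PROOF: `U.HB.k_zm` with `InvP plT` and H5 instead of `Inv` and `CGap`:
`k` independent `Ψ_j` in the closure of `InvP plT`, orthogonal to `HH(InvP plT)`; H6 (`lam = 0`) gives `Q_βΨ_j = 0` weakly, hence
`J_{kl}Ψ_j = 0` weakly for all `Same k l` (test `A1` as in H2) and `G_CΨ_j = 0` weakly; radial mollification + cutoff: `Ψ_j` is a limit of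
`Inv` functions (`Z/U/WS.lean: G_mo_zero, J_mo_zero, Inv_mo`), `ws` gives approximants with energy `→ 0`, `U.HB.low_of_lim`. -/
def BridgeStmt (S : Setup d F) : Prop := ∀ (k : ℕ) (m : ℝ), 0 < m → S.LowP plT k m (8 * m) →
  ∀ c : ℝ, 0 < c → S.Low k m c

/-- **H9** cut off kernel vectors. PROOF: `App` (`Z/U/App.lean`) as in `Z/U/Small.lean`. -/
def KerCutStmt (S : Setup d F) : Prop := ∀ Ψ : Lp F 2 (volume : Measure (Cfg d)), S.IsZM Ψ → ∀ ε : ℝ, 0 < ε →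
  ∀ᶠ R : ℝ in atTop, ∃ u : Cfg d → F, S.Inv u ∧ nsq (fun x => u x - Ψ x) ≤ ε ∧ R ^ 2 * S.en (R⁻¹ ^ 2) u ≤ ε

/-- **H10** local limits (along any filter `l`) are zero modes: the weak limit `Ψ` (at scale one) of `Inv` functions with energy `→ 0` and `m → 0` is a zero
mode. PROOF: `Ψ ∈ L²`, `wG`, `wJ`, `wQ 0 β Ψ 0` pass to the limit; `App` with `R → ∞` gives the approximants of `IsZM`. -/
def LocStmt (S : Setup d F) : Prop := ∀ (l : Filter ℕ) [l.NeBot] (m : ℕ → ℝ) (u : ℕ → Cfg d → F) (C : ℝ)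
  (Ψ : Lp F 2 (volume : Measure (Cfg d))),
  Tendsto m l (𝓝 0) → (∀ n, S.Inv (u n)) → (∀ n, nsq (u n) ≤ C) →
  Tendsto (fun n => S.en (m n) (u n)) l (𝓝 0) →
  (∀ ζ : Cfg d → F, Setup.Tst ζ → Tendsto (fun n => ipr ζ (u n)) l (𝓝 (∫ x, inner ℂ (ζ x) (Ψ x)))) → S.IsZM Ψ

/-- **H11 (S7)** uniqueness count -/
def S7Stmt (S : Setup d F) {ι : Type} [Fintype ι] (P : Prof S ι) : Prop := P.LimEq →
  ∀ (b : ℕ) (Ψ : Fin b → Lp F 2 (volume : Measure (Cfg d))), (∀ j, S.IsZM (Ψ j)) → LinearIndependent ℂ Ψ →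
    ∃ m : ℝ, 0 < m ∧ S.LowP plT (b + Fintype.card ι) m (8 * m)

/-- **H12 (S6)** existence count -/
def S6Stmt (S : Setup d F) {ι : Type} [Fintype ι] (P : Prof S ι) : Prop := P.LimEq → P.NoLoss →
  (∀ m : ℝ, 0 < m → ∀ c : ℝ, 0 < c → S.Low (Fintype.card ι + 1) m c) →
    ∃ Ψ : Lp F 2 (volume : Measure (Cfg d)), S.IsZM Ψ ∧ Ψ ≠ 0

/-- **H13 (Top)** `dim ker = 1` -/
def TopStmt (S : Setup d F) : Prop := S.Irr → (∃ v : F, v ≠ 0) → ∀ (ι : Type) [Fintype ι] (P : Prof S ι),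
  P.LimEq → P.NoLoss → S.OrbCount (Fintype.card ι + 1) →
  (∃ m : ℝ, 0 < m ∧ S.LowP plT (Fintype.card ι + 1) m (8 * m)) →
    ∃ Ψ₀ : Lp F 2 (volume : Measure (Cfg d)), S.IsZM Ψ₀ ∧ Ψ₀ ≠ 0 ∧
      ∀ Ψ : Lp F 2 (volume : Measure (Cfg d)), S.IsZM Ψ → ∃ c : ℂ, Ψ = c • Ψ₀

end Vale.Agent.P353.Z.AH
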