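import Vale.Agent.P353.AN.JN.Defs
import Vale.Agent.P353.AN.H.Top

/-! # P353, all `N`, block H: weak profile systems, uniform forms (helper973) -/

open MeasureTheory Filter Topology
open scoped ContDiff ComplexConjugate

namespace Vale.Agent.P353.Z.AJ

open AH

section abs

variable {H : Type*} [NormedAddCommGroup H] [InnerProductSpace ℂ H]

/-- profile of a sequence of functionals along an ultrafilter -/
lemma profileW [CompleteSpace H] {D : Submodule ℂ H} {z : ℕ → D → ℂ} {C : ℝ} (hC : 0 ≤ C)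
    (hlin : ∀ (c : ℂ) (a b : D), Tendsto (fun n => z n (c • a + b) - (conj c * z n a + z n b)) atTop (𝓝 0))
    (hb : ∀ (a : D) (ε : ℝ), 0 < ε → ∀ᶠ n in atTop, ‖z n a‖ ≤ C * ‖(a : H)‖ + ε)
    (U : Ultrafilter ℕ) (hU : (U : Filter ℕ) ≤ atTop) :
    ∃ W : H, ∀ a : D, Tendsto (fun n => z n a) U (𝓝 (inner ℂ (a : H) W)) := by
  have hlim : ∀ a : D, ∃ w : ℂ, Tendsto (fun n => z n a) U (𝓝 w) := by
    intro a
    have hev : ∀ᶠ n in (U : Filter ℕ), z n a ∈ Metric.closedBall (0 : ℂ) (C * ‖(a : H)‖ + 1) := by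
      filter_upwards [hU (hb a 1 one_pos)] with n h
      rw [mem_closedBall_zero_iff]
      exact h
    obtain ⟨w, _, hw⟩ := (isCompact_closedBall (0 : ℂ) (C * ‖(a : H)‖ + 1)).ultrafilter_le_nhds
      (U.map fun n => z n a) (by
        rw [Ultrafilter.coe_map, le_principal_iff, mem_map]
        exact hev)
    exact ⟨w, hw⟩
  choose ζ hζ using hlim
  have hl : ∀ (c : ℂ) (a b : D), ζ (c • a + b) = conj c * ζ a + ζ b := by
    intro c a b
    have h1 : Tendsto (fun n => z n (c • a + b) - (conj c * z n a + z n b)) U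
        (𝓝 (ζ (c • a + b) - (conj c * ζ a + ζ b))) :=
      (hζ _).sub (((hζ a).const_mul _).add (hζ b))
    exact sub_eq_zero.mp (tendsto_nhds_unique h1 ((hlin c a b).mono_left hU))
  have h0 : ζ 0 = 0 := by
    have h := hl 1 0 0
    simp only [smul_zero, add_zero, map_one, one_mul] at h
    exact left_eq_add.mp h
  have hadd : ∀ a b : D, ζ (a + b) = ζ a + ζ b := by
    intro a b
    have h := hl 1 a b
    simpa using h
  have hsm : ∀ (c : ℂ) (a : D), ζ (c • a) = conj c * ζ a := by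
    intro c a
    have h := hl c a 0
    simpa [h0] using h
  have hzb : ∀ a : D, ‖ζ a‖ ≤ C * ‖a‖ := by
    intro a
    refine le_of_forall_pos_le_add fun ε hε => ?_
    exact le_of_tendsto (hζ a).norm (hU (hb a ε hε))
  let f : D →ₗ[ℂ] ℂ :=
    { toFun := fun a => conj (ζ a)
      map_add' := fun a b => by rw [hadd, map_add]
      map_smul' := fun c a => by
        rw [hsm, map_mul, Complex.conj_conj]
        rfl }
  let f' : D →L[ℂ] ℂ := f.mkContinuous C fun a => by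
    change ‖conj (ζ a)‖ ≤ C * ‖a‖
    rw [RCLike.norm_conj]
    exact hzb a
  obtain ⟨g, hg, hgn⟩ := exists_extension_norm_eq D f'
  refine ⟨(InnerProductSpace.toDual ℂ H).symm g, fun a => ?_⟩
  have h1 : inner ℂ (a : H) ((InnerProductSpace.toDual ℂ H).symm g) = ζ a := by
    rw [← inner_conj_symm, InnerProductSpace.toDual_symm_apply, hg a]
    change conj (conj (ζ a)) = ζ a
    exact Complex.conj_conj _
  rw [h1]
  exact hζ a

end abs

variable {d : ℕ} {F : Type*} [NormedAddCommGroup F] [InnerProductSpace ℂ F]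
variable {S : Setup d F} {ι : Type}

/-- sequences to uniform statements -/
lemma unif {A B : ℝ → (Cfg d → F) → Prop} (h : ∀ (R : ℕ → ℝ) (u : ℕ → Cfg d → F), Tendsto R atTop atTop →
    (∀ n, A (R n) (u n)) → ∀ᶠ n in atTop, B (R n) (u n)) : ∀ᶠ R in atTop, ∀ u, A R u → B R u := by
  by_contra hcon
  have hfr : ∃ᶠ R : ℝ in atTop, ∃ u, A R u ∧ ¬ B R u := by
    refine (not_eventually.mp hcon).mono fun R hR => ?_
    push Not at hR
    exact hR
  obtain ⟨R, hR, hp⟩ := exists_seq_forall_of_frequently hfr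
  choose u hA hB using hp
  obtain ⟨n, hn⟩ := (h R u hR hA).exists
  exact hB n hn

lemma ipr_zero (f : Cfg d → F) {u : Cfg d → F} (hu : Setup.Tst u) (h : nsq u = 0) : ipr f u = 0 := by
  have h1 : (fun x => ‖u x‖ ^ 2) =ᵐ[volume] 0 :=
    (integral_eq_zero_iff_of_nonneg (fun x => sq_nonneg _) hu.norm_sq_int).mp h
  unfold ipr
  rw [← integral_zero (Cfg d) ℂ]
  refine integral_congr_ae ?_
  filter_upwards [h1] with x hx
  have h2 : u x = 0 := by simpa using hx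
  rw [h2, inner_zero_right]

/-- homogeneity -/
lemma homog {L : (Cfg d → F) → ℂ} {K : ℝ} (h1 : ∀ u, S.GInv u → nsq u = 1 → ‖L u‖ ≤ K)
    (hs : ∀ (c : ℂ) u, L (fun x => c • u x) = c * L u) (h0 : ∀ u, S.GInv u → nsq u = 0 → L u = 0) :
    ∀ u, S.GInv u → ‖L u‖ ≤ K * Real.sqrt (nsq u) := by
  intro u hu
  rcases (nsq_nonneg u).eq_or_lt with h | h
  · rw [h0 u hu h.symm, ← h, norm_zero, Real.sqrt_zero, mul_zero]
  · set r : ℝ := Real.sqrt (nsq u) with hr
    have hr0 : 0 < r := Real.sqrt_pos.mpr h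
    have hr2 : r ^ 2 = nsq u := Real.sq_sqrt h.le
    have h2 := h1 (fun x => ((r⁻¹ : ℝ) : ℂ) • u x) (GInv_csmul _ hu) (by
      rw [nsq_csmul, Complex.norm_real, Real.norm_eq_abs, sq_abs, ← hr2]
      field_simp)
    rw [hs, norm_mul, Complex.norm_real, Real.norm_eq_abs, abs_of_pos (inv_pos.mpr hr0),
      inv_mul_le_iff₀ hr0] at h2
    linarith

variable (P : PW S ι)

/-- uniform form of `ub` -/
lemma ub' (i : ι) : ∃ C : ℝ, 0 ≤ C ∧ ∀ (a : P.D i) (ε : ℝ), 0 < ε → ∀ᶠ R : ℝ in atTop,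
    ∀ u : Cfg d → F, S.GInv u → ‖ipr (P.Z i R a) u‖ ≤ (C * ‖(a : P.H i)‖ + ε) * Real.sqrt (nsq u) := by
  obtain ⟨C, hC, h⟩ := P.ub i
  refine ⟨C, hC, fun a ε hε => ?_⟩
  have h1 := unif (A := fun _ u => S.GInv u ∧ nsq u = 1)
    (B := fun R u => ‖ipr (P.Z i R a) u‖ ≤ C * ‖(a : P.H i)‖ + ε) (fun R u hR hu => by
      have h2 := h a R u 1 ⟨hR, fun n => (hu n).1, fun n => (hu n).2.le⟩ ε hε
      simpa using h2)
  filter_upwards [h1] with R hR
  exact homog (S := S) (L := fun u => ipr (P.Z i R a) u) (fun u hu hn => hR u ⟨hu, hn⟩)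
    (fun c u => ipr_csmul _ _ _) (fun u hu h0 => ipr_zero _ hu.1 h0)

/-- uniform form of the limit equation -/
lemma lim' (hE : P.LimEq) (i : ι) (β : Fin 16) (a : P.D i) (C : ℝ) {ε : ℝ} (hε : 0 < ε) : ∀ᶠ R : ℝ in atTop,
    ∀ u : Cfg d → F, (S.GInv u ∧ nsq u ≤ C ∧ R ^ 2 * S.en (R⁻¹ ^ 2) u ≤ C) →
      ‖(R : ℂ) * ipr (P.Z i R a) (S.Qm (R⁻¹ ^ 2) β u) - ipr (P.Z i R (P.Ds i β a)) u‖ ≤ ε := by
  refine unif (A := fun R u => S.GInv u ∧ nsq u ≤ C ∧ R ^ 2 * S.en (R⁻¹ ^ 2) u ≤ C)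
    (B := fun R u => ‖(R : ℂ) * ipr (P.Z i R a) (S.Qm (R⁻¹ ^ 2) β u) -
      ipr (P.Z i R (P.Ds i β a)) u‖ ≤ ε) fun R u hR hu => ?_
  have h1 := hE R u C ⟨hR, fun n => (hu n).1, fun n => (hu n).2.1, fun n => (hu n).2.2⟩ i β a
  have h2 := h1.norm
  rw [norm_zero] at h2
  exact h2.eventually_le_const hε

/-- uniform form of `rep` -/
lemma rep' {J : ∀ i, P.D i → ℝ → ℝ → Cfg d → F} (hJ : P.Rep J) (i : ι) (a : P.D i) {ε : ℝ} (hε : 0 < ε) :
    ∀ᶠ R : ℝ in atTop, ∀ u : Cfg d → F, S.GInv u →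
      ‖ipr (J i a ε R) u - ipr (P.Z i R a) u‖ ≤ ε * Real.sqrt (nsq u) := by
  have h1 := unif (A := fun _ u => S.GInv u ∧ nsq u = 1)
    (B := fun R u => ‖ipr (J i a ε R) u - ipr (P.Z i R a) u‖ ≤ ε) (fun R u hR hu => by
      have h2 := hJ.rep i a ε hε R u 1 ⟨hR, fun n => (hu n).1, fun n => (hu n).2.le⟩
      simpa using h2)
  filter_upwards [h1] with R hR
  refine homog (S := S) (L := fun u => ipr (J i a ε R) u - ipr (P.Z i R a) u) (fun u hu hn => hR u ⟨hu, hn⟩)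
    (fun c u => ?_) (fun u hu h0 => ?_)
  · simp only [ipr_csmul]
    ring
  · simp only [ipr_zero _ hu.1 h0, sub_zero]

open Classical in
/-- the functional as an `L²` vector -/
noncomputable def Zv (i : ι) (R : ℝ) (a : P.D i) : Lp F 2 (volume : Measure (Cfg d)) :=
  if h : MemLp (P.Z i R a) 2 (volume : Measure (Cfg d)) then h.toLp else 0

lemma Zv_inner {i : ι} (a : P.D i) : ∀ᶠ R in atTop, ∀ (u : Cfg d → F) (hu : Setup.Tst u),
    inner ℂ (Zv P i R a) (U.HB.toL hu) = ipr (P.Z i R a) u := by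
  filter_upwards [P.Z_mem i a] with R h u hu
  unfold Zv
  rw [dif_pos h]
  exact U.HB.inner_Lp h.coeFn_toLp (U.HB.coe_toL hu)

end Vale.Agent.P353.Z.AJ
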