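import Vale.Agent.P353.AN.H.WLim

/-! # P353, all `N`, block H: theorem S6 for weak profile systems (helper973) -/

open MeasureTheory Filter Topology
open scoped ContDiff ComplexConjugate

namespace Vale.Agent.P353.Z.AJ

open AH

variable {d : ℕ} {F : Type*} [NormedAddCommGroup F] [InnerProductSpace ℂ F]
variable {S : Setup d F} {ι : Type} (P : PW S ι)

/-- no profiles -/
lemma no_profW (hE : P.LimEq) (α : ∀ i, P.D i) (hα : ∀ i, ‖(α i : P.H i) - P.g i‖ ≤ 1 / 4)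
    {R : ℕ → ℝ} (hR : ∀ k : ℕ, (k : ℝ) + 1 ≤ R k)
    {u : ℕ → Cfg d → F} (hu : ∀ k, S.GInv (u k)) (hn : ∀ k, nsq (u k) = 1)
    (he : ∀ k, R k ^ 2 * S.en ((R k)⁻¹ ^ 2) (u k) ≤ 1 / ((k : ℝ) + 1))
    (ho : ∀ k i, inner ℂ (Zv P i (R k) (α i)) (U.HB.toL (hu k).1) = 0) :
    Prof.Bdd S R u 1 ∧ ∀ i (a : P.D i), Tendsto (fun n => ipr (P.Z i (R n) a) (u n)) atTop (𝓝 0) := by
  have hRlim : Tendsto R atTop atTop :=
    tendsto_atTop_mono hR (tendsto_atTop_add_const_right _ _ tendsto_natCast_atTop_atTop)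
  have hB : Prof.Bdd S R u 1 := by
    refine ⟨hRlim, hu, fun n => (hn n).le, fun n => (he n).trans ?_⟩
    rw [div_le_one (by positivity)]
    linarith [Nat.cast_nonneg (α := ℝ) n]
  refine ⟨hB, fun i a => ?_⟩
  rw [tendsto_iff_ultrafilter]
  intro V hV
  obtain ⟨C, hC, hub⟩ := P.ub i
  obtain ⟨C', hC', hub'⟩ := ub' P i
  have hBL : BdL S R u 1 := ⟨hRlim, hu, fun n => (hn n).le⟩
  obtain ⟨W, hW⟩ := profileW (z := fun n b => ipr (P.Z i (R n) b) (u n)) hC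
    (fun c b b' => P.Z_lin i b b' c R u 1 hBL)
    (fun b ε hε => by simpa using hub b R u 1 hBL ε hε) V hV
  -- zero mode equation
  have h1 : ∀ β (b : P.D i), inner ℂ (P.Ds i β b : P.H i) W = 0 := by
    intro β b
    have h2 := (hE R u 1 hB i β b).mono_left hV
    have h3 : Tendsto (fun n => (R n : ℂ) * ipr (P.Z i (R n) b) (S.Qm ((R n)⁻¹ ^ 2) β (u n))) V (𝓝 0) := by
      have h4 : Tendsto (fun n : ℕ => (C' * ‖(b : P.H i)‖ + 1) * Real.sqrt (1 / ((n : ℝ) + 1))) atTop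
          (𝓝 ((C' * ‖(b : P.H i)‖ + 1) * Real.sqrt 0)) :=
        ((Real.continuous_sqrt.tendsto _).comp tendsto_one_div_add_atTop_nhds_zero_nat).const_mul _
      rw [Real.sqrt_zero, mul_zero] at h4
      refine squeeze_zero_norm' ?_ (h4.mono_left hV)
      filter_upwards [hV (hRlim.eventually (hub' b 1 one_pos))] with n hn'
      have hQ := GInv_Qm ((R n)⁻¹ ^ 2) β (hu n)
      rw [← ipr_csmul]
      refine (hn' _ (GInv_csmul _ hQ)).trans ?_
      refine mul_le_mul_of_nonneg_left (Real.sqrt_le_sqrt ?_) (by positivity)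
      rw [nsq_csmul, Complex.norm_real, Real.norm_eq_abs, sq_abs]
      refine le_trans ?_ (he n)
      have : nsq (S.Qm ((R n)⁻¹ ^ 2) β (u n)) ≤ S.en ((R n)⁻¹ ^ 2) (u n) :=
        Finset.single_le_sum (f := fun β => nsq (S.Qm ((R n)⁻¹ ^ 2) β (u n)))
          (fun β _ => nsq_nonneg _) (Finset.mem_univ β)
      gcongr
    have h6 := tendsto_nhds_unique h2 (h3.sub (hW (P.Ds i β b)))
    rw [zero_sub] at h6
    exact neg_eq_zero.mp h6.symm
  obtain ⟨c, hc⟩ := P.ker i W h1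
  -- orthogonality
  have h3 : inner ℂ (α i : P.H i) W = 0 := by
    refine tendsto_nhds_unique (hW (α i)) ?_
    refine tendsto_const_nhds.congr' ?_
    filter_upwards [hV (hRlim.eventually (Zv_inner P (α i)))] with n hn'
    rw [← hn' _ (hu n).1, ho n i]
  have hc0 : c = 0 := by
    rw [hc, inner_smul_right, mul_eq_zero] at h3
    refine h3.resolve_right fun h4 => ?_
    have h5 : (inner ℂ ((α i : P.H i) - P.g i) (P.g i) : ℂ) = -1 := by
      rw [inner_sub_left, h4, inner_self_eq_norm_sq_to_K, P.g_norm i]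
      simp
    have h6 := norm_inner_le_norm (𝕜 := ℂ) ((α i : P.H i) - P.g i) (P.g i)
    rw [h5, P.g_norm i, mul_one, norm_neg, norm_one] at h6
    linarith [hα i]
  have hW0 : W = 0 := by rw [hc, hc0, zero_smul]
  have h4 := hW a
  rw [hW0, inner_zero_right] at h4
  exact h4

/-- local limits vanish if there is no zero mode -/
lemma no_local [CompleteSpace F] (hloc : LocStmt S)
    (hz : ∀ Ψ : Lp F 2 (volume : Measure (Cfg d)), S.IsZM Ψ → Ψ = 0) {R : ℕ → ℝ} {u : ℕ → Cfg d → F}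
    (hR : ∀ k : ℕ, (k : ℝ) + 1 ≤ R k) (hRlim : Tendsto R atTop atTop) (hu : ∀ k, S.Inv (u k))
    (hn : ∀ k, nsq (u k) = 1) (he' : ∀ k, R k ^ 2 * S.en ((R k)⁻¹ ^ 2) (u k) ≤ 1 / ((k : ℝ) + 1)) :
    ∀ ζ : Cfg d → F, Setup.Tst ζ → Tendsto (fun n => ipr ζ (u n)) atTop (𝓝 0) := by
  intro ζ hζ
  rw [tendsto_iff_ultrafilter]
  intro V hV
  have hnorm : ∀ n, ‖U.HB.toL (hu n).1‖ ≤ 1 := by
    intro n
    have := toL_norm (hu n).1
    rw [hn n] at this
    nlinarith [norm_nonneg (U.HB.toL (hu n).1)]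
  obtain ⟨Ψ, -, hΨ⟩ := profile (H := Lp F 2 (volume : Measure (Cfg d))) (D := ⊤)
    (J := fun _ a => (a : Lp F 2 (volume : Measure (Cfg d)))) (fun a b => tendsto_const_nhds) V hV
    zero_le_one hnorm
  have hΨ' : ∀ ξ : Cfg d → F, Setup.Tst ξ →
      Tendsto (fun n => ipr ξ (u n)) V (𝓝 (∫ x, inner ℂ (ξ x) (Ψ x))) := by
    intro ξ hξ
    have h1 := hΨ ⟨U.HB.toL hξ, Submodule.mem_top⟩
    have h2 : inner ℂ (U.HB.toL hξ) Ψ = ∫ x, inner ℂ (ξ x) (Ψ x) :=
      U.HB.inner_Lp (U.HB.coe_toL hξ) (Filter.EventuallyEq.refl _ _)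
    simp only at h1
    rw [h2] at h1
    refine h1.congr fun n => ?_
    exact toL_inner hξ (hu n).1
  have hm : Tendsto (fun n => (R n)⁻¹ ^ 2) atTop (𝓝 0) := by
    have := (tendsto_inv_atTop_zero.comp hRlim).pow 2
    simpa using this
  have hen : Tendsto (fun n => S.en ((R n)⁻¹ ^ 2) (u n)) atTop (𝓝 0) := by
    refine squeeze_zero (fun n => en_nonneg _ _) (fun n => ?_) tendsto_one_div_add_atTop_nhds_zero_nat
    have h1 := he' n
    have h2 : 1 ≤ R n := by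
      have := hR n
      have h0 : (0 : ℝ) ≤ n := Nat.cast_nonneg n
      linarith
    have h3 := en_nonneg (S := S) ((R n)⁻¹ ^ 2) (u n)
    have h4 : 1 ≤ R n ^ 2 := one_le_pow₀ h2
    calc S.en ((R n)⁻¹ ^ 2) (u n) = 1 * S.en ((R n)⁻¹ ^ 2) (u n) := (one_mul _).symm
      _ ≤ R n ^ 2 * S.en ((R n)⁻¹ ^ 2) (u n) := mul_le_mul_of_nonneg_right h4 h3
      _ ≤ _ := h1
  have hzm := hloc V (fun n => (R n)⁻¹ ^ 2) u 1 Ψ (hm.mono_left hV) hu (fun n => (hn n).le)
    (hen.mono_left hV) hΨ'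
  have h0 := hz Ψ hzm
  have h1 := hΨ' ζ hζ
  have h2 : ∫ x, inner ℂ (ζ x) (Ψ x) = 0 := by
    rw [h0]
    have h3 : ∫ x, inner ℂ (ζ x) ((0 : Lp F 2 (volume : Measure (Cfg d))) x) = ∫ _ : Cfg d, (0 : ℂ) := by
      refine integral_congr_ae ?_
      filter_upwards [Lp.coeFn_zero F 2 (volume : Measure (Cfg d))] with x hx
      rw [hx]
      exact inner_zero_right _
    rw [h3, integral_zero]
  rw [h2] at h1
  exact h1

/-- **S6** for weak profile systems -/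
theorem s6W [CompleteSpace F] [Fintype ι] (hloc : LocStmt S) : AJ.S6Stmt S P := by
  classical
  intro hE hNL hL
  by_contra hcon
  have hz : ∀ Ψ : Lp F 2 (volume : Measure (Cfg d)), S.IsZM Ψ → Ψ = 0 := by
    intro Ψ hΨ
    by_contra h
    exact hcon ⟨Ψ, hΨ, h⟩
  choose α hα _ using fun i => P.app i (1 / 4) (by norm_num)
  set R : ℕ → ℝ := fun k => (k : ℝ) + 1 with hRdef
  have hR : ∀ k : ℕ, (k : ℝ) + 1 ≤ R k := fun k => le_rfl
  have hR0 : ∀ k, 0 < R k := fun k => by positivity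
  have hv := fun k => vec hL (fun i => Zv P i (R k) (α i)) (m := (R k)⁻¹ ^ 2)
    (c := (R k)⁻¹ ^ 2 * (1 / ((k : ℝ) + 1))) (by have := hR0 k; positivity) (by have := hR0 k; positivity)
  choose u hu hn he ho using hv
  have he' : ∀ k, R k ^ 2 * S.en ((R k)⁻¹ ^ 2) (u k) ≤ 1 / ((k : ℝ) + 1) := by
    intro k
    have h1 := he k
    have h2 := hR0 k
    calc R k ^ 2 * S.en ((R k)⁻¹ ^ 2) (u k) ≤ R k ^ 2 * ((R k)⁻¹ ^ 2 * (1 / ((k : ℝ) + 1))) := by gcongr
      _ = 1 / ((k : ℝ) + 1) := by field_simp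
  obtain ⟨hB, hprof⟩ := no_profW P hE α hα hR (fun k => Inv_GInv (hu k)) hn he' ho
  have hlocal := no_local hloc hz hR hB.R_lim hu hn he'
  have h1 := hNL R u 1 hB hprof hlocal
  have h2 : Tendsto (fun n => nsq (u n)) atTop (𝓝 1) := by
    simp only [hn]
    exact tendsto_const_nhds
  exact zero_ne_one (tendsto_nhds_unique h1 h2)

end Vale.Agent.P353.Z.AJ
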