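import Vale.Agent.P353.AN.H.WS7a
import Vale.Agent.P353.AN.H.WS6

/-! # P353, all `N`, block H: theorem S7 for weak profile systems (helper973) -/

open MeasureTheory Filter Topology
open scoped ContDiff ComplexConjugate

namespace Vale.Agent.P353.Z.AJ

open AH

section abs

variable {L : Type*} [NormedAddCommGroup L] [InnerProductSpace ℂ L] {K : Type*} [Fintype K]

/-- lower bound for Gram matrices close to positive ones -/
lemma gram_lowerW {α : Type*} {f : Filter α} (y : α → K → L) (G : α → K → K → ℂ)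
    (hG : ∀ k l, Tendsto (fun n => inner ℂ (y n k) (y n l) - G n k l) f (𝓝 0)) {κ : ℝ} (hκ : 0 < κ)
    (hpos : ∀ᶠ n in f, ∀ c : K → ℂ, κ * ∑ k, ‖c k‖ ^ 2 ≤ (∑ k, ∑ l, c l * (conj (c k) * G n k l)).re) :
    ∀ᶠ n in f, ∀ c : K → ℂ, κ / 2 * ∑ k, ‖c k‖ ^ 2 ≤ ‖∑ k, c k • y n k‖ ^ 2 := by
  set θ : ℝ := κ / (2 * (Fintype.card K + 1)) with hθ
  have hθ0 : 0 < θ := by positivity
  have hθ1 : θ * Fintype.card K ≤ κ / 2 := by
    rw [hθ]
    have h1 : (0 : ℝ) ≤ Fintype.card K := Nat.cast_nonneg _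
    rw [div_mul_eq_mul_div, div_le_div_iff₀ (by positivity) (by norm_num)]
    nlinarith
  have hev : ∀ᶠ n in f, ∀ k l, ‖inner ℂ (y n k) (y n l) - G n k l‖ < θ := by
    rw [eventually_all]
    intro k
    rw [eventually_all]
    intro l
    have h := (hG k l).norm
    rw [norm_zero] at h
    exact h.eventually_lt_const hθ0
  filter_upwards [hev, hpos] with n hn hp c
  rw [norm_sum_sq]
  have h1 : (∑ k, ∑ l, c l * (conj (c k) * inner ℂ (y n k) (y n l))) =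
      (∑ k, ∑ l, c l * (conj (c k) * G n k l)) +
        ∑ k, ∑ l, c l * (conj (c k) * (inner ℂ (y n k) (y n l) - G n k l)) := by
    rw [← Finset.sum_add_distrib]
    refine Finset.sum_congr rfl fun k _ => ?_
    rw [← Finset.sum_add_distrib]
    refine Finset.sum_congr rfl fun l _ => ?_
    ring
  have h2 : ‖∑ k, ∑ l, c l * (conj (c k) * (inner ℂ (y n k) (y n l) - G n k l))‖ ≤
      κ / 2 * ∑ k, ‖c k‖ ^ 2 := by
    calc ‖∑ k, ∑ l, c l * (conj (c k) * (inner ℂ (y n k) (y n l) - G n k l))‖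
        ≤ ∑ k, ∑ l, ‖c k‖ * ‖c l‖ * θ := by
          refine (norm_sum_le _ _).trans (Finset.sum_le_sum fun k _ => ?_)
          refine (norm_sum_le _ _).trans (Finset.sum_le_sum fun l _ => ?_)
          rw [norm_mul, norm_mul, RCLike.norm_conj]
          have := (hn k l).le
          calc ‖c l‖ * (‖c k‖ * ‖inner ℂ (y n k) (y n l) - G n k l‖) ≤ ‖c l‖ * (‖c k‖ * θ) := by gcongr
            _ = _ := by ring
      _ = (∑ k, ‖c k‖) ^ 2 * θ := by
          rw [sq, Finset.sum_mul_sum, Finset.sum_mul]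
          refine Finset.sum_congr rfl fun k _ => ?_
          rw [Finset.sum_mul]
      _ ≤ (Fintype.card K * ∑ k, ‖c k‖ ^ 2) * θ := by
          gcongr
          exact sum_norm_sq_le c
      _ = (θ * Fintype.card K) * ∑ k, ‖c k‖ ^ 2 := by ring
      _ ≤ _ := by gcongr
  rw [h1, Complex.add_re]
  have h3 := hp c
  have h4 := (abs_le.mp (Complex.abs_re_le_norm (∑ k, ∑ l, c l * (conj (c k) *
    (inner ℂ (y n k) (y n l) - G n k l))))).1
  linarith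

end abs

variable {d : ℕ} {F : Type*} [NormedAddCommGroup F] [InnerProductSpace ℂ F]
variable {S : Setup d F} {ι : Type} (P : PW S ι)

/-- torus invariant low vectors close to the trial functions -/
lemma trialW (hE : P.LimEq) (hQQ : QQStmt S) (hD : DenseStmt S) (hJ : JbdStmt S)
    (hA : ∃ C : ℝ, 0 ≤ C ∧ ∀ u : Cfg d → F, S.GInv u →
      ∃ v : Cfg d → F, S.InvP plT v ∧ (∀ m, S.en m v ≤ S.en m u) ∧
      nsq (fun x => u x - v x) ≤ C * (nsq (S.J 1 2 u) + nsq (S.J 3 4 u) + nsq (S.J 5 6 u) + nsq (S.J 7 8 u)))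
    {J : ∀ i, P.D i → ℝ → ℝ → Cfg d → F} (hRep : P.Rep J) (i : ι) :
    ∃ c₀ M₀ : ℝ, 0 < c₀ ∧ 0 ≤ M₀ ∧ ∀ η : ℝ, 0 < η → ∃ (a : P.D i) (ε : ℝ), 0 < ε ∧
      ∀ᶠ R : ℝ in atTop, S.GInv (J i a ε R) ∧ c₀ ≤ nsq (J i a ε R) ∧ nsq (J i a ε R) ≤ M₀ ∧
      ∃ v : Cfg d → F, S.InvP plT v ∧
      nsq (fun x => v x - J i a ε R x) ≤ η ∧ R ^ 2 * S.en (R⁻¹ ^ 2) v ≤ η := by
  obtain ⟨CA, hCA, hA⟩ := hA
  obtain ⟨CJ, hCJ, hJ⟩ := hJ
  obtain ⟨c₀, M₀, hc₀, hM₀, hcore⟩ := coreW P hE hQQ hD hRep i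
  refine ⟨c₀, M₀, hc₀, hM₀, fun η hη => ?_⟩
  set η' : ℝ := η / (16 * CA * CJ + 2) with hη'
  have hη'0 : 0 < η' := by positivity
  have hη'1 : η' ≤ η := by
    rw [hη']
    refine div_le_self hη.le ?_
    have : 0 ≤ CA * CJ := mul_nonneg hCA hCJ
    linarith
  obtain ⟨a, ε, hε, hev⟩ := hcore η' hη'0
  refine ⟨a, ε, hε, ?_⟩
  filter_upwards [hev, eventually_ge_atTop (1 : ℝ)] with R ⟨hf, hf1, hf2, w, hw, h1, h2, h3⟩ hR
  refine ⟨hf, hf1, hf2, ?_⟩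
  have hR0 : 0 < R := by linarith
  obtain ⟨v, hv, hv2, hv3⟩ := hA w hw
  have hm : (0 : ℝ) < R⁻¹ ^ 2 := by positivity
  have hJ' : ∀ k l, Same k l → nsq (S.J k l w) ≤ 2 * CJ * η' := by
    intro k l hkl
    have h4 := hJ (R⁻¹ ^ 2) hm w hw k l hkl
    have h5 : nsq (S.J k l w) = R ^ 4 * ((R⁻¹ ^ 2) ^ 2 * nsq (S.J k l w)) := by
      field_simp
    rw [h5]
    calc R ^ 4 * ((R⁻¹ ^ 2) ^ 2 * nsq (S.J k l w))
        ≤ R ^ 4 * (CJ * (nsq (U.HB.HH S (R⁻¹ ^ 2) w) + R⁻¹ ^ 2 * S.en (R⁻¹ ^ 2) w)) := by gcongr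
      _ = CJ * (R ^ 4 * nsq (U.HB.HH S (R⁻¹ ^ 2) w) + R ^ 2 * S.en (R⁻¹ ^ 2) w) := by
          field_simp
      _ ≤ CJ * (η' + η') := by gcongr
      _ = _ := by ring
  refine ⟨v, hv, ?_, ?_⟩
  · have h6 := nsq_tri hv.1 hw.1 hf.1
    have h7 : nsq (fun x => v x - w x) = nsq (fun x => w x - v x) := by
      unfold nsq
      simp only [norm_sub_rev]
    rw [h7] at h6
    have h8 : nsq (fun x => w x - v x) ≤ CA * (4 * (2 * CJ * η')) := by
      refine hv3.trans (mul_le_mul_of_nonneg_left ?_ hCA)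
      have e1 := hJ' 1 2 ⟨by decide, by decide⟩
      have e2 := hJ' 3 4 ⟨by decide, by decide⟩
      have e3 := hJ' 5 6 ⟨by decide, by decide⟩
      have e4 := hJ' 7 8 ⟨by decide, by decide⟩
      linarith
    have h9 : (16 * CA * CJ + 2) * η' = η := by
      rw [hη']
      field_simp
    nlinarith
  · have h6 := hv2 (R⁻¹ ^ 2)
    calc R ^ 2 * S.en (R⁻¹ ^ 2) v ≤ R ^ 2 * S.en (R⁻¹ ^ 2) w := by gcongr
      _ ≤ η' := h2
      _ ≤ η := hη'1

open Classical in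
/-- a gauge invariant test function as an `L²` vector -/
noncomputable def Gv (S : Setup d F) (u : Cfg d → F) : Lp F 2 (volume : Measure (Cfg d)) :=
  if h : S.GInv u then U.HB.toL h.1 else 0

lemma Gv_of {u : Cfg d → F} (h : S.GInv u) : Gv S u = U.HB.toL h.1 := by
  unfold Gv
  rw [dif_pos h]

/-- trial functions are asymptotically orthogonal to zero modes -/
lemma mixedW (hK : KerCutStmt S) {f : ℝ → Cfg d → F} {M₀ : ℝ} (hM₀ : 0 ≤ M₀)
    (hf : ∀ᶠ R in atTop, S.GInv (f R) ∧ nsq (f R) ≤ M₀)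
    (hs : ∃ c : ℝ, 0 < c ∧ ∀ᶠ R in atTop, ∀ x : Cfg d, ‖x‖ ≤ c * R → f R x = 0)
    {Ψ : Lp F 2 (volume : Measure (Cfg d))} (hΨ : S.IsZM Ψ) :
    Tendsto (fun R => inner ℂ Ψ (Gv S (f R))) atTop (𝓝 0) := by
  rw [Metric.tendsto_nhds]
  intro ε hε
  set δ : ℝ := (ε / (2 * (Real.sqrt M₀ + 1))) ^ 2 with hδ
  have hδ0 : 0 < δ := by positivity
  obtain ⟨R₁, hR₁⟩ := (hK Ψ hΨ δ hδ0).exists
  obtain ⟨u, hu, hu1, -⟩ := hR₁
  obtain ⟨c, hc, hsupp⟩ := hs
  obtain ⟨r, hr⟩ := hu.1.2.isBounded.subset_closedBall 0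
  filter_upwards [hsupp, hf, eventually_ge_atTop (r / c)] with R h1 ⟨h2, h3⟩ h4
  rw [dist_zero_right]
  have h5 : inner ℂ (U.HB.toL hu.1) (Gv S (f R)) = 0 := by
    rw [Gv_of h2, toL_inner]
    unfold ipr
    rw [← integral_zero (Cfg d) ℂ]
    refine integral_congr_ae (Eventually.of_forall fun x => ?_)
    by_cases hx : x ∈ tsupport u
    · have h6 : ‖x‖ ≤ r := by simpa using hr hx
      have h7 : ‖x‖ ≤ c * R := by
        rw [div_le_iff₀ hc] at h4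
        linarith
      simp only
      rw [h1 x h7, inner_zero_right]
    · simp only
      rw [image_eq_zero_of_notMem_tsupport hx, inner_zero_left]
  have h6 : inner ℂ Ψ (Gv S (f R)) = inner ℂ (Ψ - U.HB.toL hu.1) (Gv S (f R)) := by
    rw [inner_sub_left, h5, sub_zero]
  have h7 : ‖Ψ - U.HB.toL hu.1‖ ^ 2 ≤ δ := by
    rw [norm_sub_rev]
    have h8 : U.HB.toL hu.1 - Ψ =ᵐ[volume] fun x => u x - Ψ x := by
      filter_upwards [Lp.coeFn_sub (U.HB.toL hu.1) Ψ, U.HB.coe_toL hu.1] with x h1 h2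
      rw [h1, Pi.sub_apply, h2]
    rw [U.HB.norm_Lp h8]
    exact hu1
  have h8 : ‖Ψ - U.HB.toL hu.1‖ ≤ ε / (2 * (Real.sqrt M₀ + 1)) :=
    abs_le_of_sq_le_sq' h7 (by positivity) |>.2
  have h9 : ‖Gv S (f R)‖ ≤ Real.sqrt M₀ + 1 := by
    have h10 : ‖Gv S (f R)‖ ≤ Real.sqrt M₀ := by
      rw [Gv_of h2]
      refine Real.le_sqrt_of_sq_le ?_
      rw [toL_norm]
      exact h3
    linarith
  rw [h6]
  calc ‖inner ℂ (Ψ - U.HB.toL hu.1) (Gv S (f R))‖ ≤ ‖Ψ - U.HB.toL hu.1‖ * ‖Gv S (f R)‖ :=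
        norm_inner_le_norm _ _
    _ ≤ ε / (2 * (Real.sqrt M₀ + 1)) * (Real.sqrt M₀ + 1) := by gcongr
    _ = ε / 2 := by field_simp
    _ < ε := by linarith

/-- positivity of the limiting Gram matrix -/
lemma pos_gram {b : ℕ} [Fintype ι] [DecidableEq ι] {Ψ : Fin b → Lp F 2 (volume : Measure (Cfg d))}
    {κ κ₁ : ℝ} (hκ1 : κ ≤ κ₁)
    (hlow : ∀ c : Fin b → ℂ, κ₁ * ∑ k, ‖c k‖ ^ 2 ≤ ‖∑ k, c k • Ψ k‖ ^ 2) (n : ι → ℝ) (hn : ∀ i, κ ≤ n i)
    (G : Fin b ⊕ ι → Fin b ⊕ ι → ℂ) (hG1 : ∀ j j', G (Sum.inl j) (Sum.inl j') = inner ℂ (Ψ j) (Ψ j'))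
    (hG2 : ∀ i i', G (Sum.inr i) (Sum.inr i') = if i = i' then ((n i : ℝ) : ℂ) else 0)
    (hG3 : ∀ j i, G (Sum.inl j) (Sum.inr i) = 0) (hG4 : ∀ j i, G (Sum.inr i) (Sum.inl j) = 0)
    (c : Fin b ⊕ ι → ℂ) :
    κ * ∑ k, ‖c k‖ ^ 2 ≤ (∑ k, ∑ l, c l * (conj (c k) * G k l)).re := by
  have e1 : (∑ k, ∑ l, c l * (conj (c k) * G k l)) =
      (∑ j, ∑ j', c (Sum.inl j') * (conj (c (Sum.inl j)) * inner ℂ (Ψ j) (Ψ j'))) +
        ∑ i, ((‖c (Sum.inr i)‖ ^ 2 * n i : ℝ) : ℂ) := by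
    rw [Fintype.sum_sum_type]
    congr 1
    · refine Finset.sum_congr rfl fun j _ => ?_
      rw [Fintype.sum_sum_type]
      simp [hG1, hG3]
    · refine Finset.sum_congr rfl fun i _ => ?_
      rw [Fintype.sum_sum_type]
      simp only [hG2, hG4, mul_zero, Finset.sum_const_zero, zero_add, mul_ite, Finset.sum_ite_eq,
        Finset.mem_univ, if_true]
      rw [← mul_assoc, Complex.mul_conj, Complex.normSq_eq_norm_sq]
      push_cast
      ring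
  rw [e1, Complex.add_re, ← norm_sum_sq, ← Complex.ofReal_sum, Complex.ofReal_re, Fintype.sum_sum_type, mul_add]
  refine add_le_add ?_ ?_
  · refine le_trans ?_ (hlow fun j => c (Sum.inl j))
    exact mul_le_mul_of_nonneg_right hκ1 (Finset.sum_nonneg fun k _ => by positivity)
  · rw [Finset.mul_sum]
    refine Finset.sum_le_sum fun i _ => ?_
    have h1 := hn i
    have h2 : (0 : ℝ) ≤ ‖c (Sum.inr i)‖ ^ 2 := by positivity
    nlinarith

theorem s7W [Fintype ι] (hQQ : QQStmt S) (hD : DenseStmt S) (hJ : JbdStmt S)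
    (hA : ∃ C : ℝ, 0 ≤ C ∧ ∀ u : Cfg d → F, S.GInv u →
      ∃ v : Cfg d → F, S.InvP plT v ∧ (∀ m, S.en m v ≤ S.en m u) ∧
      nsq (fun x => u x - v x) ≤ C * (nsq (S.J 1 2 u) + nsq (S.J 3 4 u) + nsq (S.J 5 6 u) + nsq (S.J 7 8 u)))
    (hK : KerCutStmt S) : AJ.S7Stmt S P := by
  classical
  rintro hE ⟨J, hRep⟩ b Ψ hΨ hli
  obtain ⟨κ₁, hκ₁, hlow⟩ := indep_lower hli
  choose c₀ M₀ hc₀ hM₀ htr using fun i => trialW P hE hQQ hD hJ hA hRep i
  obtain ⟨κ₂, hκ₂, hκ₂c⟩ : ∃ κ₂ : ℝ, 0 < κ₂ ∧ ∀ i, κ₂ ≤ c₀ i := by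
    rcases isEmpty_or_nonempty ι with h | h
    · exact ⟨1, one_pos, fun i => (IsEmpty.false i).elim⟩
    · obtain ⟨i₀, hi₀⟩ := Finite.exists_min c₀
      exact ⟨c₀ i₀, hc₀ i₀, hi₀⟩
  set κ : ℝ := min κ₁ κ₂ with hκ
  have hκ0 : 0 < κ := lt_min hκ₁ hκ₂
  have hκ1 : κ ≤ κ₁ := min_le_left _ _
  have hκ4 : κ ≤ κ₂ := min_le_right _ _
  set K := Fin b ⊕ ι with hKdef
  set N : ℝ := (Fintype.card K : ℝ) with hN
  have hN0 : 0 ≤ N := Nat.cast_nonneg _
  set η : ℝ := min (1 / 2) (κ / (8 * (N + 1))) with hη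
  have hη0 : 0 < η := lt_min (by norm_num) (by positivity)
  have hη2 : η * N ≤ κ / 8 := by
    have h1 : η ≤ κ / (8 * (N + 1)) := min_le_right _ _
    rw [le_div_iff₀ (by positivity)] at h1
    nlinarith
  choose a ε hε hev using fun i => htr i η hη0
  have hev1 : ∀ i, ∀ᶠ R in atTop, S.GInv (J i (a i) (ε i) R) ∧ nsq (J i (a i) (ε i) R) ≤ M₀ i :=
    fun i => (hev i).mono fun R h => ⟨h.1, h.2.2.1⟩
  have hall : ∀ᶠ R : ℝ in atTop, ∀ i, S.GInv (J i (a i) (ε i) R) ∧ c₀ i ≤ nsq (J i (a i) (ε i) R) ∧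
      nsq (J i (a i) (ε i) R) ≤ M₀ i ∧ ∃ v : Cfg d → F, S.InvP plT v ∧
      nsq (fun x => v x - J i (a i) (ε i) R x) ≤ η ∧ R ^ 2 * S.en (R⁻¹ ^ 2) v ≤ η := by
    rw [eventually_all]
    exact hev
  -- ideal vectors and their Gram matrix
  set y : ℝ → K → Lp F 2 (volume : Measure (Cfg d)) :=
    fun R k => Sum.elim Ψ (fun i => Gv S (J i (a i) (ε i) R)) k with hy
  set G : ℝ → K → K → ℂ := fun R k l => match k, l with
    | Sum.inl j, Sum.inl j' => inner ℂ (Ψ j) (Ψ j')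
    | Sum.inr i, Sum.inr i' => if i = i' then ((nsq (J i (a i) (ε i) R) : ℝ) : ℂ) else 0
    | _, _ => 0 with hG
  have hGlim : ∀ k l, Tendsto (fun R => inner ℂ (y R k) (y R l) - G R k l) atTop (𝓝 0) := by
    rintro (j | i) (j' | i')
    · have h1 : ∀ R, inner ℂ (y R (Sum.inl j)) (y R (Sum.inl j')) - G R (Sum.inl j) (Sum.inl j') = 0 := by
        intro R
        simp [hy, hG]
      simp only [h1]
      exact tendsto_const_nhds
    · have h1 : ∀ R, inner ℂ (y R (Sum.inl j)) (y R (Sum.inr i')) - G R (Sum.inl j) (Sum.inr i') =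
          inner ℂ (Ψ j) (Gv S (J i' (a i') (ε i') R)) := by
        intro R
        simp [hy, hG]
      simp only [h1]
      exact mixedW hK (hM₀ i') (hev1 i') (hRep.supp i' (a i') (ε i') (hε i')) (hΨ j)
    · have h1 : ∀ R, inner ℂ (y R (Sum.inr i)) (y R (Sum.inl j')) - G R (Sum.inr i) (Sum.inl j') =
          conj (inner ℂ (Ψ j') (Gv S (J i (a i) (ε i) R))) := by
        intro R
        simp [hy, hG, inner_conj_symm]
      simp only [h1]
      have h2 := (Complex.continuous_conj.tendsto _).comp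
        (mixedW hK (hM₀ i) (hev1 i) (hRep.supp i (a i) (ε i) (hε i)) (hΨ j'))
      rw [map_zero] at h2
      exact h2
    · refine tendsto_const_nhds.congr' ?_
      by_cases hii : i = i'
      · subst hii
        filter_upwards [hev1 i] with R hR
        have h1 : inner ℂ (y R (Sum.inr i)) (y R (Sum.inr i)) = ((nsq (J i (a i) (ε i) R) : ℝ) : ℂ) := by
          change inner ℂ (Gv S (J i (a i) (ε i) R)) (Gv S (J i (a i) (ε i) R)) = _
          rw [Gv_of hR.1, toL_inner, ipr_self]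
        have h3 : G R (Sum.inr i) (Sum.inr i) = ((nsq (J i (a i) (ε i) R) : ℝ) : ℂ) := by
          simp only [hG, if_true]
        rw [h1, h3, sub_self]
      · filter_upwards [hev1 i, hev1 i', hRep.disj i i' hii (a i) (a i') (ε i) (ε i') (hε i) (hε i')] with R hR hR' hd
        have h1 : inner ℂ (y R (Sum.inr i)) (y R (Sum.inr i')) = (0 : ℂ) := by
          change inner ℂ (Gv S (J i (a i) (ε i) R)) (Gv S (J i' (a i') (ε i') R)) = _
          rw [Gv_of hR.1, Gv_of hR'.1, toL_inner]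
          unfold ipr
          rw [← integral_zero (Cfg d) ℂ]
          refine integral_congr_ae (Eventually.of_forall fun x => ?_)
          rcases hd x with h | h
          · simp only [h, inner_zero_left]
          · simp only [h, inner_zero_right]
        have h3 : G R (Sum.inr i) (Sum.inr i') = 0 := by simp only [hG, if_neg hii]
        rw [h1, h3, sub_self]
  have hpos : ∀ᶠ R : ℝ in atTop, ∀ c : K → ℂ, κ * ∑ k, ‖c k‖ ^ 2 ≤
      (∑ k, ∑ l, c l * (conj (c k) * G R k l)).re := by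
    filter_upwards [hall] with R hR c
    exact pos_gram hκ1 hlow (fun i => nsq (J i (a i) (ε i) R)) (fun i => hκ4.trans ((hκ₂c i).trans (hR i).2.1))
      (G R) (fun j j' => rfl) (fun i i' => rfl) (fun j i => rfl) (fun j i => rfl) c
  have hgram := gram_lowerW y G hGlim hκ0 hpos
  -- choose `R`
  have hker : ∀ᶠ R : ℝ in atTop, ∀ j : Fin b, ∃ u : Cfg d → F, S.Inv u ∧
      nsq (fun x => u x - Ψ j x) ≤ η ∧ R ^ 2 * S.en (R⁻¹ ^ 2) u ≤ η := by
    rw [eventually_all]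
    exact fun j => hK (Ψ j) (hΨ j) η hη0
  obtain ⟨R, hR, hRg, hRk, hRa⟩ := ((eventually_ge_atTop (1 : ℝ)).and (hgram.and (hker.and hall))).exists
  have hR0 : 0 < R := by linarith
  choose u hu hu1 hu2 using hRk
  choose v hv hv1 hv2 using fun i => (hRa i).2.2.2
  set z : K → Cfg d → F := Sum.elim u v with hz
  have hzi : ∀ k, S.InvP plT (z k) := by
    rintro (j | i)
    · exact Inv_InvP (hu j)
    · exact hv i
  have hze : ∀ k, S.en (R⁻¹ ^ 2) (z k) ≤ η / R ^ 2 := by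
    rintro (j | i)
    · rw [le_div_iff₀ (by positivity), mul_comm]
      exact hu2 j
    · rw [le_div_iff₀ (by positivity), mul_comm]
      exact hv2 i
  have hzy : ∀ k, ‖U.HB.toL (hzi k).1 - y R k‖ ≤ Real.sqrt η := by
    rintro (j | i)
    · refine Real.le_sqrt_of_sq_le ?_
      have h1 : U.HB.toL (hzi (Sum.inl j)).1 - y R (Sum.inl j) =ᵐ[volume] fun x => u j x - Ψ j x := by
        filter_upwards [Lp.coeFn_sub (U.HB.toL (hzi (Sum.inl j)).1) (Ψ j),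
          U.HB.coe_toL (hzi (Sum.inl j)).1] with x h1 h2
        change (U.HB.toL (hzi (Sum.inl j)).1 - Ψ j : Lp F 2 (volume : Measure (Cfg d))) x = _
        rw [h1, Pi.sub_apply, h2]
        rfl
      rw [U.HB.norm_Lp h1]
      exact hu1 j
    · refine Real.le_sqrt_of_sq_le ?_
      have h0 : y R (Sum.inr i) = U.HB.toL (hRa i).1.1 := Gv_of (hRa i).1
      rw [h0]
      have h1 : U.HB.toL (hzi (Sum.inr i)).1 - U.HB.toL (hRa i).1.1 =ᵐ[volume]
          fun x => v i x - J i (a i) (ε i) R x := by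
        filter_upwards [Lp.coeFn_sub (U.HB.toL (hzi (Sum.inr i)).1) (U.HB.toL (hRa i).1.1),
          U.HB.coe_toL (hzi (Sum.inr i)).1, U.HB.coe_toL (hRa i).1.1] with x h1 h2 h3
        rw [h1, Pi.sub_apply, h2, h3]
        rfl
      rw [U.HB.norm_Lp h1]
      exact hv1 i
  refine ⟨R⁻¹ ^ 2, by positivity, lowP_of (K := K) hzi (fun c hc => ?_) (by simp [hKdef])⟩
  have hcpos : 0 < ∑ k, ‖c k‖ ^ 2 := by
    obtain ⟨k, hk⟩ := Function.ne_iff.mp hc
    refine Finset.sum_pos' (fun k _ => by positivity) ⟨k, Finset.mem_univ k, ?_⟩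
    have : 0 < ‖c k‖ := norm_pos_iff.mpr hk
    positivity
  have h1 := gram_pert (y := y R) (z := fun k => U.HB.toL (hzi k).1) (κ := κ / 2) (by positivity)
    (Real.sqrt_nonneg η) (by rw [Real.sq_sqrt hη0.le]; linarith) hzy c (hRg c)
  rw [toL_comb] at h1
  have h2 := en_comb_le (S := S) (R⁻¹ ^ 2) c (fun k => (hzi k).1) hze
  have h3 : (Fintype.card K : ℝ) * (∑ k, ‖c k‖ ^ 2) * (η / R ^ 2) = (η * N) * (∑ k, ‖c k‖ ^ 2) * R⁻¹ ^ 2 := by
    rw [hN]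
    field_simp
  rw [h3] at h2
  have hRi : 0 < R⁻¹ ^ 2 := by positivity
  calc S.en (R⁻¹ ^ 2) (fun x => ∑ k, c k • z k x) ≤ (η * N) * (∑ k, ‖c k‖ ^ 2) * R⁻¹ ^ 2 := h2
    _ ≤ (κ / 8) * (∑ k, ‖c k‖ ^ 2) * R⁻¹ ^ 2 := by gcongr
    _ < 8 * R⁻¹ ^ 2 * (κ / 2 / 4 * ∑ k, ‖c k‖ ^ 2) := by
        have : 0 < κ * (∑ k, ‖c k‖ ^ 2) * R⁻¹ ^ 2 := by positivity
        nlinarith
    _ ≤ _ := by gcongr

end Vale.Agent.P353.Z.AJ
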